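import Vale.Agent.P072.MathlibUsed
import Vale.Agent.P072.Defs
import Vale.Agent.P072.TVDefs

set_option linter.all false

section

section

/-! Combinatorial part of the potential: hierarchical exponents. -/

namespace Vale.Agent.P072.Pot

open Finset

/-- partial dot product of an integer vector with a real sequence -/
def dot (v : ℕ → ℤ) (p : ℕ → ℝ) (k : ℕ) : ℝ := ∑ i ∈ range k, (v i : ℝ) * p i

/-- parameters of the construction -/
structure Params where
  n : ℕ
  B : ℕ → ℤ
  m : ℕ → ℝ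
  T : ℝ
  D : ℝ
  hB1 : ∀ k, 1 ≤ B k
  hB2 : ∀ k < n, 2 * (B (k + 1)) ^ 2 ≤ B k
  hBD : ∀ k, (B k : ℝ) ≤ D
  hm : ∀ k < n, m k = m (k + 1) * m (k + 1)
  hmM : ∀ k ≤ n, 3 * D ^ (n + 2) ≤ m k
  hT : 1 ≤ T

variable (P : Params)

lemma Params.D_ge_one : 1 ≤ P.D := by
  have h1 : (1 : ℝ) ≤ (P.B 0 : ℝ) := by exact_mod_cast P.hB1 0
  exact h1.trans (P.hBD 0)

lemma Params.m_ge_three {k : ℕ} (hk : k ≤ P.n) : 3 ≤ P.m k := by
  have h1 : (1 : ℝ) ≤ P.D ^ (P.n + 2) := one_le_pow₀ P.D_ge_one
  linarith only [h1, P.hmM k hk]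

/-- `q` is a critical value for position `k`, given the entries before `k`. -/
def Crit (p : ℕ → ℝ) (k : ℕ) (q : ℝ) : Prop :=
  ∃ v : ℕ → ℤ, (∀ i, |v i| ≤ P.B (k + 1)) ∧ v k ≠ 0 ∧ dot v p k + v k * q = 0

open Classical in
/-- the error scale before position `k` -/
noncomputable def scale (p : ℕ → ℝ) : ℕ → ℝ
  | 0 => P.T
  | k + 1 => if Crit P p k (p k) then scale p k * P.m (k + 1) else scale p k

/-- thickness at position `k` -/
noncomputable def tau (p : ℕ → ℝ) (k : ℕ) : ℝ := scale P p k * P.m (k + 1)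

/-- allowed values at position `k` -/
def Allowed (p : ℕ → ℝ) (k : ℕ) (z : ℝ) : Prop :=
  Crit P p k z ∨ ∀ q, Crit P p k q → tau P p k ≤ |z - q|

/-- valid prefix of length `k` -/
def ValidTo (p : ℕ → ℝ) (k : ℕ) : Prop :=
  ∀ j < k, (∀ i, i + 1 = j → p j ≤ p i) ∧ Allowed P p j (p j)

/-! ### Congruence -/

lemma dot_congr {v : ℕ → ℤ} {p q : ℕ → ℝ} {k : ℕ} (h : ∀ i < k, p i = q i) :
    dot v p k = dot v q k := by
  unfold dot
  exact sum_congr rfl fun i hi => by rw [h i (mem_range.1 hi)]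

lemma crit_congr {p q : ℕ → ℝ} {k : ℕ} (h : ∀ i < k, p i = q i) (z : ℝ) :
    Crit P p k z ↔ Crit P q k z := by
  unfold Crit
  simp only [dot_congr h]

lemma scale_congr {p q : ℕ → ℝ} {k : ℕ} (h : ∀ i < k, p i = q i) :
    scale P p k = scale P q k := by
  induction k with
  | zero => rfl
  | succ k ih =>
    have ih' := ih fun i hi => h i (by omega)
    have hc := crit_congr P (p := p) (q := q) (k := k) (fun i hi => h i (by omega)) (p k)
    have hk : p k = q k := h k (by omega)
    unfold scale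
    rw [ih']
    by_cases hcr : Crit P p k (p k)
    · have : Crit P q k (q k) := by rw [← hk]; exact hc.1 hcr
      simp [hcr, this]
    · have : ¬ Crit P q k (q k) := by rw [← hk]; exact fun hh => hcr (hc.2 hh)
      simp [hcr, this]

lemma tau_congr {p q : ℕ → ℝ} {k : ℕ} (h : ∀ i < k, p i = q i) :
    tau P p k = tau P q k := by
  unfold tau; rw [scale_congr P h]

lemma allowed_congr {p q : ℕ → ℝ} {k : ℕ} (h : ∀ i < k, p i = q i) (z : ℝ) :
    Allowed P p k z ↔ Allowed P q k z := by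
  unfold Allowed
  simp only [crit_congr P h, tau_congr P h]

lemma validTo_congr {p q : ℕ → ℝ} {k : ℕ} (h : ∀ i < k, p i = q i) (hp : ValidTo P p k) :
    ValidTo P q k := by
  intro j hj
  obtain ⟨h1, h2⟩ := hp j hj
  refine ⟨fun i hi => ?_, ?_⟩
  · rw [← h j hj, ← h i (by omega)]; exact h1 i hi
  · rw [← h j hj]
    exact (allowed_congr P (fun i hi => h i (by omega)) _).1 h2

lemma ValidTo.mono {p : ℕ → ℝ} {k l : ℕ} (hp : ValidTo P p k) (h : l ≤ k) : ValidTo P p l :=
  fun j hj => hp j (by omega)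

lemma ValidTo.antitone {p : ℕ → ℝ} {k : ℕ} (hp : ValidTo P p k) {i j : ℕ} (hij : i ≤ j)
    (hj : j < k) : p j ≤ p i := by
  induction j with
  | zero => simp at hij; subst hij; rfl
  | succ j ih =>
    rcases Nat.lt_or_ge i (j + 1) with h | h
    · exact ((hp (j + 1) hj).1 j rfl).trans (ih (by omega) (by omega))
    · have : i = j + 1 := by omega
      subst this; rfl

lemma validTo_succ {p : ℕ → ℝ} {k : ℕ} (hp : ValidTo P p k) {z : ℝ} (hz : Allowed P p k z)
    (hz2 : ∀ i, i + 1 = k → z ≤ p i) : ValidTo P (Function.update p k z) (k + 1) := by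
  have hcongr : ∀ i < k, p i = Function.update p k z i := fun i hi => by
    rw [Function.update_of_ne (by omega)]
  intro j hj
  rcases Nat.lt_or_ge j k with h | h
  · exact validTo_congr P hcongr hp j h
  · have hjk : j = k := by omega
    subst hjk
    refine ⟨fun i hi => ?_, ?_⟩
    · rw [Function.update_self, Function.update_of_ne (by omega)]
      exact hz2 i hi
    · rw [Function.update_self]
      exact (allowed_congr P hcongr _).1 hz

/-! ### Scales -/

lemma scale_pos_aux (p : ℕ → ℝ) {k : ℕ} (hk : k ≤ P.n) : P.T ≤ scale P p k := by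
  induction k with
  | zero => exact le_refl _
  | succ k ih =>
    have ih' := ih (by omega)
    have hm := P.m_ge_three hk
    have hT := P.hT
    unfold scale
    split_ifs
    · nlinarith only [ih', hm, hT]
    · exact ih'

lemma scale_ge_one (p : ℕ → ℝ) {k : ℕ} (hk : k ≤ P.n) : 1 ≤ scale P p k :=
  P.hT.trans (scale_pos_aux P p hk)

lemma scale_mono_succ (p : ℕ → ℝ) {k : ℕ} (hk : k < P.n) :
    scale P p k ≤ scale P p (k + 1) := by
  have hm := P.m_ge_three (k := k + 1) hk
  have h1 := scale_ge_one P p (k := k) (by omega)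
  conv_rhs => unfold scale
  split_ifs
  · nlinarith only [hm, h1]
  · exact le_refl _

lemma scale_mono (p : ℕ → ℝ) {i j : ℕ} (hij : i ≤ j) (hj : j ≤ P.n) :
    scale P p i ≤ scale P p j := by
  induction j with
  | zero => simp at hij; subst hij; rfl
  | succ j ih =>
    rcases Nat.lt_or_ge i (j + 1) with h | h
    · exact (ih (by omega) (by omega)).trans (scale_mono_succ P p (by omega))
    · have : i = j + 1 := by omega
      subst this; rfl

lemma scale_le_tau (p : ℕ → ℝ) {k : ℕ} (hk : k < P.n) : scale P p k ≤ tau P p k := by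
  have hm := P.m_ge_three (k := k + 1) hk
  have h1 := scale_ge_one P p (k := k) (by omega)
  unfold tau
  nlinarith only [hm, h1]

lemma tau_ge_three (p : ℕ → ℝ) {k : ℕ} (hk : k < P.n) : 3 ≤ tau P p k := by
  have hm := P.m_ge_three (k := k + 1) hk
  have h1 := scale_ge_one P p (k := k) (by omega)
  unfold tau
  nlinarith only [hm, h1]

lemma scale_succ_of_crit {p : ℕ → ℝ} {k : ℕ} (h : Crit P p k (p k)) :
    scale P p (k + 1) = tau P p k := by
  unfold scale tau
  simp [h]

lemma scale_succ_of_not_crit {p : ℕ → ℝ} {k : ℕ} (h : ¬ Crit P p k (p k)) :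
    scale P p (k + 1) = scale P p k := by
  conv_lhs => unfold scale
  simp [h]

lemma scale_step (p : ℕ → ℝ) {k : ℕ} (hk : k < P.n) :
    scale P p (k + 1) * P.m (k + 1) ≤ scale P p k * P.m k := by
  have hm := P.m_ge_three (k := k + 1) hk
  have h1 := scale_ge_one P p (k := k) (by omega)
  have hmk := P.hm k (by omega)
  by_cases hc : Crit P p k (p k)
  · rw [scale_succ_of_crit P hc, hmk]
    unfold tau
    exact le_of_eq (mul_assoc _ _ _)
  · rw [scale_succ_of_not_crit P hc, hmk]
    have : P.m (k + 1) ≤ P.m (k + 1) * P.m (k + 1) := by nlinarith only [hm]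
    exact mul_le_mul_of_nonneg_left this (by linarith only [h1])

/-- `scale k * m k` is nonincreasing. -/
lemma scale_mul_m_le (p : ℕ → ℝ) {k : ℕ} (hk : k ≤ P.n) :
    scale P p k * P.m k ≤ P.T * P.m 0 := by
  induction k with
  | zero => exact le_refl _
  | succ k ih => exact (scale_step P p (by omega)).trans (ih (by omega))

/-- the maximal thickness -/
noncomputable def Params.tmax : ℝ := P.T * P.m 0

lemma tau_le_tmax (p : ℕ → ℝ) {k : ℕ} (hk : k < P.n) : tau P p k ≤ P.tmax := by
  have h := scale_mul_m_le P p (k := k) (by omega)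
  have hm := P.m_ge_three (k := k + 1) hk
  have h1 := scale_ge_one P p (k := k) (by omega)
  have hmk := P.hm k (by omega)
  unfold tau Params.tmax
  refine le_trans ?_ h
  rw [hmk]
  have : P.m (k + 1) ≤ P.m (k + 1) * P.m (k + 1) := by nlinarith only [hm]
  exact mul_le_mul_of_nonneg_left this (by linarith only [h1])

/-! ### Separation -/

lemma dot_elim (u v : ℕ → ℤ) (p : ℕ → ℝ) (k : ℕ) (a b : ℤ) :
    dot (fun i => a * v i - b * u i) p k = a * dot v p k - b * dot u p k := by
  unfold dot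
  rw [mul_sum, mul_sum, ← sum_sub_distrib]
  refine sum_congr rfl fun i _ => ?_
  push_cast
  ring

lemma elim_bound {a b x y c : ℤ} (ha : |a| ≤ c) (hb : |b| ≤ c) (hx : |x| ≤ c) (hy : |y| ≤ c) :
    |a * x - b * y| ≤ 2 * c ^ 2 := by
  have hc : 0 ≤ c := (abs_nonneg a).trans ha
  calc |a * x - b * y| ≤ |a * x| + |b * y| := abs_sub _ _
    _ = |a| * |x| + |b| * |y| := by rw [abs_mul, abs_mul]
    _ ≤ c * c + c * c := by
        gcongr
    _ = 2 * c ^ 2 := by ring

lemma dot_succ (v : ℕ → ℤ) (p : ℕ → ℝ) (k : ℕ) : dot v p (k + 1) = dot v p k + v k * p k := by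
  unfold dot; rw [sum_range_succ]

/-- Separation: relations on a valid prefix vanish or are large. -/
lemma sep {p : ℕ → ℝ} {k : ℕ} (hk : k ≤ P.n) (hp : ValidTo P p k) (v : ℕ → ℤ)
    (hv : ∀ i, |v i| ≤ P.B k) :
    dot v p k = 0 ∨ scale P p k * P.m k / P.D ^ k ≤ |dot v p k| := by
  induction k generalizing v with
  | zero => left; simp [dot]
  | succ k ih =>
    have hk' : k < P.n := by omega
    have ih' := ih (by omega) (hp.mono P (by omega))
    have hm := P.m_ge_three hk
    have hm0 := P.m_ge_three (k := k) (by omega)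
    have h1 := scale_ge_one P p (k := k) (by omega)
    have hmk := P.hm k (by omega)
    have hD := P.D_ge_one
    have hDk : (1 : ℝ) ≤ P.D ^ k := one_le_pow₀ hD
    have hDk1 : (1 : ℝ) ≤ P.D ^ (k + 1) := one_le_pow₀ hD
    have hB2 := P.hB2 k hk'
    have hB1 := P.hB1 (k + 1)
    -- scale (k+1) * m (k+1) ≤ scale k * m k
    have hstep := scale_step P p hk'
    have hpos1 : 0 ≤ scale P p (k + 1) * P.m (k + 1) := by
      have := scale_ge_one P p (k := k + 1) hk
      (clear * - this hm; positivity)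
    rw [dot_succ]
    by_cases hvk : v k = 0
    · -- last entry zero
      have hv' : ∀ i, |v i| ≤ P.B k := fun i => by
        refine (hv i).trans ?_
        nlinarith only [hB2]
      rcases ih' v hv' with h | h
      · left; rw [h, hvk]; simp
      · right
        rw [hvk]
        simp only [Int.cast_zero, zero_mul, add_zero]
        refine le_trans ?_ h
        rw [div_le_div_iff₀ (by positivity) (by positivity)]
        calc scale P p (k + 1) * P.m (k + 1) * P.D ^ k
            ≤ scale P p k * P.m k * P.D ^ k := by (clear * - hstep hD; gcongr)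
          _ ≤ scale P p k * P.m k * P.D ^ (k + 1) := by
              have : P.D ^ k ≤ P.D ^ (k + 1) := pow_le_pow_right₀ hD (by omega)
              have h0 : 0 ≤ scale P p k * P.m k := by positivity
              exact mul_le_mul_of_nonneg_left this h0
    · by_cases hc : Crit P p k (p k)
      · -- eliminate with the relation
        obtain ⟨u, hu, huk, hudot⟩ := hc
        by_cases hz : dot v p k + v k * p k = 0
        · left; exact hz
        · right
          have hb : ∀ i, |(fun i => u k * v i - v k * u i) i| ≤ P.B k := fun i => by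
            refine (elim_bound (hu k) (hv k) (hv i) (hu i)).trans hB2
          have hdot : dot (fun i => u k * v i - v k * u i) p k
              = u k * (dot v p k + v k * p k) := by
            rw [dot_elim]
            have : dot u p k = - (u k * p k) := by linarith only [hudot]
            rw [this]; ring
          have hne : dot (fun i => u k * v i - v k * u i) p k ≠ 0 := by
            rw [hdot]
            exact mul_ne_zero (by exact_mod_cast huk) hz
          have h := (ih' _ hb).resolve_left hne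
          rw [hdot, abs_mul] at h
          have huD : |(u k : ℝ)| ≤ P.D := by
            have : (|u k| : ℤ) ≤ P.B (k + 1) := hu k
            have h2 : ((|u k| : ℤ) : ℝ) ≤ (P.B (k + 1) : ℝ) := by exact_mod_cast this
            rw [Int.cast_abs] at h2
            exact h2.trans (P.hBD _)
          have h3 : scale P p k * P.m k / P.D ^ k ≤ P.D * |dot v p k + v k * p k| :=
            h.trans (mul_le_mul_of_nonneg_right huD (abs_nonneg _))
          rw [div_le_iff₀ (by positivity)] at h3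
          rw [div_le_iff₀ (by positivity)]
          refine hstep.trans (h3.trans (le_of_eq ?_))
          rw [pow_succ]; ring
      · -- not critical: validity
        right
        have hval := (hp k (by omega)).2
        have hq : Crit P p k (-(dot v p k) / v k) := by
          refine ⟨v, hv, hvk, ?_⟩
          have : (v k : ℝ) ≠ 0 := by exact_mod_cast hvk
          field_simp
          ring
        have hd : tau P p k ≤ |p k - (-(dot v p k) / v k)| := by
          rcases hval with h | h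
          · exact absurd h hc
          · exact h _ hq
        have hv0 : (v k : ℝ) ≠ 0 := by exact_mod_cast hvk
        have hv1 : (1 : ℝ) ≤ |(v k : ℝ)| := by
          rw [← Int.cast_abs]
          exact_mod_cast Int.one_le_abs hvk
        have heq : dot v p k + v k * p k = v k * (p k - (-(dot v p k) / v k)) := by
          field_simp
          ring
        rw [heq, abs_mul]
        have h4 : tau P p k ≤ |(v k : ℝ)| * |p k - (-(dot v p k) / v k)| := by
          calc tau P p k ≤ |p k - (-(dot v p k) / v k)| := hd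
            _ = 1 * |p k - (-(dot v p k) / v k)| := (one_mul _).symm
            _ ≤ _ := mul_le_mul_of_nonneg_right hv1 (abs_nonneg _)
        refine le_trans ?_ h4
        have h5 : scale P p (k + 1) * P.m (k + 1) = tau P p k := by
          rw [scale_succ_of_not_crit P hc]; rfl
        rw [h5]
        exact div_le_self (by have := tau_ge_three P p hk'; linarith only [this]) hDk1

/-- Distinct critical values are far apart. -/
lemma sep_crit {p : ℕ → ℝ} {k : ℕ} (hk : k < P.n) (hp : ValidTo P p k) {q q' : ℝ}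
    (hq : Crit P p k q) (hq' : Crit P p k q') (hne : q ≠ q') :
    2 * tau P p k + 1 ≤ |q - q'| := by
  obtain ⟨v, hv, hvk, hvdot⟩ := hq
  obtain ⟨u, hu, huk, hudot⟩ := hq'
  have hB2 := P.hB2 k hk
  have hb : ∀ i, |(fun i => u k * v i - v k * u i) i| ≤ P.B k := fun i =>
    (elim_bound (hu k) (hv k) (hv i) (hu i)).trans hB2
  have hdot : dot (fun i => u k * v i - v k * u i) p k = (u k * v k) * (q' - q) := by
    rw [dot_elim]
    have h1 : dot u p k = - (u k * q') := by linarith only [hudot]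
    have h2 : dot v p k = - (v k * q) := by linarith only [hvdot]
    rw [h1, h2]; ring
  have hne' : dot (fun i => u k * v i - v k * u i) p k ≠ 0 := by
    rw [hdot]
    exact mul_ne_zero (mul_ne_zero (by exact_mod_cast huk) (by exact_mod_cast hvk))
      (sub_ne_zero.2 (Ne.symm hne))
  have h := (sep P (by omega) hp _ hb).resolve_left hne'
  rw [hdot, abs_mul, abs_mul] at h
  have hD := P.D_ge_one
  have hbd : ∀ w : ℕ → ℤ, (∀ i, |w i| ≤ P.B (k + 1)) → |(w k : ℝ)| ≤ P.D := fun w hw => by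
    have h2 : ((|w k| : ℤ) : ℝ) ≤ (P.B (k + 1) : ℝ) := by exact_mod_cast hw k
    rw [Int.cast_abs] at h2
    exact h2.trans (P.hBD _)
  have huD := hbd u hu
  have hvD := hbd v hv
  have h3 : scale P p k * P.m k / P.D ^ k ≤ P.D * P.D * |q' - q| := by
    refine h.trans ?_
    (clear * - huD hvD hvk hD hne; gcongr)
  have hDk : (1 : ℝ) ≤ P.D ^ k := one_le_pow₀ hD
  rw [div_le_iff₀ (by positivity)] at h3
  have hmM := P.hmM (k + 1) (by omega)
  have htau : tau P p k * P.m (k + 1) = scale P p k * P.m k := by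
    rw [P.hm k hk]; unfold tau; ring
  have ht := tau_ge_three P p hk
  have hpow : P.D ^ (k + 2) ≤ P.D ^ (P.n + 2) := pow_le_pow_right₀ hD (by omega)
  have h4 : tau P p k * (3 * P.D ^ (P.n + 2)) ≤ P.D ^ (P.n + 2) * |q' - q| := by
    calc tau P p k * (3 * P.D ^ (P.n + 2)) ≤ tau P p k * P.m (k + 1) := by (clear * - hmM ht; gcongr)
      _ = scale P p k * P.m k := htau
      _ ≤ P.D * P.D * |q' - q| * P.D ^ k := h3
      _ = P.D ^ (k + 2) * |q' - q| := by ring
      _ ≤ P.D ^ (P.n + 2) * |q' - q| := by (clear * - hpow hne; gcongr)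
  have hDn : (0 : ℝ) < P.D ^ (P.n + 2) := by (clear * - hD; positivity)
  have h5 : 3 * tau P p k ≤ |q' - q| := by
    have : P.D ^ (P.n + 2) * (3 * tau P p k) ≤ P.D ^ (P.n + 2) * |q' - q| := by linarith only [h4]
    exact le_of_mul_le_mul_left this hDn
  rw [abs_sub_comm]
  linarith only [ht, h5]

/-- the previous entry is critical -/
lemma crit_prev (p : ℕ → ℝ) (k : ℕ) : Crit P p (k + 1) (p k) := by
  refine ⟨fun i => if i = k then 1 else if i = k + 1 then -1 else 0, fun i => ?_, ?_, ?_⟩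
  · have := P.hB1 (k + 1 + 1)
    dsimp only
    split_ifs <;> simp <;> linarith
  · simp
  · rw [dot_succ]
    have : dot (fun i => if i = k then (1 : ℤ) else if i = k + 1 then -1 else 0) p k = 0 := by
      unfold dot
      refine sum_eq_zero fun i hi => ?_
      have hi' := mem_range.1 hi
      have h1 : i ≠ k := by omega
      have h2 : i ≠ k + 1 := by omega
      simp [h1, h2]
    rw [this]
    simp

end Vale.Agent.P072.Pot
end
end

section

section

/-! Elementary moves on valid prefixes. -/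

namespace Vale.Agent.P072.Pot

open Finset

variable (P : Params)

open Classical in
/-- thickness bonus at value `z` -/
noncomputable def bon (p : ℕ → ℝ) (k : ℕ) (z : ℝ) : ℝ :=
  if Crit P p k z then tau P p k else 0

lemma bon_of_crit {p : ℕ → ℝ} {k : ℕ} {z : ℝ} (h : Crit P p k z) :
    bon P p k z = tau P p k := by unfold bon; simp [h]

lemma bon_of_not_crit {p : ℕ → ℝ} {k : ℕ} {z : ℝ} (h : ¬ Crit P p k z) :
    bon P p k z = 0 := by unfold bon; simp [h]

lemma bon_congr {p q : ℕ → ℝ} {k : ℕ} (h : ∀ i < k, p i = q i) (z : ℝ) :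
    bon P p k z = bon P q k z := by
  by_cases hc : Crit P p k z
  · rw [bon_of_crit P hc, bon_of_crit P ((crit_congr P h z).1 hc), tau_congr P h]
  · rw [bon_of_not_crit P hc, bon_of_not_crit P (fun hh => hc ((crit_congr P h z).2 hh))]

lemma bon_nonneg (p : ℕ → ℝ) {k : ℕ} (hk : k < P.n) (z : ℝ) : 0 ≤ bon P p k z := by
  unfold bon
  have := tau_ge_three P p hk
  split_ifs <;> linarith only [this]

lemma bon_le_tau (p : ℕ → ℝ) {k : ℕ} (hk : k < P.n) (z : ℝ) : bon P p k z ≤ tau P p k := by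
  unfold bon
  have := tau_ge_three P p hk
  split_ifs <;> linarith only [this]

/-- step extension -/
lemma step_ext {p : ℕ → ℝ} {k : ℕ} (hk : k < P.n) (hp : ValidTo P p k) (X : ℝ) :
    ∃ z, Allowed P p k z ∧ (∀ i, i + 1 = k → z ≤ p i) ∧ z ≤ X ∧
      (X - tau P p k ≤ z ∨ ∃ i, i + 1 = k ∧ z = p i) := by
  have ht := tau_ge_three P p hk
  by_cases h0 : ∃ i, i + 1 = k ∧ p i ≤ X
  · obtain ⟨i, hi, hX⟩ := h0
    subst hi
    refine ⟨p i, Or.inl (crit_prev P p i), fun j hj => ?_, hX, Or.inr ⟨i, rfl, rfl⟩⟩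
    have : j = i := by omega
    subst this; rfl
  · have hup : ∀ i, i + 1 = k → X < p i := fun i hi => by
      by_contra hcon
      exact h0 ⟨i, hi, not_lt.1 hcon⟩
    by_cases hA : Allowed P p k X
    · exact ⟨X, hA, fun i hi => (hup i hi).le, le_refl _, Or.inl (by linarith only [ht])⟩
    · unfold Allowed at hA
      push Not at hA
      obtain ⟨hnc, q, hq, hqX⟩ := hA
      rcases lt_trichotomy q X with h | h | h
      · refine ⟨q, Or.inl hq, fun i hi => by linarith only [h, hup i hi], h.le, Or.inl ?_⟩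
        rw [abs_of_pos (by linarith)] at hqX
        linarith
      · subst h; exact absurd hq hnc
      · rw [abs_of_neg (by linarith)] at hqX
        refine ⟨q - tau P p k, Or.inr fun q' hq' => ?_, fun i hi => by linarith only [hqX, hup i hi],
          by linarith only [hqX], Or.inl (by linarith only [h])⟩
        by_cases hqq : q = q'
        · subst hqq
          have : q - tau P p k - q = - tau P p k := by ring
          rw [this, abs_neg]
          exact le_abs_self _
        · have hs := sep_crit P hk hp hq hq' hqq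
          have h1 : |q - q'| ≤ |q - tau P p k - q'| + tau P p k := by
            have : q - q' = (q - tau P p k - q') + tau P p k := by ring
            calc |q - q'| = |(q - tau P p k - q') + tau P p k| := by rw [← this]
              _ ≤ |q - tau P p k - q'| + |tau P p k| := abs_add_le _ _
              _ = _ := by rw [abs_of_pos (by linarith only [ht] : 0 < tau P p k)]
          linarith only [hs, h1]

/-- up move -/
lemma step_up {p : ℕ → ℝ} {k : ℕ} (hk : k < P.n) (hp : ValidTo P p k) {y : ℝ}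
    (hy : Allowed P p k y) (hyp : ∀ i, i + 1 = k → y < p i) :
    ∃ z, Allowed P p k z ∧ (∀ i, i + 1 = k → z ≤ p i) ∧ y + 1 ≤ z ∧
      z - bon P p k z ≤ y + bon P p k y + 1 := by
  have ht := tau_ge_three P p hk
  by_cases hc : Crit P p k y
  · -- critical: go to y + tau
    refine ⟨y + tau P p k, Or.inr fun q' hq' => ?_, fun i hi => ?_, by linarith only [ht], ?_⟩
    · by_cases hqq : y = q'
      · subst hqq
        rw [add_sub_cancel_left]
        exact le_abs_self _
      · have hs := sep_crit P hk hp hc hq' hqq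
        have h1 : |y - q'| ≤ |y + tau P p k - q'| + tau P p k := by
          have : y - q' = (y + tau P p k - q') - tau P p k := by ring
          calc |y - q'| = |(y + tau P p k - q') - tau P p k| := by rw [← this]
            _ ≤ |y + tau P p k - q'| + |tau P p k| := abs_sub _ _
            _ = _ := by rw [abs_of_pos (by linarith only [ht] : 0 < tau P p k)]
        linarith only [hs, h1]
    · subst hi
      have hs := sep_crit P hk hp (crit_prev P p i) hc (ne_of_gt (hyp i rfl))
      rw [abs_of_pos (by linarith only [hyp i rfl])] at hs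
      linarith only [ht, hs]
    · have := bon_nonneg P p hk (y + tau P p k)
      rw [bon_of_crit P hc]
      linarith only [this]
  · have hall : ∀ q, Crit P p k q → tau P p k ≤ |y - q| := hy.resolve_left hc
    rw [bon_of_not_crit P hc]
    by_cases hA : Allowed P p k (y + 1)
    · refine ⟨y + 1, hA, fun i hi => ?_, le_refl _, ?_⟩
      · subst hi
        have h1 := hall _ (crit_prev P p i)
        rw [abs_of_neg (by linarith only [hyp i rfl])] at h1
        linarith only [ht, h1]
      · have := bon_nonneg P p hk (y + 1)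
        linarith only [this]
    · unfold Allowed at hA
      push Not at hA
      obtain ⟨hnc, q, hq, hqX⟩ := hA
      have h1 := hall q hq
      have hqy : y + tau P p k ≤ q := by
        rcases le_or_gt q y with h | h
        · rw [abs_of_nonneg (by linarith only [h])] at h1
          rw [abs_of_nonneg (by linarith only [ht, h1])] at hqX
          linarith only [hqX, h1]
        · rw [abs_of_neg (by linarith only [h])] at h1
          linarith only [h1]
      have hqy2 : q < y + 1 + tau P p k := by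
        rw [abs_of_neg (by linarith only [ht, hqy])] at hqX
        linarith only [hqX]
      refine ⟨q, Or.inl hq, fun i hi => ?_, by linarith only [ht, hqy], ?_⟩
      · subst hi
        by_contra hcon
        push Not at hcon
        have hs := sep_crit P hk hp hq (crit_prev P p i) (ne_of_gt hcon)
        rw [abs_of_pos (by linarith only [hcon])] at hs
        linarith only [ht, hqy2, hs, hyp i rfl]
      · rw [bon_of_crit P hq]
        linarith only [hqy2]

/-- down move -/
lemma step_down {p : ℕ → ℝ} {k : ℕ} (hk : k < P.n) (hp : ValidTo P p k) {y : ℝ}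
    (hy : Allowed P p k y) :
    ∃ z, Allowed P p k z ∧ z ≤ y - 1 ∧ y - tau P p k - 1 ≤ z ∧
      z - bon P p k z ≤ y - bon P p k y - 1 := by
  have ht := tau_ge_three P p hk
  by_cases hc : Crit P p k y
  · refine ⟨y - tau P p k - 1, Or.inr fun q' hq' => ?_, by linarith only [ht], le_refl _, ?_⟩
    · by_cases hqq : y = q'
      · subst hqq
        rw [abs_of_neg (by linarith only [ht])]
        linarith only []
      · have hs := sep_crit P hk hp hc hq' hqq
        have h1 : |y - q'| ≤ |y - tau P p k - 1 - q'| + (tau P p k + 1) := by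
          have : y - q' = (y - tau P p k - 1 - q') + (tau P p k + 1) := by ring
          calc |y - q'| = |(y - tau P p k - 1 - q') + (tau P p k + 1)| := by rw [← this]
            _ ≤ |y - tau P p k - 1 - q'| + |tau P p k + 1| := abs_add_le _ _
            _ = _ := by rw [abs_of_pos (by linarith only [ht] : 0 < tau P p k + 1)]
        linarith only [hs, h1]
    · rw [bon_of_crit P hc]
      have := bon_nonneg P p hk (y - tau P p k - 1)
      linarith only [this]
  · have hall : ∀ q, Crit P p k q → tau P p k ≤ |y - q| := hy.resolve_left hc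
    rw [bon_of_not_crit P hc]
    by_cases hA : Allowed P p k (y - 1)
    · refine ⟨y - 1, hA, le_refl _, by linarith only [ht], ?_⟩
      have := bon_nonneg P p hk (y - 1)
      linarith only [this]
    · unfold Allowed at hA
      push Not at hA
      obtain ⟨hnc, q, hq, hqX⟩ := hA
      have h1 := hall q hq
      have hqy : q ≤ y - tau P p k := by
        rcases le_or_gt q y with h | h
        · rw [abs_of_nonneg (by linarith only [h])] at h1
          linarith only [h1]
        · rw [abs_of_neg (by linarith only [h])] at h1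
          rw [abs_of_neg (by linarith only [ht, h1])] at hqX
          linarith only [hqX, h1]
      have hqy2 : y - 1 - tau P p k < q := by
        rw [abs_of_pos (by linarith only [ht, hqy])] at hqX
        linarith only [hqX]
      refine ⟨q, Or.inl hq, by linarith only [ht, hqy], by linarith only [hqy2], ?_⟩
      rw [bon_of_crit P hq]
      linarith only [ht, hqy]

/-- full extension of a valid prefix following targets `X`. -/
lemma extend_all (X : ℕ → ℝ) (hX : ∀ i j, i ≤ j → j < P.n → X j ≤ X i) :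
    ∀ (r k : ℕ), k + r = P.n → ∀ (p : ℕ → ℝ) (L : ℝ), ValidTo P p k →
      (∀ i, i + 1 = k → L ≤ p i) →
      ∃ p' : ℕ → ℝ, (∀ i < k, p' i = p i) ∧ ValidTo P p' P.n ∧
        ∀ i, k ≤ i → i < P.n → p' i ≤ X i ∧ min L (X i - P.tmax) ≤ p' i := by
  intro r
  induction r with
  | zero =>
    intro k hk p L hp hL
    have : k = P.n := by omega
    subst this
    exact ⟨p, fun _ _ => rfl, hp, fun i h1 h2 => by omega⟩
  | succ r ih =>
    intro k hk p L hp hL
    have hkn : k < P.n := by omega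
    obtain ⟨z, hz1, hz2, hz3, hz4⟩ := step_ext P hkn hp (X k)
    have htm := tau_le_tmax P p hkn
    have hzL : min L (X k - P.tmax) ≤ z := by
      rcases hz4 with h | ⟨i, hi, h⟩
      · exact (min_le_right _ _).trans (by linarith only [htm, h])
      · rw [h]; exact (min_le_left _ _).trans (hL i hi)
    have hv := validTo_succ P hp hz1 hz2
    obtain ⟨p', h1, h2, h3⟩ := ih (k + 1) (by omega) (Function.update p k z)
      (min L (X k - P.tmax)) hv (fun i hi => by
        have : i = k := by omega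
        subst this
        rw [Function.update_self]; exact hzL)
    refine ⟨p', fun i hi => ?_, h2, fun i hi1 hi2 => ?_⟩
    · rw [h1 i (by omega), Function.update_of_ne (by omega)]
    · rcases Nat.lt_or_ge k i with h | h
      · obtain ⟨h4, h5⟩ := h3 i (by omega) hi2
        refine ⟨h4, le_trans ?_ h5⟩
        have hXX := hX k i hi1 hi2
        apply le_min
        · apply le_min (min_le_left _ _)
          exact (min_le_right _ _).trans (by linarith only [hXX])
        · exact min_le_right _ _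
      · have : i = k := by omega
        subst this
        rw [h1 i (by omega), Function.update_self]
        exact ⟨hz3, hzL⟩

end Vale.Agent.P072.Pot
end
end

section

section

/-! Near-maximizers of the score are close to `log x`. -/

namespace Vale.Agent.P072.Pot

open Finset

variable (P : Params)

/-- cost of the entry at position `k` -/
noncomputable def wt (p : ℕ → ℝ) (k : ℕ) : ℝ := Real.exp (p k - bon P p k (p k))

/-- the score of `p` at `x` -/
noncomputable def score (p x : ℕ → ℝ) : ℝ := ∑ k ∈ range P.n, (p k * x k - wt P p k)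

/-- error allowance -/
noncomputable def Params.lam : ℝ := Real.log (16 * (P.n + 1) * (P.tmax + 1))

lemma Params.tmax_ge_one : 1 ≤ P.tmax := by
  have h1 := P.hT
  have h2 := P.m_ge_three (k := 0) (by omega)
  unfold Params.tmax
  nlinarith

lemma Params.exp_lam : Real.exp P.lam = 16 * (P.n + 1) * (P.tmax + 1) := by
  have := P.tmax_ge_one
  unfold Params.lam
  rw [Real.exp_log]
  positivity

lemma wt_pos (p : ℕ → ℝ) (k : ℕ) : 0 < wt P p k := Real.exp_pos _

lemma wt_congr {p q : ℕ → ℝ} {k : ℕ} (h : ∀ i ≤ k, p i = q i) : wt P p k = wt P q k := by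
  unfold wt
  rw [h k le_rfl, bon_congr P (fun i hi => h i hi.le)]

lemma young (p : ℝ) {x : ℝ} (hx : 0 < x) (t : ℝ) :
    p * x - Real.exp (p - t) ≤ x * (Real.log x + t) - x := by
  have h := Real.add_one_le_exp (p - t - Real.log x)
  have h2 : Real.exp (p - t) = x * Real.exp (p - t - Real.log x) := by
    rw [Real.exp_sub (p - t), Real.exp_log hx]
    field_simp
  rw [h2]
  nlinarith only [hx, h]

/-- upper bound of one term -/
lemma term_le (p : ℕ → ℝ) {k : ℕ} (hk : k < P.n) {x : ℝ} (hx : 0 < x) :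
    p k * x - wt P p k ≤ x * (Real.log x + P.tmax) := by
  have h1 := young (p k) hx P.tmax
  have h2 : Real.exp (p k - P.tmax) ≤ wt P p k := by
    unfold wt
    apply Real.exp_le_exp.2
    have := bon_le_tau P p hk (p k)
    have := tau_le_tmax P p hk
    linarith
  linarith only [hx, h1, h2]

/-- upper bound of one term, second form -/
lemma term_le_min (p : ℕ → ℝ) {k : ℕ} (hk : k < P.n) {x y : ℝ} (hx : 0 < x) (hy : p k ≤ y) :
    p k * x - wt P p k ≤ min y (Real.log x + P.tmax) * x := by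
  rcases min_choice y (Real.log x + P.tmax) with h | h
  · rw [h]
    have := wt_pos P p k
    have : p k * x ≤ y * x := mul_le_mul_of_nonneg_right hy hx.le
    (clear hk h; linarith)
  · rw [h]
    have := term_le P p hk hx
    linarith only [this]

lemma term_ge (p : ℕ → ℝ) {k : ℕ} (hk : k < P.n) {x L : ℝ} (hx : 0 < x)
    (h1 : p k ≤ Real.log x) (h2 : min L (Real.log x - P.tmax) ≤ p k) :
    min L (Real.log x - P.tmax) * x - x ≤ p k * x - wt P p k := by
  have h3 : wt P p k ≤ x := by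
    unfold wt
    calc Real.exp (p k - bon P p k (p k)) ≤ Real.exp (Real.log x) := by
          apply Real.exp_le_exp.2
          have := bon_nonneg P p hk (p k)
          linarith only [h1, this]
      _ = x := Real.exp_log hx
  have h4 : min L (Real.log x - P.tmax) * x ≤ p k * x := mul_le_mul_of_nonneg_right h2 hx.le
  linarith only [h3, h4]

lemma sum_lower {n j : ℕ} (hj : j < n) (a : ℕ → ℝ) (G c : ℝ) (_hc : 0 ≤ c)
    (h : ∀ k < n, (if k = j then G else 0) - c ≤ a k) :
    G - n * c ≤ ∑ k ∈ range n, a k := by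
  calc G - n * c = ∑ k ∈ range n, ((if k = j then G else 0) - c) := by
        rw [sum_sub_distrib, sum_ite_eq' (range n) j (fun _ => G)]
        simp [hj]
    _ ≤ _ := sum_le_sum fun k hk => h k (mem_range.1 hk)

lemma exp_one_lt_three : Real.exp 1 < 3 := by
  have := Real.exp_one_lt_d9
  linarith only [this]

/-- lower closeness -/
lemma close_lower {p x : ℕ → ℝ} (hx : ∀ i < P.n, 0 < x i)
    (hanti : ∀ i j, i ≤ j → j < P.n → x j ≤ x i) (hp : ValidTo P p P.n) {ε : ℝ}
    (hε : ∀ i < P.n, ε ≤ x i / 4)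
    (hmax : ∀ p' : ℕ → ℝ, ValidTo P p' P.n → score P p' x ≤ score P p x + ε) :
    ∀ j < P.n, p j - bon P p j (p j) - P.lam ≤ Real.log (x j) := by
  intro j hj
  by_contra hcon
  push Not at hcon
  have htm := P.tmax_ge_one
  have hlogX : ∀ i k, i ≤ k → k < P.n → Real.log (x k) ≤ Real.log (x i) := fun i k hik hk =>
    Real.log_le_log (hx k hk) (hanti i k hik hk)
  obtain ⟨z, hz1, hz2, hz3, hz4⟩ := step_down P hj (hp.mono P hj.le) (hp j hj).2
  have hv := validTo_succ P (hp.mono P hj.le) hz1 (fun i hi => by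
    have := (hp j hj).1 i hi
    linarith only [hz2, this])
  obtain ⟨p', h1, h2, h3⟩ := extend_all P (fun i => Real.log (x i)) hlogX (P.n - (j + 1)) (j + 1)
    (by omega) (Function.update p j z) z hv (fun i hi => by
      have : i = j := by omega
      subst this
      rw [Function.update_self])
  have hpre : ∀ i < j, p' i = p i := fun i hi => by
    rw [h1 i (by omega), Function.update_of_ne (by omega)]
  have hpj : p' j = z := by rw [h1 j (by omega), Function.update_self]
  have hxj := hx j hj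
  have htau := tau_le_tmax P p hj
  -- gain at j
  have hwj : wt P p' j ≤ wt P p j * Real.exp (-1) := by
    unfold wt
    rw [← Real.exp_add]
    apply Real.exp_le_exp.2
    rw [hpj, bon_congr P hpre]
    linarith only [hz4]
  have hwpj : (16 * (P.n + 1) * (P.tmax + 1)) * x j < wt P p j := by
    unfold wt
    rw [← P.exp_lam]
    calc Real.exp P.lam * x j = Real.exp (P.lam + Real.log (x j)) := by
          rw [Real.exp_add, Real.exp_log hxj]
      _ < _ := by
          apply Real.exp_lt_exp.2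
          linarith only [hcon]
  have he1 : Real.exp (-1) ≤ 1 / 2 := by
    rw [Real.exp_neg]
    have := Real.exp_one_gt_d9
    rw [inv_le_comm₀ (Real.exp_pos _) (by norm_num)]
    norm_num
    linarith only [this]
  have hgain : 8 * (P.n + 1) * (P.tmax + 1) * x j - (P.tmax + 1) * x j
      ≤ (p' j * x j - wt P p' j) - (p j * x j - wt P p j) := by
    rw [hpj]
    have e1 : wt P p j * Real.exp (-1) ≤ wt P p j * (1 / 2) :=
      mul_le_mul_of_nonneg_left he1 (wt_pos P p j).le
    have e2 : (p j - z) * x j ≤ (P.tmax + 1) * x j :=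
      mul_le_mul_of_nonneg_right (by linarith only [hz3, htau]) hxj.le
    linarith
  have hterm : ∀ k < P.n, (if k = j then 8 * (P.n + 1) * (P.tmax + 1) * x j
        - (P.tmax + 1) * x j + (2 * P.tmax + 2) * x j else 0) - (2 * P.tmax + 2) * x j
      ≤ (p' k * x k - wt P p' k) - (p k * x k - wt P p k) := by
    intro k hk
    rcases lt_trichotomy k j with h | h | h
    · have hw : wt P p' k = wt P p k := wt_congr P fun i hi => hpre i (by omega)
      rw [hpre k h, hw, if_neg (by omega)]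
      have : 0 ≤ (2 * P.tmax + 2) * x j := by (clear * - htm hxj; positivity)
      linarith only [this]
    · subst h
      rw [if_pos rfl]
      linarith only [hgain]
    · rw [if_neg (by omega)]
      have hxk := hx k hk
      obtain ⟨h4, h5⟩ := h3 k (by omega) hk
      have e1 := term_ge P p' hk hxk h4 h5
      have e2 := term_le_min P p hk hxk (hp.antitone P (by omega : j ≤ k) hk)
      have e3 : min (p j) (Real.log (x k) + P.tmax) - (2 * P.tmax + 1)
          ≤ min z (Real.log (x k) - P.tmax) := by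
        apply le_min
        · have := min_le_left (p j) (Real.log (x k) + P.tmax)
          linarith only [htm, hz3, htau, this]
        · have := min_le_right (p j) (Real.log (x k) + P.tmax)
          linarith only [this]
      have e4 := mul_le_mul_of_nonneg_right e3 hxk.le
      have hxkj := hanti j k (by omega) hk
      have e5 : (2 * P.tmax + 2) * x k ≤ (2 * P.tmax + 2) * x j :=
        mul_le_mul_of_nonneg_left hxkj (by positivity)
      nlinarith only [e1, e2, e4, e5]
  have hsum := sum_lower hj (fun k => (p' k * x k - wt P p' k) - (p k * x k - wt P p k)) _ _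
    (by (clear * - htm hxj; positivity)) hterm
  have hsc : ∑ k ∈ range P.n, ((p' k * x k - wt P p' k) - (p k * x k - wt P p k))
      = score P p' x - score P p x := by
    unfold score
    rw [sum_sub_distrib]
  rw [hsc] at hsum
  have hm := hmax p' h2
  have he := hε j hj
  have hn : (0 : ℝ) ≤ P.n := Nat.cast_nonneg _
  have hfin : x j ≤ 8 * (P.n + 1) * (P.tmax + 1) * x j
        - (P.tmax + 1) * x j + (2 * P.tmax + 2) * x j - P.n * ((2 * P.tmax + 2) * x j) := by
    have : 1 ≤ 8 * (P.n + 1) * (P.tmax + 1) - (P.tmax + 1) + (2 * P.tmax + 2)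
        - P.n * (2 * P.tmax + 2) := by nlinarith only [htm]
    nlinarith only [hxj, this]
  linarith only [hxj, hsum, hm, he, hfin]

/-- upper closeness -/
lemma close_upper {p x : ℕ → ℝ} (hx : ∀ i < P.n, 0 < x i)
    (hanti : ∀ i j, i ≤ j → j < P.n → x j ≤ x i) (hp : ValidTo P p P.n) {ε : ℝ}
    (hε : ∀ i < P.n, ε ≤ x i / 4)
    (hmax : ∀ p' : ℕ → ℝ, ValidTo P p' P.n → score P p' x ≤ score P p x + ε) :
    ∀ j < P.n, Real.log (x j) ≤ p j + bon P p j (p j) + P.lam := by
  classical
  intro j hj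
  by_contra hcon
  push Not at hcon
  have htm := P.tmax_ge_one
  have hxj := hx j hj
  have hn : (0 : ℝ) ≤ P.n := Nat.cast_nonneg _
  have hlogX : ∀ i k, i ≤ k → k < P.n → Real.log (x k) ≤ Real.log (x i) := fun i k hik hk =>
    Real.log_le_log (hx k hk) (hanti i k hik hk)
  -- first index of the block
  have hex : ∃ a, p a = p j := ⟨j, rfl⟩
  let a := Nat.find hex
  have ha : p a = p j := Nat.find_spec hex
  have haj : a ≤ j := Nat.find_min' hex rfl
  have hamin : ∀ i < a, p i ≠ p j := fun i hi => Nat.find_min hex hi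
  have han : a < P.n := by omega
  have halt : ∀ i, i + 1 = a → p a < p i := fun i hi => by
    have h1 := (hp a han).1 i hi
    have h2 := hamin i (by omega)
    exact lt_of_le_of_ne h1 (by rw [ha]; exact (Ne.symm h2))
  obtain ⟨y, hy1, hy2, hy3, hy4⟩ := step_up P han (hp.mono P han.le) (hp a han).2 halt
  -- comparison of the bonuses
  have hbon : bon P p a (p a) ≤ bon P p j (p j) := by
    rcases Nat.lt_or_ge a j with h | h
    · -- j is critical
      have hprev : p (j - 1) = p j := by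
        have h1 := hp.antitone P (by omega : a ≤ j - 1) (by omega)
        have h2 := hp.antitone P (by omega : j - 1 ≤ j) hj
        linarith only [h2, ha, h1]
      have hcj : Crit P p j (p j) := by
        have := crit_prev P p (j - 1)
        rw [hprev] at this
        have hjj : j - 1 + 1 = j := by omega
        rwa [hjj] at this
      rw [bon_of_crit P hcj]
      by_cases hca : Crit P p a (p a)
      · rw [bon_of_crit P hca, ← scale_succ_of_crit P hca]
        exact (scale_mono P p (by omega) (by omega)).trans (scale_le_tau P p hj)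
      · rw [bon_of_not_crit P hca]
        have := tau_ge_three P p hj
        linarith only [this]
    · have : a = j := by omega
      rw [this]
  -- cut index
  set θ : ℝ := 1 / (8 * (P.n + 1) * (P.tmax + 1)) with hθ
  have hθpos : 0 < θ := by rw [hθ]; (clear * - htm; positivity)
  have hex2 : ∃ m, j + 1 ≤ m ∧ (m = P.n ∨ x m ≤ θ * x j) := ⟨P.n, by omega, Or.inl rfl⟩
  let m := Nat.find hex2
  obtain ⟨hm1, hm2⟩ : j + 1 ≤ m ∧ (m = P.n ∨ x m ≤ θ * x j) := Nat.find_spec hex2
  have hmn : m ≤ P.n := Nat.find_min' hex2 ⟨by omega, Or.inl rfl⟩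
  have hsmall : ∀ k, m ≤ k → k < P.n → x k ≤ θ * x j := fun k h1 h2 => by
    rcases hm2 with h | h
    · omega
    · exact (hanti m k h1 h2).trans h
  -- new prefix
  let p1 : ℕ → ℝ := fun i => if a ≤ i ∧ i < m then y else p i
  have hp1a : ∀ i < a, p1 i = p i := fun i hi => by
    simp only [p1]; rw [if_neg (by omega)]
  have hp1m : ∀ i, a ≤ i → i < m → p1 i = y := fun i h1 h2 => by
    simp only [p1]; rw [if_pos ⟨h1, h2⟩]
  have hv1 : ValidTo P p1 m := by
    intro i hi
    rcases lt_trichotomy i a with h | h | h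
    · exact validTo_congr P (fun k hk => (hp1a k (by omega)).symm) (hp.mono P (by omega : i + 1 ≤ P.n)) i
        (by omega)
    · subst h
      refine ⟨fun k hk => ?_, ?_⟩
      · rw [hp1m _ le_rfl hi, hp1a k (by omega)]
        exact hy2 k hk
      · rw [hp1m _ le_rfl hi]
        exact (allowed_congr P (fun k hk => (hp1a k hk).symm) y).1 hy1
    · refine ⟨fun k hk => ?_, ?_⟩
      · rw [hp1m _ (by omega) hi, hp1m k (by omega) (by omega)]
      · left
        have hc := crit_prev P p1 (i - 1)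
        have hii : i - 1 + 1 = i := by omega
        rw [hii, hp1m (i - 1) (by omega) (by omega)] at hc
        rw [hp1m i (by omega) hi]
        exact hc
  obtain ⟨p', h1, h2, h3⟩ := extend_all P (fun i => Real.log (x i)) hlogX (P.n - m) m
    (by omega) p1 y hv1 (fun i hi => by
      rw [hp1m i (by omega) (by omega)])
  have hpa : ∀ i < a, p' i = p i := fun i hi => by rw [h1 i (by omega), hp1a i hi]
  have hpm : ∀ i, a ≤ i → i < m → p' i = y := fun i e1 e2 => by rw [h1 i e2, hp1m i e1 e2]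
  -- weights in the block
  have hw : ∀ k, a ≤ k → k < m → wt P p' k ≤ 3 / (16 * (P.n + 1) * (P.tmax + 1)) * x j := by
    intro k hk1 hk2
    have hkn : k < P.n := by omega
    have hb1 : y - bon P p' k (p' k) ≤ p j + bon P p j (p j) + 1 := by
      have hbonk : bon P p a y ≤ bon P p' k (p' k) := by
        rcases Nat.lt_or_ge a k with h | h
        · have hc := crit_prev P p' (k - 1)
          have hkk : k - 1 + 1 = k := by omega
          rw [hkk, hpm (k - 1) (by omega) (by omega)] at hc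
          rw [hpm k hk1 hk2, bon_of_crit P hc]
          by_cases hca : Crit P p a y
          · rw [bon_of_crit P hca]
            have hca' : Crit P p' a (p' a) := by
              rw [hpm a le_rfl (by omega)]
              exact (crit_congr P (fun i hi => (hpa i hi).symm) y).1 hca
            rw [tau_congr P (fun i hi => (hpa i hi).symm), ← scale_succ_of_crit P hca']
            exact (scale_mono P p' (by omega) (by omega)).trans (scale_le_tau P p' hkn)
          · rw [bon_of_not_crit P hca]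
            have := tau_ge_three P p' hkn
            linarith only [this]
        · have hka : k = a := by omega
          rw [hka, hpm a le_rfl (by omega), bon_congr P (fun i hi => (hpa i hi).symm)]
      linarith only [ha, hy4, hbon, hbonk]
    have : wt P p' k ≤ Real.exp (1 - P.lam) * x j := by
      unfold wt
      calc Real.exp (p' k - bon P p' k (p' k)) ≤ Real.exp (1 - P.lam + Real.log (x j)) := by
            apply Real.exp_le_exp.2
            rw [hpm k hk1 hk2] at hb1 ⊢
            linarith only [hcon, hb1]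
        _ = Real.exp (1 - P.lam) * x j := by rw [Real.exp_add, Real.exp_log hxj]
    refine this.trans (mul_le_mul_of_nonneg_right ?_ hxj.le)
    rw [Real.exp_sub, P.exp_lam]
    exact div_le_div_of_nonneg_right exp_one_lt_three.le (by (clear * - htm; positivity))
  set c1 : ℝ := 3 / (16 * (P.n + 1) * (P.tmax + 1)) * x j with hc1
  set c2 : ℝ := (2 * P.tmax + 2) * (θ * x j) with hc2
  have hc1pos : 0 ≤ c1 := by rw [hc1]; (clear * - htm hxj; positivity)
  have hc2pos : 0 ≤ c2 := by rw [hc2]; (clear * - htm hxj; positivity)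
  have hterm : ∀ k < P.n, (if k = j then x j else 0) - (c1 + c2)
      ≤ (p' k * x k - wt P p' k) - (p k * x k - wt P p k) := by
    intro k hk
    have hxk := hx k hk
    rcases Nat.lt_or_ge k a with h | h
    · have hw' : wt P p' k = wt P p k := wt_congr P fun i hi => hpa i (by omega)
      rw [hpa k h, hw', if_neg (by omega)]
      linarith only [hc1pos, hc2pos]
    · rcases Nat.lt_or_ge k m with h' | h'
      · have e1 := hw k h h'
        have e2 := wt_pos P p k
        have e3 : p k ≤ p a := hp.antitone P h hk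
        rw [hpm k h h'] at *
        by_cases hkj : k = j
        · subst hkj
          rw [if_pos rfl]
          nlinarith only [e2, hc2pos, e1, hxk, ha, hy3]
        · rw [if_neg hkj]
          have : 0 ≤ (y - p k) * x k := mul_nonneg (by linarith only [hy3, e3]) hxk.le
          nlinarith only [hc2pos, e1, e2, this]
      · rw [if_neg (by omega)]
        obtain ⟨h4, h5⟩ := h3 k h' hk
        have e1 := term_ge P p' hk hxk h4 h5
        have e0 : p k ≤ p a := hp.antitone P h hk
        have e2 := term_le_min P p hk hxk (by linarith only [hy3, e0] : p k ≤ y)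
        have e3 : min y (Real.log (x k) + P.tmax) - (2 * P.tmax + 1)
            ≤ min y (Real.log (x k) - P.tmax) := by
          apply le_min
          · have := min_le_left y (Real.log (x k) + P.tmax)
            linarith only [htm, this]
          · have := min_le_right y (Real.log (x k) + P.tmax)
            linarith only [this]
        have e4 := mul_le_mul_of_nonneg_right e3 hxk.le
        have e5 : (2 * P.tmax + 2) * x k ≤ c2 :=
          mul_le_mul_of_nonneg_left (hsmall k h' hk) (by positivity)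
        nlinarith only [hc1pos, e1, e2, e4, e5]
  have hsum := sum_lower hj (fun k => (p' k * x k - wt P p' k) - (p k * x k - wt P p k)) _ _
    (by (clear * - htm hxj; positivity)) hterm
  have hsc : ∑ k ∈ range P.n, ((p' k * x k - wt P p' k) - (p k * x k - wt P p k))
      = score P p' x - score P p x := by
    unfold score
    rw [sum_sub_distrib]
  rw [hsc] at hsum
  have hm := hmax p' h2
  have he := hε j hj
  have hA : P.n * c1 ≤ 3 / 16 * x j := by
    rw [hc1]
    have : (P.n : ℝ) * (3 / (16 * (P.n + 1) * (P.tmax + 1))) ≤ 3 / 16 := by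
      rw [mul_div_assoc', div_le_div_iff₀ (by (clear * - htm; positivity)) (by norm_num)]
      nlinarith only [htm]
    nlinarith only [hxj, this]
  have hB : P.n * c2 ≤ 1 / 4 * x j := by
    rw [hc2, hθ]
    have : (P.n : ℝ) * ((2 * P.tmax + 2) * (1 / (8 * (P.n + 1) * (P.tmax + 1)))) ≤ 1 / 4 := by
      rw [← mul_assoc, mul_one_div, div_le_div_iff₀ (by (clear * - htm; positivity)) (by norm_num)]
      nlinarith only [htm]
    nlinarith only [hxj, this]
  linarith

/-- MAIN closeness statement. -/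
theorem closeness {p x : ℕ → ℝ} (hx : ∀ i < P.n, 0 < x i)
    (hanti : ∀ i j, i ≤ j → j < P.n → x j ≤ x i) (hp : ValidTo P p P.n) {ε : ℝ}
    (hε : ∀ i < P.n, ε ≤ x i / 4)
    (hmax : ∀ p' : ℕ → ℝ, ValidTo P p' P.n → score P p' x ≤ score P p x + ε) :
    ∀ j < P.n, |Real.log (x j) - p j| ≤ bon P p j (p j) + P.lam := by
  intro j hj
  have h1 := close_lower P hx hanti hp hε hmax j hj
  have h2 := close_upper P hx hanti hp hε hmax j hj
  rw [abs_le]
  constructor <;> linarith only [h1, h2]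

end Vale.Agent.P072.Pot
end
end

section

section

/-! Sign lemma and existence of parameters. -/

namespace Vale.Agent.P072.Pot

open Finset

lemma bon_le_scale (P : Params) (p : ℕ → ℝ) {k : ℕ} (hk : k < P.n) :
    bon P p k (p k) ≤ scale P p P.n := by
  by_cases hc : Crit P p k (p k)
  · rw [bon_of_crit P hc, ← scale_succ_of_crit P hc]
    exact scale_mono P p hk le_rfl
  · rw [bon_of_not_crit P hc]
    have := scale_ge_one P p (k := P.n) le_rfl
    linarith only [this]

theorem sign_lemma (P : Params) {p x : ℕ → ℝ} {N : ℕ} {δ : ℝ} (hp : ValidTo P p P.n)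
    (hclose : ∀ j < P.n, |Real.log (x j) - p j| ≤ bon P p j (p j) + P.lam)
    (hN : (N : ℤ) ≤ P.B P.n) (hlam : P.lam ≤ P.T) (hδ : δ ≤ P.T)
    (hm : (2 * P.n * N + 2) * P.D ^ P.n ≤ P.m P.n) (v : ℕ → ℤ) (hv : ∀ i, |v i| ≤ N)
    (hpos : 0 < dot v p P.n) : δ < dot v (fun i => Real.log (x i)) P.n := by
  have hT := P.hT
  have hsc := scale_pos_aux P p (k := P.n) le_rfl
  have hD := P.D_ge_one
  have hDn : 0 < P.D ^ P.n := by positivity
  have h1 := (sep P le_rfl hp v (fun i => (hv i).trans hN)).resolve_left hpos.ne'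
  rw [abs_of_pos hpos, div_le_iff₀ hDn] at h1
  have h2 : (2 * P.n * N + 2) * scale P p P.n ≤ dot v p P.n := by
    have : P.D ^ P.n * ((2 * P.n * N + 2) * scale P p P.n) ≤ P.D ^ P.n * dot v p P.n := by
      calc P.D ^ P.n * ((2 * P.n * N + 2) * scale P p P.n)
          = scale P p P.n * ((2 * P.n * N + 2) * P.D ^ P.n) := by ring
        _ ≤ scale P p P.n * P.m P.n := mul_le_mul_of_nonneg_left hm (by linarith only [hT, hsc])
        _ ≤ dot v p P.n * P.D ^ P.n := h1
        _ = _ := by ring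
    exact le_of_mul_le_mul_left this hDn
  have h3 : |dot v (fun i => Real.log (x i)) P.n - dot v p P.n|
      ≤ P.n * (N * (2 * scale P p P.n)) := by
    unfold dot
    rw [← sum_sub_distrib]
    refine (abs_sum_le_sum_abs _ _).trans ?_
    calc ∑ i ∈ range P.n, |(v i : ℝ) * Real.log (x i) - (v i : ℝ) * p i|
        ≤ ∑ i ∈ range P.n, N * (2 * scale P p P.n) := by
          refine sum_le_sum fun i hi => ?_
          have hi' := mem_range.1 hi
          rw [← mul_sub, abs_mul]
          have e1 : |(v i : ℝ)| ≤ N := by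
            rw [← Int.cast_abs]
            exact_mod_cast hv i
          have e2 : |Real.log (x i) - p i| ≤ 2 * scale P p P.n := by
            have := hclose i hi'
            have := bon_le_scale P p hi'
            (clear N δ hp hN hδ hm v hv hpos hT hD hDn h1 h2 e1; linarith)
          exact mul_le_mul e1 e2 (abs_nonneg _) (Nat.cast_nonneg _)
      _ = P.n * (N * (2 * scale P p P.n)) := by
          rw [sum_const, card_range, nsmul_eq_mul]
  have h4 := (abs_le.1 h3).1
  have h5 : dot v p P.n - 2 * P.n * N * scale P p P.n ≤ dot v (fun i => Real.log (x i)) P.n := by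
    linarith only [h4]
  linarith

theorem exists_params (n N : ℕ) (δ : ℝ) : ∃ P : Params, P.n = n ∧ (N : ℤ) ≤ P.B P.n ∧
    P.lam ≤ P.T ∧ δ ≤ P.T ∧ (2 * P.n * N + 2) * P.D ^ P.n ≤ P.m P.n := by
  set L : ℕ := N + 2 with hL
  set D : ℝ := (L : ℝ) ^ (3 ^ n) with hDdef
  have hL1 : (1 : ℝ) ≤ L := by rw [hL]; push_cast; have : (0 : ℝ) ≤ N := Nat.cast_nonneg _; linarith only []
  have hD1 : 1 ≤ D := one_le_pow₀ hL1
  set M : ℝ := (2 * n * N + 3) * D ^ (n + 2) with hM
  have hnN : (0 : ℝ) ≤ 2 * n * N := by (clear * -; positivity)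
  have hDn2 : 1 ≤ D ^ (n + 2) := one_le_pow₀ hD1
  have hM3 : 3 * D ^ (n + 2) ≤ M := by
    rw [hM]; exact mul_le_mul_of_nonneg_right (by linarith only [hnN]) (by linarith only [hDn2])
  have hM1 : 1 ≤ M := by linarith only [hDn2, hM3]
  set m : ℕ → ℝ := fun k => M ^ (2 ^ (n - k)) with hmdef
  set T : ℝ := 32 * (n + 1) * (m 0 + 1) + |δ| + 1 with hTdef
  have hm0 : 1 ≤ m 0 := by rw [hmdef]; exact one_le_pow₀ hM1
  have hn0 : (0 : ℝ) ≤ n := Nat.cast_nonneg _
  have hT1 : 1 ≤ T := by
    rw [hTdef]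
    have : 0 ≤ 32 * (n + 1) * (m 0 + 1) := by (clear * -; positivity)
    have := abs_nonneg δ
    (clear hL hDdef hL1 hD1 hM hnN hDn2 hM3 hM1 hmdef T hTdef hm0 hn0; linarith)
  let P : Params :=
    { n := n
      B := fun k => (L : ℤ) ^ (3 ^ (n - k))
      m := m
      T := T
      D := D
      hB1 := fun k => by
        have : (1 : ℤ) ≤ L := by omega
        exact one_le_pow₀ this
      hB2 := fun k hk => by
        have e1 : n - k = (n - (k + 1)) + 1 := by omega
        have e2 : (L : ℤ) ^ (3 ^ (n - k)) = ((L : ℤ) ^ (3 ^ (n - (k + 1)))) ^ 3 := by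
          rw [e1, pow_succ, pow_mul]
        rw [e2]
        set b : ℤ := (L : ℤ) ^ (3 ^ (n - (k + 1))) with hb
        have hb2 : 2 ≤ b := by
          have h2 : (2 : ℤ) ≤ L := by omega
          calc (2 : ℤ) ≤ L := h2
            _ = (L : ℤ) ^ 1 := (pow_one _).symm
            _ ≤ _ := pow_le_pow_right₀ (by omega) (Nat.one_le_pow _ _ (by norm_num))
        nlinarith only [hb2]
      hBD := fun k => by
        push_cast
        exact pow_le_pow_right₀ hL1 (Nat.pow_le_pow_right (by norm_num) (by omega))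
      hm := fun k hk => by
        have e1 : n - k = (n - (k + 1)) + 1 := by omega
        simp only [hmdef]
        rw [e1, pow_succ, mul_comm, pow_mul]
        rw [← pow_two, pow_right_comm]
      hmM := fun k hk => by
        simp only [hmdef]
        refine hM3.trans ?_
        exact le_self_pow₀ hM1 (by positivity)
      hT := hT1 }
  refine ⟨P, rfl, ?_, ?_, ?_, ?_⟩
  · change (N : ℤ) ≤ (L : ℤ) ^ (3 ^ (n - n))
    simp only [hL, Nat.cast_add, Nat.cast_ofNat, tsub_self, pow_zero, pow_one, le_add_iff_nonneg_right, Nat.ofNat_nonneg]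
  · -- lam ≤ T
    have hexp := P.exp_lam
    have h1 : Real.exp P.lam ≤ Real.exp T := by
      rw [hexp]
      change 16 * ((n : ℝ) + 1) * (T * m 0 + 1) ≤ Real.exp T
      have h2 := Real.quadratic_le_exp_of_nonneg (by linarith only [hT1] : (0 : ℝ) ≤ T)
      have h3 : 32 * (n + 1) * (m 0 + 1) ≤ T := by
        rw [hTdef]; have := abs_nonneg δ; linarith only [this]
      have h4 : 16 * ((n : ℝ) + 1) * (T * m 0 + 1) ≤ 16 * (n + 1) * (m 0 + 1) * T := by
        have : T * m 0 + 1 ≤ (m 0 + 1) * T := by nlinarith only [hT1]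
        nlinarith only [this]
      nlinarith only [h2, h3, hT1]
    exact Real.exp_le_exp.1 h1
  · change δ ≤ T
    rw [hTdef]
    have : 0 ≤ 32 * (n + 1) * (m 0 + 1) := by (clear * -; positivity)
    have := le_abs_self δ
    (clear hL hDdef hL1 hD1 hM hnN hDn2 hM3 hM1 hmdef T hTdef hm0 hn0 hT1 P; linarith)
  · change (2 * (n : ℝ) * N + 2) * D ^ n ≤ m n
    simp only [hmdef, Nat.sub_self, pow_zero, pow_one]
    rw [hM]
    have h1 : D ^ n ≤ D ^ (n + 2) := pow_le_pow_right₀ hD1 (by omega)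
    have h2 : 0 ≤ D ^ n := by positivity
    nlinarith only [hDn2, h1, hnN]

end Vale.Agent.P072.Pot
end
end

section

section

/-! The potential on `Fin n`, and on a subset of coordinates. -/

namespace Vale.Agent.P072.Pot

open Finset

/-- extension of a finite real tuple by zero -/
def extR {n : ℕ} (y : Fin n → ℝ) : ℕ → ℝ := fun i => if h : i < n then y ⟨i, h⟩ else 0

lemma extR_coe {n : ℕ} (y : Fin n → ℝ) (i : Fin n) : extR y (i : ℕ) = y i := by
  unfold extR; simp

lemma extR_of_lt {n : ℕ} (y : Fin n → ℝ) {i : ℕ} (h : i < n) : extR y i = y ⟨i, h⟩ := by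
  unfold extR; simp [h]

variable (P : Params)

/-- the pairing of a valid sequence, arranged by a permutation, with `x`, minus the cost -/
noncomputable def fval (x : Fin P.n → ℝ) (p : ℕ → ℝ) (s : Equiv.Perm (Fin P.n)) : ℝ :=
  ∑ i : Fin P.n, p i * x (s i) - ∑ k ∈ range P.n, wt P p k

lemma fval_eq_score (x : Fin P.n → ℝ) (p : ℕ → ℝ) (s : Equiv.Perm (Fin P.n)) :
    fval P x p s = score P p (extR (x ∘ s)) := by
  unfold fval score
  rw [sum_sub_distrib, Finset.sum_range (fun k => p k * extR (x ∘ s) k)]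
  congr 1
  refine sum_congr rfl fun i _ => ?_
  rw [extR_coe]; rfl

lemma tmax_nonneg : 0 ≤ P.tmax := by
  unfold Params.tmax
  have := P.hT
  have := P.m_ge_three (k := 0) (by omega)
  positivity

lemma fval_le {x : Fin P.n → ℝ} (hx : ∀ i, 0 < x i) (p : ℕ → ℝ) (s : Equiv.Perm (Fin P.n)) :
    fval P x p s ≤ ∑ i, x i * (Real.log (x i) + P.tmax) := by
  rw [fval_eq_score]
  unfold score
  rw [Finset.sum_range (fun k => p k * extR (x ∘ s) k - wt P p k)]
  rw [← Equiv.sum_comp s (fun i => x i * (Real.log (x i) + P.tmax))]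
  refine sum_le_sum fun i _ => ?_
  have h := term_le P p (k := i) i.2 (x := extR (x ∘ s) i) (by rw [extR_coe]; exact hx _)
  rw [extR_coe] at h ⊢
  exact h

/-- the potential -/
noncomputable def pot (x : Fin P.n → ℝ) : ℝ :=
  ⨆ q : {p : ℕ → ℝ // ValidTo P p P.n} × Equiv.Perm (Fin P.n), fval P x q.1.1 q.2

lemma bddAbove_pot {x : Fin P.n → ℝ} (hx : ∀ i, 0 < x i) :
    BddAbove (Set.range fun q : {p : ℕ → ℝ // ValidTo P p P.n} × Equiv.Perm (Fin P.n) =>
      fval P x q.1.1 q.2) := by
  refine ⟨∑ i, x i * (Real.log (x i) + P.tmax), ?_⟩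
  rintro _ ⟨q, rfl⟩
  exact fval_le P hx _ _

lemma fval_le_pot {x : Fin P.n → ℝ} (hx : ∀ i, 0 < x i) {p : ℕ → ℝ} (hp : ValidTo P p P.n)
    (s : Equiv.Perm (Fin P.n)) : fval P x p s ≤ pot P x :=
  le_ciSup (bddAbove_pot P hx) (⟨⟨p, hp⟩, s⟩ :
    {p : ℕ → ℝ // ValidTo P p P.n} × Equiv.Perm (Fin P.n))

/-- a permutation sorting `x` in nonincreasing order -/
lemma exists_sort {n : ℕ} (x : Fin n → ℝ) :
    ∃ s : Equiv.Perm (Fin n), Antitone (x ∘ s) := by
  refine ⟨Tuple.sort (fun i => - x i), fun i j hij => ?_⟩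
  have h := Tuple.monotone_sort (fun i => - x i) hij
  simp only [Function.comp_apply] at h ⊢
  linarith

lemma extR_antitone {n : ℕ} {y : Fin n → ℝ} (hy : Antitone y) :
    ∀ i j, i ≤ j → j < n → extR y j ≤ extR y i := by
  intro i j hij hj
  rw [extR_of_lt y hj, extR_of_lt y (lt_of_le_of_lt hij hj)]
  exact hy (by simpa only [Fin.mk_le_mk] using hij)

/-- a valid sequence close to the logarithms -/
lemma exists_valid_near {y : Fin P.n → ℝ} (hy : ∀ i, 0 < y i) (hanti : Antitone y) :
    ∃ p : ℕ → ℝ, ValidTo P p P.n ∧ ∀ i : Fin P.n, p i ≤ Real.log (y i) ∧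
      Real.log (y i) - P.tmax ≤ p i := by
  have hX : ∀ i j, i ≤ j → j < P.n →
      (fun i => extR (fun i => Real.log (y i)) i) j ≤
      (fun i => extR (fun i => Real.log (y i)) i) i := by
    apply extR_antitone
    intro i j hij
    exact Real.log_le_log (hy j) (hanti hij)
  obtain ⟨p, -, hp, h⟩ := extend_all P _ hX P.n 0 (by omega) (fun _ => 0)
    (extR (fun i => Real.log (y i)) 0) (fun j hj => by omega) (fun i hi => by omega)
  refine ⟨p, hp, fun i => ?_⟩
  obtain ⟨h1, h2⟩ := h i (by omega) i.2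
  simp only [extR_coe] at h1 h2
  refine ⟨h1, le_trans ?_ h2⟩
  apply le_min _ le_rfl
  have h3 := hX 0 i (by omega) i.2
  simp only [extR_coe] at h3
  have := tmax_nonneg P
  linarith

lemma wt_le_exp (p : ℕ → ℝ) {k : ℕ} (hk : k < P.n) : wt P p k ≤ Real.exp (p k) := by
  unfold wt
  apply Real.exp_le_exp.2
  have := bon_nonneg P p hk (p k)
  linarith only [this]

instance pot_nonempty : Nonempty ({p : ℕ → ℝ // ValidTo P p P.n} × Equiv.Perm (Fin P.n)) := by
  obtain ⟨p, hp, -⟩ := exists_valid_near P (y := fun _ => 1) (fun _ => one_pos)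
    (fun _ _ _ => le_rfl)
  exact ⟨⟨⟨p, hp⟩, 1⟩⟩

lemma pot_le {x : Fin P.n → ℝ} (hx : ∀ i, 0 < x i) :
    pot P x ≤ ∑ i, x i * (Real.log (x i) + P.tmax) :=
  ciSup_le fun _ => fval_le P hx _ _

lemma le_pot {x : Fin P.n → ℝ} (hx : ∀ i, 0 < x i) :
    ∑ i, x i * (Real.log (x i) - (P.tmax + 1)) ≤ pot P x := by
  obtain ⟨s, hs⟩ := exists_sort x
  obtain ⟨p, hp, h⟩ := exists_valid_near P (y := x ∘ s) (fun i => hx _) hs
  refine le_trans ?_ (fval_le_pot P hx hp s)
  rw [fval_eq_score]
  unfold score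
  rw [Finset.sum_range (fun k => p k * extR (x ∘ s) k - wt P p k)]
  rw [← Equiv.sum_comp s (fun i => x i * (Real.log (x i) - (P.tmax + 1)))]
  refine sum_le_sum fun i _ => ?_
  rw [extR_coe]
  obtain ⟨h1, h2⟩ := h i
  simp only [Function.comp_apply] at h1 h2 ⊢
  have h3 := wt_le_exp P p i.2
  have h4 : Real.exp (p i) ≤ x (s i) := by
    rw [← Real.exp_log (hx (s i))]; exact Real.exp_le_exp.2 h1
  have h5 : x (s i) * (Real.log (x (s i)) - P.tmax) ≤ x (s i) * p i :=
    mul_le_mul_of_nonneg_left h2 (hx _).le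
  linarith

/-- rearrangement -/
lemma fval_le_fval_sort {x : Fin P.n → ℝ} {p : ℕ → ℝ} (hp : ValidTo P p P.n)
    {s : Equiv.Perm (Fin P.n)} (hs : Antitone (x ∘ s)) (s' : Equiv.Perm (Fin P.n)) :
    fval P x p s' ≤ fval P x p s := by
  unfold fval
  have hpa : Antitone (fun i : Fin P.n => p i) := fun i j hij =>
    hp.antitone P (by simpa only [Fin.val_fin_le] using hij) j.2
  have hmono : Monovary (fun i : Fin P.n => p i) (x ∘ s) := hpa.monovary hs
  have h := hmono.sum_mul_comp_perm_le_sum_mul (σ := s'.trans s.symm)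
  simp only [Equiv.trans_apply, Function.comp_apply, Equiv.apply_symm_apply] at h
  linarith

lemma exists_small {n : ℕ} {x : Fin n → ℝ} (hx : ∀ i, 0 < x i) {ε : ℝ} (hε : 0 < ε) :
    ∃ ε' > 0, ε' ≤ ε ∧ ∀ i, ε' ≤ x i / 4 := by
  classical
  rcases Nat.eq_zero_or_pos n with h | h
  · subst h
    exact ⟨ε, hε, le_rfl, fun i => i.elim0⟩
  · have : Nonempty (Fin n) := ⟨⟨0, h⟩⟩
    obtain ⟨i, hi⟩ := Finite.exists_min x
    refine ⟨min ε (x i / 4), lt_min hε (by have := hx i; positivity), min_le_left _ _,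
      fun j => (min_le_right _ _).trans ?_⟩
    have := hi j
    linarith only [this]

/-- The potential lemma on `Fin P.n`. -/
theorem potential_params {N : ℕ} {δ : ℝ} (hN : (N : ℤ) ≤ P.B P.n) (hlam : P.lam ≤ P.T)
    (hδ : δ ≤ P.T) (hm : (2 * P.n * N + 2) * P.D ^ P.n ≤ P.m P.n)
    {x : Fin P.n → ℝ} (hx : ∀ i, 0 < x i) {ε : ℝ} (hε : 0 < ε) :
    ∃ p : Fin P.n → ℝ,
      (∀ x' : Fin P.n → ℝ, (∀ i, 0 < x' i) →
        pot P x - ε + ∑ i, p i * (x' i - x i) ≤ pot P x') ∧
      (∀ i, |p i - Real.log (x i)| ≤ P.tmax + P.lam) ∧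
      (∀ v : Fin P.n → ℤ, (∀ i, |v i| ≤ N) → 0 < ∑ i, (v i : ℝ) * p i →
          δ < ∑ i, (v i : ℝ) * Real.log (x i)) := by
  obtain ⟨ε', hε', hε'ε, hε'x⟩ := exists_small hx hε
  obtain ⟨q, hq⟩ := exists_lt_of_lt_ciSup (show pot P x - ε' < pot P x by linarith only [hε'])
  obtain ⟨s, hs⟩ := exists_sort x
  set p0 : ℕ → ℝ := q.1.1 with hp0
  have hval : ValidTo P p0 P.n := q.1.2
  have h1 : pot P x - ε' < fval P x p0 s := lt_of_lt_of_le hq (fval_le_fval_sort P hval hs _)
  have hclose : ∀ j < P.n, |Real.log (extR (x ∘ s) j) - p0 j| ≤ bon P p0 j (p0 j) + P.lam := by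
    apply closeness P (ε := ε') (x := extR (x ∘ s))
    · intro i hi
      rw [extR_of_lt _ hi]; exact hx _
    · exact extR_antitone hs
    · exact hval
    · intro i hi
      rw [extR_of_lt _ hi]; exact hε'x _
    · intro p' hp'
      rw [← fval_eq_score, ← fval_eq_score]
      have := fval_le_pot P hx hp' s
      linarith only [h1, this]
  refine ⟨fun i => p0 (s.symm i), ?_, ?_, ?_⟩
  · intro x' hx'
    have h2 : ∑ i, p0 (s.symm i) * (x' i - x i) = ∑ j : Fin P.n, p0 j * (x' (s j) - x (s j)) := by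
      rw [← Equiv.sum_comp s (fun i => p0 (s.symm i) * (x' i - x i))]
      simp only [Equiv.symm_apply_apply]
    rw [h2]
    have h3 : fval P x' p0 s = fval P x p0 s +
        ∑ j : Fin P.n, p0 j * (x' (s j) - x (s j)) := by
      unfold fval
      have : ∑ j : Fin P.n, p0 j * (x' (s j) - x (s j)) =
          ∑ j : Fin P.n, p0 j * x' (s j) - ∑ j : Fin P.n, p0 j * x (s j) := by
        rw [← sum_sub_distrib]
        exact sum_congr rfl fun j _ => by ring
      rw [this]; ring
    have h4 := fval_le_pot P hx' hval s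
    linarith only [hε'ε, h1, h3, h4]
  · intro i
    have h2 := hclose (s.symm i) (s.symm i).2
    rw [extR_coe] at h2
    simp only [Function.comp_apply, Equiv.apply_symm_apply] at h2
    rw [abs_sub_comm]
    have h3 := bon_le_tau P p0 (s.symm i).2 (p0 (s.symm i))
    have h4 := tau_le_tmax P p0 (s.symm i).2
    linarith only [h2, h3, h4]
  · intro v hv hpos
    have h2 := sign_lemma P hval hclose hN hlam hδ hm
      (fun i => if h : i < P.n then v (s ⟨i, h⟩) else 0) (fun i => by
        split_ifs with h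
        · exact hv _
        · simp only [abs_zero, Nat.cast_nonneg]) (by
        unfold dot
        rw [Finset.sum_range]
        simp only [Fin.is_lt, dite_true, Fin.eta]
        rw [← Equiv.sum_comp s (fun i => (v i : ℝ) * p0 (s.symm i))] at hpos
        simpa only [Equiv.symm_apply_apply] using hpos)
    unfold dot at h2
    rw [Finset.sum_range] at h2
    simp only [Fin.is_lt, dite_true, Fin.eta, extR_coe, Function.comp_apply] at h2
    rw [Equiv.sum_comp s (fun i => (v i : ℝ) * Real.log (x i))] at h2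
    exact h2

/-- The potential lemma on `Fin n`. -/
theorem exists_potential_fin (n N : ℕ) (δ : ℝ) :
    ∃ (V : (Fin n → ℝ) → ℝ) (C : ℝ), 0 ≤ C ∧
    (∀ x, (∀ i, 0 < x i) → ∑ i, x i * (Real.log (x i) - C) ≤ V x ∧
        V x ≤ ∑ i, x i * (Real.log (x i) + C)) ∧
    (∀ x, (∀ i, 0 < x i) → ∀ ε > 0, ∃ p : Fin n → ℝ,
       (∀ x', (∀ i, 0 < x' i) → V x - ε + ∑ i, p i * (x' i - x i) ≤ V x') ∧
       (∀ i, |p i - Real.log (x i)| ≤ C) ∧
       (∀ v : Fin n → ℤ, (∀ i, |v i| ≤ N) → 0 < ∑ i, (v i : ℝ) * p i →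
          δ < ∑ i, (v i : ℝ) * Real.log (x i))) := by
  obtain ⟨P, hPn, hN, hlam, hδ, hm⟩ := exists_params n N δ
  subst hPn
  have ht := tmax_nonneg P
  refine ⟨pot P, P.tmax + 1 + |P.lam|, by positivity, fun x hx => ⟨?_, ?_⟩,
    fun x hx ε hε => ?_⟩
  · refine le_trans (sum_le_sum fun i _ => ?_) (le_pot P hx)
    apply mul_le_mul_of_nonneg_left _ (hx i).le
    have := abs_nonneg P.lam
    linarith only [this]
  · refine le_trans (pot_le P hx) (sum_le_sum fun i _ => ?_)
    apply mul_le_mul_of_nonneg_left _ (hx i).le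
    have := abs_nonneg P.lam
    linarith only [this]
  · obtain ⟨p, h1, h2, h3⟩ := potential_params P hN hlam hδ hm hx hε
    refine ⟨p, h1, fun i => (h2 i).trans ?_, h3⟩
    have := le_abs_self P.lam
    linarith only [this]

end Vale.Agent.P072.Pot

namespace Vale.Agent.P072

open Finset

variable {d : ℕ}

/-- PART A: potential lemma, on a set `I` of coordinates. -/
theorem exists_potential_subset (I : Finset (Fin d)) (N : ℕ) (δ : ℝ) :
    ∃ (V : (Fin d → ℝ) → ℝ) (C : ℝ), 0 ≤ C ∧
    (∀ x, (∀ i ∈ I, 0 < x i) → ∑ i ∈ I, x i * (Real.log (x i) - C) ≤ V x ∧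
        V x ≤ ∑ i ∈ I, x i * (Real.log (x i) + C)) ∧
    (∀ x, (∀ i ∈ I, 0 < x i) → ∀ ε > 0, ∃ p : Fin d → ℝ, (∀ i ∉ I, p i = 0) ∧
       (∀ x', (∀ i ∈ I, 0 < x' i) → V x - ε + ∑ i, p i * (x' i - x i) ≤ V x') ∧
       (∀ i ∈ I, |p i - Real.log (x i)| ≤ C) ∧
       (∀ v : Fin d → ℤ, (∀ i, |v i| ≤ N) → 0 < ∑ i, (v i : ℝ) * p i →
          δ < ∑ i ∈ I, (v i : ℝ) * Real.log (x i))) := by
  classical
  obtain ⟨V, C, hC, hbd, hgrad⟩ := Pot.exists_potential_fin I.card N δ
  set e : I ≃ Fin I.card := I.equivFin with he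
  -- reindexing of sums over `I`
  have hsum : ∀ g : Fin d → ℝ, ∑ i ∈ I, g i = ∑ j : Fin I.card, g (e.symm j) := by
    intro g
    rw [← Finset.sum_coe_sort I g]
    exact (Equiv.sum_comp e.symm (fun i : I => g i)).symm
  refine ⟨fun x => V (fun j => x (e.symm j)), C, hC, fun x hx => ?_, fun x hx ε hε => ?_⟩
  · have h := hbd (fun j => x (e.symm j)) (fun j => hx _ (e.symm j).2)
    rw [hsum, hsum]
    exact h
  · obtain ⟨p, h1, h2, h3⟩ := hgrad (fun j => x (e.symm j)) (fun j => hx _ (e.symm j).2) ε hε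
    -- sums against the extended covector
    have hp : ∀ g : Fin d → ℝ, ∑ i, (if h : i ∈ I then p (e ⟨i, h⟩) else 0) * g i =
        ∑ j : Fin I.card, p j * g (e.symm j) := by
      intro g
      rw [← Finset.sum_subset (Finset.subset_univ I) (fun i _ hi => by simp [hi]),
        hsum]
      refine sum_congr rfl fun j _ => ?_
      simp
    refine ⟨fun i => if h : i ∈ I then p (e ⟨i, h⟩) else 0, fun i hi => by simp [hi],
      fun x' hx' => ?_, fun i hi => ?_, fun v hv hpos => ?_⟩
    · have h := h1 (fun j => x' (e.symm j)) (fun j => hx' _ (e.symm j).2)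
      rw [hp (fun i => x' i - x i)]
      exact h
    · have h := h2 (e ⟨i, hi⟩)
      simp only [Equiv.symm_apply_apply] at h
      simpa only [hi, ↓reduceDIte, ge_iff_le] using h
    · have h4 : ∑ i, (v i : ℝ) * (if h : i ∈ I then p (e ⟨i, h⟩) else 0) =
          ∑ j : Fin I.card, (v (e.symm j) : ℝ) * p j := by
        have := hp (fun i => (v i : ℝ))
        simp only [mul_comm] at this ⊢
        rw [this]
      rw [h4] at hpos
      have h5 := h3 (fun j => v (e.symm j)) (fun j => hv _) hpos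
      rw [hsum]
      exact h5

end Vale.Agent.P072
end
end

section

section

/-! Part B1 of P072: the network lemma. -/

namespace Vale.Agent.P072

open Finset

variable {d : ℕ}

/-- A finite family of `N` reals misses one of the `N + 1` open subintervals of equal length
of `(u, u + a)`. -/
theorem exists_gap {ι : Type*} (S : Finset ι) (g : ι → ℝ) (u a : ℝ) (ha : 0 < a) :
    ∃ c : ℕ, c < S.card + 1 ∧ ∀ z ∈ S, ¬ (u + a * (c / (S.card + 1 : ℝ)) < g z ∧
      g z < u + a * ((c + 1) / (S.card + 1 : ℝ))) := by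
  classical
  by_contra hcon
  push Not at hcon
  have hN : (0 : ℝ) < (S.card : ℝ) + 1 := by (clear * -; positivity)
  have hex : ∀ c : Fin (S.card + 1), ∃ z ∈ S, u + a * ((c : ℕ) / (S.card + 1 : ℝ)) < g z ∧
      g z < u + a * (((c : ℕ) + 1) / (S.card + 1 : ℝ)) := fun c => hcon c c.2
  choose z hzS hz1 hz2 using hex
  have hinj : Function.Injective z := by
    intro c c' h
    by_contra hne
    have key : ∀ c c' : Fin (S.card + 1), c < c' → z c ≠ z c' := by
      intro c c' hlt heq
      have h1 := hz2 c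
      have h2 := hz1 c'
      rw [← heq] at h2
      have hle : ((c : ℕ) : ℝ) + 1 ≤ ((c' : ℕ) : ℝ) := by
        have : (c : ℕ) + 1 ≤ (c' : ℕ) := hlt
        exact_mod_cast this
      have : a * ((((c : ℕ) : ℝ) + 1) / (S.card + 1 : ℝ)) ≤
          a * (((c' : ℕ) : ℝ) / (S.card + 1 : ℝ)) := by
        apply mul_le_mul_of_nonneg_left _ ha.le
        exact div_le_div_of_nonneg_right hle hN.le
      linarith only [h1, h2, this]
    rcases lt_or_gt_of_ne hne with hlt | hgt
    · exact key c c' hlt h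
    · exact key c' c hgt h.symm
  have hcard : Fintype.card (Fin (S.card + 1)) ≤ S.card := by
    have := Finset.card_le_card_of_injOn (s := (Finset.univ : Finset (Fin (S.card + 1))))
      (t := S) z (fun c _ => hzS c) (hinj.injOn)
    rwa [Finset.card_univ] at this
  rw [Fintype.card_fin] at hcard
  omega

/-- Crossing step on a path. -/
theorem exists_crossing {α : Type*} {R : α → α → Prop} {P : α → Prop} {a b : α}
    (h : Relation.ReflTransGen R a b) (ha : P a) (hb : ¬ P b) :
    ∃ z z', Relation.ReflTransGen R a z ∧ R z z' ∧ P z ∧ ¬ P z' := by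
  induction h with
  | refl => exact absurd ha hb
  | @tail b c hab hbc ih =>
    by_cases hPb : P b
    · exact ⟨b, c, hab, hbc, hPb, hb⟩
    · exact ih hPb

/-- The drop lemma: a reaction with positive drop `a` is accompanied by a reaction with
negative drop of size at least `a / (N + 1)`, whose source is at a higher level. -/
theorem exists_negative (G : Network d) (hG : G.WeaklyReversible) (p : Fin d → ℝ)
    (r : (Fin d → ℕ) × (Fin d → ℕ)) (hr : r ∈ G.reactions)
    (hpos : 0 < ∑ i, p i * ((r.2 i : ℝ) - (r.1 i : ℝ))) :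
    ∃ r' ∈ G.reactions,
      Relation.ReflTransGen (fun y z => (y, z) ∈ G.reactions) r.1 r'.1 ∧
      0 < ∑ i, p i * ((r'.1 i : ℝ) - (r.1 i : ℝ)) ∧
      (∑ i, p i * ((r.2 i : ℝ) - (r.1 i : ℝ))) ≤
        ((G.complexes.card : ℝ) + 1) * (- ∑ i, p i * ((r'.2 i : ℝ) - (r'.1 i : ℝ))) := by
  classical
  set lev : (Fin d → ℕ) → ℝ := fun y => ∑ i, p i * (y i : ℝ) with hlev
  have hdiff : ∀ y z : Fin d → ℕ, ∑ i, p i * ((z i : ℝ) - (y i : ℝ)) = lev z - lev y := by
    intro y z
    simp only [hlev, mul_sub, Finset.sum_sub_distrib]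
  rw [hdiff] at hpos
  set a := lev r.2 - lev r.1 with ha
  obtain ⟨c, hc, hgap⟩ := exists_gap G.complexes lev (lev r.1) a hpos
  have hN : (0 : ℝ) < (G.complexes.card : ℝ) + 1 := by (clear * -; positivity)
  set N1 : ℝ := (G.complexes.card : ℝ) + 1 with hN1
  have hc' : ((c : ℝ) + 1) ≤ N1 := by
    rw [hN1]; exact_mod_cast hc
  set hi : ℝ := lev r.1 + a * (((c : ℝ) + 1) / N1) with hhi
  have hhi_le : hi ≤ lev r.2 := by
    have : a * (((c : ℝ) + 1) / N1) ≤ a * 1 :=
      mul_le_mul_of_nonneg_left ((div_le_one hN).2 hc') hpos.le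
    rw [hhi]; linarith only [this]
  have hhi_gt : lev r.1 < hi := by
    have : 0 < a * (((c : ℝ) + 1) / N1) := by (clear * - hpos; positivity)
    rw [hhi]; linarith only [this]
  obtain ⟨z, z', hz, hzz', hPz, hPz'⟩ :=
    exists_crossing (P := fun z => hi ≤ lev z) (hG r hr) hhi_le (not_le.2 hhi_gt)
  have hz'mem : z' ∈ G.complexes := G.target_mem (z, z') hzz'
  have hlow : lev z' ≤ lev r.1 + a * ((c : ℝ) / N1) := by
    by_contra hcon
    exact hgap z' hz'mem ⟨not_le.1 hcon, not_le.1 hPz'⟩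
  refine ⟨(z, z'), hzz', ?_, ?_, ?_⟩
  · exact (Relation.ReflTransGen.single (show (r.1, r.2) ∈ G.reactions from hr)).trans hz
  · rw [hdiff]
    have : hi ≤ lev z := hPz
    simp only
    linarith only [hhi_gt, hPz]
  · rw [hdiff, hdiff]
    simp only
    have h1 : hi ≤ lev z := hPz
    have h2 : a * (((c : ℝ) + 1) / N1) - a * ((c : ℝ) / N1) = a / N1 := by
      field_simp; ring
    have h3 : a / N1 ≤ lev z - lev z' := by
      rw [hhi] at h1; linarith only [hPz, hlow, h2]
    have h4 : a ≤ N1 * (lev z - lev z') := by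
      rw [div_le_iff₀ hN] at h3; linarith only [h3]
    linarith only [h4]

theorem sum_mul_field (G : Network d) (k : (Fin d → ℕ) × (Fin d → ℕ) → ℝ)
    (x p : Fin d → ℝ) :
    ∑ i, p i * G.field k x i = ∑ r ∈ G.reactions, (k r * ∏ j, x j ^ r.1 j) *
      ∑ i, p i * ((r.2 i : ℝ) - (r.1 i : ℝ)) := by
  simp only [Network.field, Finset.sum_apply, Pi.smul_apply, smul_eq_mul, Finset.mul_sum]
  rw [Finset.sum_comm]
  refine Finset.sum_congr rfl fun r _ => Finset.sum_congr rfl fun i _ => ?_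
  ring

/-- PART B1 (network lemma): if the covector `p` is aligned with the monomials, then
`p · f(x) ≤ 0`, with a quantitative version. -/
theorem network_lemma (G : Network d) (hG : G.WeaklyReversible)
    (k : (Fin d → ℕ) × (Fin d → ℕ) → ℝ) (hk : ∀ r ∈ G.reactions, 0 < k r) :
    ∃ E > 0, ∃ η > 0, ∀ x p : Fin d → ℝ, (∀ i, 0 < x i) →
      (∀ y ∈ G.complexes, ∀ z ∈ G.complexes,
        Relation.ReflTransGen (fun y z => (y, z) ∈ G.reactions) y z →
        0 < ∑ i, p i * ((z i : ℝ) - (y i : ℝ)) →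
        E * ∏ i, x i ^ y i ≤ ∏ i, x i ^ z i) →
      (∑ i, p i * G.field k x i ≤ 0) ∧
      (∀ h : ℝ, 0 ≤ h → ∀ r ∈ G.reactions, h ≤ |∑ i, p i * ((r.2 i : ℝ) - (r.1 i : ℝ))| →
        ∀ m : ℝ, 0 ≤ m → (∀ r' ∈ G.reactions, m ≤ ∏ i, x i ^ r'.1 i) →
        ∑ i, p i * G.field k x i ≤ - (η * h * m)) := by
  classical
  obtain ⟨kmin, hkmin, hkmin'⟩ : ∃ kmin > 0, ∀ r ∈ G.reactions, kmin ≤ k r := by
    rcases G.reactions.eq_empty_or_nonempty with he | hne
    · exact ⟨1, one_pos, by simp [he]⟩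
    · obtain ⟨r, hr, hmin⟩ := Finset.exists_min_image G.reactions k hne
      exact ⟨k r, hk r hr, hmin⟩
  obtain ⟨kmax, hkmax, hkmax'⟩ : ∃ kmax > 0, ∀ r ∈ G.reactions, k r ≤ kmax := by
    rcases G.reactions.eq_empty_or_nonempty with he | hne
    · exact ⟨1, one_pos, by simp [he]⟩
    · obtain ⟨r, hr, hmax⟩ := Finset.exists_max_image G.reactions k hne
      exact ⟨k r, hk r hr, hmax⟩
  set N1 : ℝ := (G.complexes.card : ℝ) + 1 with hN1
  have hN1pos : 0 < N1 := by (clear * -; positivity)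
  have hN1ge : 1 ≤ N1 := by rw [hN1]; have : (0 : ℝ) ≤ G.complexes.card := by (clear * -; positivity)
                            linarith
  set n1 : ℝ := (G.reactions.card : ℝ) + 1 with hn1
  have hn1pos : 0 < n1 := by (clear * -; positivity)
  set E : ℝ := 2 * n1 * N1 * kmax / kmin with hE
  have hEpos : 0 < E := by (clear * - hkmax hkmin; positivity)
  refine ⟨E, hEpos, kmin / (2 * N1), by (clear * - hkmin; positivity), fun x p hx halign => ?_⟩
  set D : (Fin d → ℕ) × (Fin d → ℕ) → ℝ :=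
    fun r => ∑ i, p i * ((r.2 i : ℝ) - (r.1 i : ℝ)) with hD
  set M : (Fin d → ℕ) → ℝ := fun y => ∏ i, x i ^ y i with hM
  have hMpos : ∀ y, 0 < M y := fun y => Finset.prod_pos fun i _ => pow_pos (hx i) _
  set w : (Fin d → ℕ) × (Fin d → ℕ) → ℝ := fun r => k r * M r.1 with hw
  have hwpos : ∀ r ∈ G.reactions, 0 < w r := fun r hr => mul_pos (hk r hr) (hMpos _)
  set NEG : ℝ := ∑ r ∈ G.reactions, w r * max 0 (- D r) with hNEG
  have hNEGnn : 0 ≤ NEG := Finset.sum_nonneg fun r hr =>
    mul_nonneg (hwpos r hr).le (le_max_left _ _)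
  have hterm : ∀ r ∈ G.reactions, w r * (- D r) ≤ NEG := by
    intro r hr
    calc w r * (- D r) ≤ w r * max 0 (- D r) :=
          mul_le_mul_of_nonneg_left (le_max_right _ _) (hwpos r hr).le
      _ ≤ NEG := Finset.single_le_sum (f := fun r => w r * max 0 (- D r))
          (fun r hr => mul_nonneg (hwpos r hr).le (le_max_left _ _)) hr
  -- the negative partner of a positive reaction
  have hpartner : ∀ r ∈ G.reactions, 0 < D r → ∃ r' ∈ G.reactions,
      E * M r.1 ≤ M r'.1 ∧ D r ≤ N1 * (- D r') ∧ 0 < - D r' := by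
    intro r hr hDr
    obtain ⟨r', hr', hreach, hlev, hdrop⟩ := exists_negative G hG p r hr hDr
    refine ⟨r', hr', ?_, hdrop, ?_⟩
    · exact halign r.1 (G.source_mem r hr) r'.1 (G.source_mem r' hr') hreach hlev
    · have : 0 < N1 * (- D r') := lt_of_lt_of_le hDr hdrop
      exact (pos_iff_pos_of_mul_pos this).1 hN1pos
  have hpos : ∀ r ∈ G.reactions, w r * D r ≤ 1 / (2 * n1) * NEG - w r * max 0 (- D r) := by
    intro r hr
    rcases le_or_gt (D r) 0 with hle | hgt
    · have : max 0 (- D r) = - D r := max_eq_right (by linarith only [hle])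
      rw [this]
      have : 0 ≤ 1 / (2 * n1) * NEG := by (clear * - hNEGnn; positivity)
      linarith only [this]
    · have h0 : max 0 (- D r) = 0 := max_eq_left (by linarith only [hgt])
      rw [h0, mul_zero, sub_zero]
      obtain ⟨r', hr', hMM, hdrop, hneg⟩ := hpartner r hr hgt
      have h1 : w r ≤ kmax * M r.1 := mul_le_mul_of_nonneg_right (hkmax' r hr) (hMpos _).le
      have h2 : M r.1 ≤ M r'.1 / E := by
        rw [le_div_iff₀ hEpos]; linarith only [hMM]
      have h3 : kmin * M r'.1 ≤ w r' := mul_le_mul_of_nonneg_right (hkmin' r' hr') (hMpos _).le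
      have h4 : w r' * (- D r') ≤ NEG := hterm r' hr'
      calc w r * D r ≤ (kmax * M r.1) * (N1 * (- D r')) :=
            mul_le_mul h1 hdrop hgt.le (by have := hMpos r.1; (clear * - hkmax this; positivity))
        _ ≤ (kmax * (M r'.1 / E)) * (N1 * (- D r')) := by
            apply mul_le_mul_of_nonneg_right
            · exact mul_le_mul_of_nonneg_left h2 hkmax.le
            · (clear * - hneg; positivity)
        _ = 1 / (2 * n1) * ((kmin * M r'.1) * (- D r')) := by
            rw [hE]; (clear * - hkmax hN1pos hkmin hn1pos; field_simp)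
        _ ≤ 1 / (2 * n1) * (w r' * (- D r')) := by
            apply mul_le_mul_of_nonneg_left _ (by (clear * -; positivity))
            exact mul_le_mul_of_nonneg_right h3 hneg.le
        _ ≤ 1 / (2 * n1) * NEG := mul_le_mul_of_nonneg_left h4 (by (clear * -; positivity))
  have hmain : ∑ i, p i * G.field k x i ≤ - (1 / 2) * NEG := by
    rw [sum_mul_field]
    have hsum : ∑ r ∈ G.reactions, w r * D r ≤
        ∑ r ∈ G.reactions, (1 / (2 * n1) * NEG - w r * max 0 (- D r)) :=
      Finset.sum_le_sum hpos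
    rw [Finset.sum_sub_distrib, Finset.sum_const, nsmul_eq_mul] at hsum
    have hcard : (G.reactions.card : ℝ) * (1 / (2 * n1) * NEG) ≤ 1 / 2 * NEG := by
      have h5 : (G.reactions.card : ℝ) ≤ n1 := by rw [hn1]; linarith only []
      calc (G.reactions.card : ℝ) * (1 / (2 * n1) * NEG) ≤ n1 * (1 / (2 * n1) * NEG) :=
            mul_le_mul_of_nonneg_right h5 (by (clear * - hNEGnn; positivity))
        _ = 1 / 2 * NEG := by (clear * - hn1pos; field_simp)
    have : ∑ r ∈ G.reactions, w r * D r ≤ - (1 / 2) * NEG := by linarith only [hsum, hcard]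
    exact this
  refine ⟨by linarith only [hNEGnn, hmain], fun h hh r hr hhr m hm hmM => ?_⟩
  -- lower bound for NEG
  have hkey : kmin * m * (h / N1) ≤ NEG := by
    rcases lt_trichotomy (D r) 0 with hneg | hzero | hposD
    · have habs : |D r| = - D r := abs_of_neg hneg
      have h1 : h ≤ - D r := by rw [← habs]; exact hhr
      calc kmin * m * (h / N1) ≤ kmin * m * h := by
            apply mul_le_mul_of_nonneg_left _ (by (clear * - hkmin hm; positivity))
            exact div_le_self hh hN1ge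
        _ ≤ w r * (- D r) := by
            apply mul_le_mul _ h1 hh (hwpos r hr).le
            exact mul_le_mul (hkmin' r hr) (hmM r hr) hm (hk r hr).le
        _ ≤ NEG := hterm r hr
    · have : |D r| = 0 := by rw [hzero, abs_zero]
      have h1 : h ≤ 0 := by rw [← this]; exact hhr
      have h2 : h = 0 := le_antisymm h1 hh
      rw [h2]; simpa only [zero_div, mul_zero, ge_iff_le] using hNEGnn
    · have habs : |D r| = D r := abs_of_pos hposD
      have h1 : h ≤ D r := by rw [← habs]; exact hhr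
      obtain ⟨r', hr', _, hdrop, hneg⟩ := hpartner r hr hposD
      have h2 : h / N1 ≤ - D r' := by
        rw [div_le_iff₀ hN1pos]; linarith only [hhr, habs, hdrop]
      calc kmin * m * (h / N1) ≤ w r' * (- D r') := by
            apply mul_le_mul _ h2 (by (clear * - hh; positivity)) (hwpos r' hr').le
            exact mul_le_mul (hkmin' r' hr') (hmM r' hr') hm (hk r' hr').le
        _ ≤ NEG := hterm r' hr'
  calc ∑ i, p i * G.field k x i ≤ - (1 / 2) * NEG := hmain
    _ ≤ - (1 / 2) * (kmin * m * (h / N1)) := by linarith only [hkey]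
    _ = - (kmin / (2 * N1) * h * m) := by (clear * - hN1pos hkmin; field_simp)

end Vale.Agent.P072
end
end

section

section

/-! Part B2 of P072: potentials adapted to a network, from the potential lemma. -/

namespace Vale.Agent.P072

open Finset

variable {d : ℕ}

/-- The property of a potential on the coordinates in `I`, valid where the other
coordinates lie in `[κ, B]`. -/
structure IsPotential (G : Network d) (k : (Fin d → ℕ) × (Fin d → ℕ) → ℝ)
    (I : Finset (Fin d)) (κ B : ℝ) (V : (Fin d → ℝ) → ℝ) (C η : ℝ) : Prop where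
  C_nonneg : 0 ≤ C
  η_pos : 0 < η
  lower : ∀ x : Fin d → ℝ, (∀ i ∈ I, 0 < x i) → ∑ i ∈ I, x i * (Real.log (x i) - C) ≤ V x
  upper : ∀ x : Fin d → ℝ, (∀ i ∈ I, 0 < x i) → V x ≤ ∑ i ∈ I, x i * (Real.log (x i) + C)
  grad : ∀ x : Fin d → ℝ, (∀ i, 0 < x i) → (∀ i ∉ I, κ ≤ x i ∧ x i ≤ B) → ∀ ε > 0,
    ∃ p : Fin d → ℝ, (∀ i ∉ I, p i = 0) ∧
      (∀ x' : Fin d → ℝ, (∀ i ∈ I, 0 < x' i) → V x - ε + ∑ i, p i * (x' i - x i) ≤ V x') ∧
      (∀ i ∈ I, |p i - Real.log (x i)| ≤ C) ∧
      (∑ i, p i * G.field k x i ≤ 0) ∧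
      (∀ h : ℝ, 0 ≤ h → ∀ r ∈ G.reactions, h ≤ |∑ i, p i * ((r.2 i : ℝ) - (r.1 i : ℝ))| →
        ∀ m : ℝ, 0 ≤ m → (∀ r' ∈ G.reactions, m ≤ ∏ i, x i ^ r'.1 i) →
        ∑ i, p i * G.field k x i ≤ - (η * h * m))

/-- A bound for all exponents of the complexes. -/
theorem exists_exponent_bound (G : Network d) :
    ∃ N : ℕ, ∀ y ∈ G.complexes, ∀ i, y i ≤ N := by
  classical
  refine ⟨∑ y ∈ G.complexes, ∑ i, y i, fun y hy i => ?_⟩
  calc y i ≤ ∑ i, y i := Finset.single_le_sum (f := fun i => y i) (fun _ _ => Nat.zero_le _)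
        (Finset.mem_univ i)
    _ ≤ ∑ y ∈ G.complexes, ∑ i, y i :=
        Finset.single_le_sum (f := fun y : Fin d → ℕ => ∑ i, y i) (fun _ _ => Nat.zero_le _) hy

theorem abs_log_le_of_mem {κ B t : ℝ} (hκ : 0 < κ) (h1 : κ ≤ t) (h2 : t ≤ B) :
    |Real.log t| ≤ |Real.log κ| + |Real.log B| := by
  have ht : 0 < t := lt_of_lt_of_le hκ h1
  have h3 : Real.log κ ≤ Real.log t := Real.log_le_log hκ h1
  have h4 : Real.log t ≤ Real.log B := Real.log_le_log ht h2
  rw [abs_le]
  constructor
  · have := neg_abs_le (Real.log κ)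
    have := abs_nonneg (Real.log B)
    linarith
  · have := le_abs_self (Real.log B)
    have := abs_nonneg (Real.log κ)
    linarith

/-- The monomials are aligned with a covector `p` provided by the potential lemma. -/
theorem monomial_le_of_align (x : Fin d → ℝ) (hx : ∀ i, 0 < x i) (y z : Fin d → ℕ)
    (E : ℝ) (hE : 0 < E)
    (h : Real.log E ≤ ∑ i, ((z i : ℝ) - (y i : ℝ)) * Real.log (x i)) :
    E * ∏ i, x i ^ y i ≤ ∏ i, x i ^ z i := by
  have hpy : 0 < ∏ i, x i ^ y i := Finset.prod_pos fun i _ => pow_pos (hx i) _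
  have hpz : 0 < ∏ i, x i ^ z i := Finset.prod_pos fun i _ => pow_pos (hx i) _
  have hly : Real.log (∏ i, x i ^ y i) = ∑ i, (y i : ℝ) * Real.log (x i) := by
    rw [Real.log_prod (fun i _ => (pow_pos (hx i) _).ne')]
    exact Finset.sum_congr rfl fun i _ => Real.log_pow _ _
  have hlz : Real.log (∏ i, x i ^ z i) = ∑ i, (z i : ℝ) * Real.log (x i) := by
    rw [Real.log_prod (fun i _ => (pow_pos (hx i) _).ne')]
    exact Finset.sum_congr rfl fun i _ => Real.log_pow _ _
  rw [← Real.log_le_log_iff (mul_pos hE hpy) hpz, Real.log_mul hE.ne' hpy.ne', hly, hlz]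
  have : ∑ i, ((z i : ℝ) - (y i : ℝ)) * Real.log (x i) =
      ∑ i, (z i : ℝ) * Real.log (x i) - ∑ i, (y i : ℝ) * Real.log (x i) := by
    rw [← Finset.sum_sub_distrib]
    exact Finset.sum_congr rfl fun i _ => by ring
  linarith

/-- PART B2: existence of potentials, from the potential lemma and `network_lemma`. -/
theorem isPotential_of_subset (G : Network d) (hG : G.WeaklyReversible)
    (k : (Fin d → ℕ) × (Fin d → ℕ) → ℝ) (hk : ∀ r ∈ G.reactions, 0 < k r)
    (I : Finset (Fin d)) (κ B : ℝ) (hκ : 0 < κ)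
    (hsub : ∀ (N : ℕ) (δ : ℝ), ∃ (V : (Fin d → ℝ) → ℝ) (C : ℝ), 0 ≤ C ∧
      (∀ x, (∀ i ∈ I, 0 < x i) → ∑ i ∈ I, x i * (Real.log (x i) - C) ≤ V x ∧
        V x ≤ ∑ i ∈ I, x i * (Real.log (x i) + C)) ∧
      (∀ x, (∀ i ∈ I, 0 < x i) → ∀ ε > 0, ∃ p : Fin d → ℝ, (∀ i ∉ I, p i = 0) ∧
       (∀ x', (∀ i ∈ I, 0 < x' i) → V x - ε + ∑ i, p i * (x' i - x i) ≤ V x') ∧
       (∀ i ∈ I, |p i - Real.log (x i)| ≤ C) ∧
       (∀ v : Fin d → ℤ, (∀ i, |v i| ≤ N) → 0 < ∑ i, (v i : ℝ) * p i →
          δ < ∑ i ∈ I, (v i : ℝ) * Real.log (x i)))) :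
    ∃ (V : (Fin d → ℝ) → ℝ) (C η : ℝ), IsPotential G k I κ B V C η := by
  classical
  obtain ⟨E, hE, η, hη, hnet⟩ := network_lemma G hG k hk
  obtain ⟨N, hN⟩ := exists_exponent_bound G
  set L : ℝ := |Real.log κ| + |Real.log B| with hL
  have hLnn : 0 ≤ L := by (clear * -; positivity)
  obtain ⟨V, C, hC, hbd, hgrad⟩ := hsub N (Real.log E + d * (N * L))
  refine ⟨V, C, η, hC, hη, fun x hx => (hbd x hx).1, fun x hx => (hbd x hx).2, ?_⟩
  intro x hx hxI ε hε
  obtain ⟨p, hp0, hp1, hp2, hp3⟩ := hgrad x (fun i _ => hx i) ε hε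
  refine ⟨p, hp0, hp1, hp2, ?_⟩
  apply hnet x p hx
  intro y hy z hz _ hpos
  apply monomial_le_of_align x hx y z E hE
  have hv : ∀ i, |((z i : ℤ) - (y i : ℤ))| ≤ (N : ℤ) := by
    intro i
    have h1 := hN y hy i
    have h2 := hN z hz i
    rw [abs_le]
    constructor <;> omega
  have hpos' : 0 < ∑ i, ((((z i : ℤ) - (y i : ℤ) : ℤ)) : ℝ) * p i := by
    have : ∑ i, ((((z i : ℤ) - (y i : ℤ) : ℤ)) : ℝ) * p i =
        ∑ i, p i * ((z i : ℝ) - (y i : ℝ)) := by
      refine Finset.sum_congr rfl fun i _ => ?_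
      push_cast; ring
    rw [this]; exact hpos
  have h3 := hp3 (fun i => (z i : ℤ) - (y i : ℤ)) hv hpos'
  have h4 : ∑ i ∈ I, ((((z i : ℤ) - (y i : ℤ) : ℤ)) : ℝ) * Real.log (x i) =
      ∑ i ∈ I, ((z i : ℝ) - (y i : ℝ)) * Real.log (x i) := by
    refine Finset.sum_congr rfl fun i _ => ?_
    push_cast; ring
  rw [h4] at h3
  have h5 : ∑ i, ((z i : ℝ) - (y i : ℝ)) * Real.log (x i) =
      ∑ i ∈ I, ((z i : ℝ) - (y i : ℝ)) * Real.log (x i) +
      ∑ i ∈ Iᶜ, ((z i : ℝ) - (y i : ℝ)) * Real.log (x i) :=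
    (Finset.sum_add_sum_compl I _).symm
  have h6 : |∑ i ∈ Iᶜ, ((z i : ℝ) - (y i : ℝ)) * Real.log (x i)| ≤ d * (N * L) := by
    calc |∑ i ∈ Iᶜ, ((z i : ℝ) - (y i : ℝ)) * Real.log (x i)|
        ≤ ∑ i ∈ Iᶜ, |((z i : ℝ) - (y i : ℝ)) * Real.log (x i)| :=
          Finset.abs_sum_le_sum_abs _ _
      _ ≤ ∑ i ∈ Iᶜ, (N : ℝ) * L := by
          apply Finset.sum_le_sum
          intro i hi
          rw [abs_mul]
          have hi' : i ∉ I := by simpa using hi
          have h7 : |(z i : ℝ) - (y i : ℝ)| ≤ N := by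
            have := hv i
            exact_mod_cast this
          exact mul_le_mul h7 (abs_log_le_of_mem hκ (hxI i hi').1 (hxI i hi').2)
            (abs_nonneg _) (by (clear * -; positivity))
      _ = (Iᶜ.card : ℝ) * (N * L) := by rw [Finset.sum_const, nsmul_eq_mul]
      _ ≤ d * (N * L) := by
          apply mul_le_mul_of_nonneg_right _ (by (clear * -; positivity))
          have : Iᶜ.card ≤ d := by
            simpa only [Fintype.card_fin] using Finset.card_le_univ (Iᶜ : Finset (Fin d))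
          exact_mod_cast this
  have h8 := neg_abs_le (∑ i ∈ Iᶜ, ((z i : ℝ) - (y i : ℝ)) * Real.log (x i))
  rw [h5]
  linarith only [h3, h6, h8]

end Vale.Agent.P072
end
end

section

section

namespace Vale.Agent.P072

open Finset

variable {d : ℕ}

/-- From a short-range estimate to a long-range estimate. -/
theorem decrease_chain (g : ℝ → ℝ) (s t c h : ℝ) (hh : 0 < h)
    (hg : ∀ a b, s ≤ a → a ≤ b → b ≤ t → b - a ≤ h → g b ≤ g a + (b - a) * c) :
    ∀ (n : ℕ) (a b : ℝ), s ≤ a → a ≤ b → b ≤ t → b - a ≤ n * h → g b ≤ g a + (b - a) * c := by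
  intro n
  induction n with
  | zero =>
    intro a b ha hab hb hn
    have : b = a := by
      have : b - a ≤ 0 := by simpa only [tsub_le_iff_right, zero_add, CharP.cast_eq_zero, zero_mul] using hn
      linarith only [hab, this]
    subst this
    simp
  | succ n ih =>
    intro a b ha hab hb hn
    by_cases hc : b - a ≤ h
    · exact hg a b ha hab hb hc
    · have h1 : a ≤ b - h := by linarith only [hc]
      have h2 := ih a (b - h) ha h1 (by linarith) (by push_cast at hn; linarith only [hn])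
      have h3 := hg (b - h) b (by linarith) (by linarith) hb (by linarith)
      linarith only [h2, h3]

/-- PART C1 (partition argument). A solution segment on `[s,t]`, staying in the region of
validity; then `V (x t) - V (x s) ≤ -ρ (t - s)` when every gradient has `p · f ≤ -ρ`. -/
theorem potential_decrease (f : (Fin d → ℝ) → Fin d → ℝ) (hf : Continuous f)
    (V : (Fin d → ℝ) → ℝ) (I : Finset (Fin d)) (C ρ : ℝ) (x : ℝ → Fin d → ℝ) (s t : ℝ)
    (hst : s ≤ t)
    (hx : ∀ r ∈ Set.Icc s t, HasDerivWithinAt x (f (x r)) (Set.Icc s t) r)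
    (hpos : ∀ r ∈ Set.Icc s t, ∀ i, 0 < x r i)
    (hgrad : ∀ r ∈ Set.Icc s t, ∀ ε > 0, ∃ p : Fin d → ℝ, (∀ i ∉ I, p i = 0) ∧
      (∀ x' : Fin d → ℝ, (∀ i ∈ I, 0 < x' i) →
        V (x r) - ε + ∑ i, p i * (x' i - x r i) ≤ V x') ∧
      (∀ i ∈ I, |p i - Real.log (x r i)| ≤ C) ∧
      (∑ i, p i * f (x r) i ≤ -ρ)) :
    V (x t) ≤ V (x s) - ρ * (t - s) := by
  have hxc : ContinuousOn x (Set.Icc s t) := fun r hr => (hx r hr).continuousWithinAt
  have hfc : ContinuousOn (fun r => f (x r)) (Set.Icc s t) := hf.comp_continuousOn hxc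
  -- bound on the logarithms
  have hlogc : ContinuousOn (fun r => (fun i => Real.log (x r i))) (Set.Icc s t) := by
    rw [continuousOn_pi]
    intro i
    refine ContinuousOn.log ?_ (fun r hr => (hpos r hr i).ne')
    exact (continuous_apply i).comp_continuousOn hxc
  obtain ⟨L, hL⟩ := isCompact_Icc.exists_bound_of_continuousOn hlogc
  have hunif : UniformContinuousOn (fun r => f (x r)) (Set.Icc s t) :=
    isCompact_Icc.uniformContinuousOn_of_continuous hfc
  set K : ℝ := |C| + |L| with hK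
  have hK0 : 0 ≤ K := by (clear * -; positivity)
  -- main estimate for every `μ > 0`
  have key : ∀ μ > 0, V (x t) ≤ V (x s) + (t - s) * (-ρ + d * K * μ) := by
    intro μ hμ
    obtain ⟨h, hh, hunif'⟩ := Metric.uniformContinuousOn_iff.1 hunif μ hμ
    have hstep : ∀ a b, s ≤ a → a ≤ b → b ≤ t → b - a ≤ h / 2 →
        V (x b) ≤ V (x a) + (b - a) * (-ρ + d * K * μ) := by
      intro a b ha hab hb hba
      have hbm : b ∈ Set.Icc s t := ⟨by linarith only [ha, hab], hb⟩
      have ham : a ∈ Set.Icc s t := ⟨ha, by linarith only [hab, hb]⟩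
      have hsub : Set.Icc a b ⊆ Set.Icc s t := Set.Icc_subset_Icc ha hb
      have hder : ∀ r ∈ Set.Icc a b, HasDerivWithinAt (fun r => x r - r • f (x b))
          (f (x r) - f (x b)) (Set.Icc a b) r := by
        intro r hr
        have h1 := (hx r (hsub hr)).mono hsub
        have h2 : HasDerivWithinAt (fun r : ℝ => r • f (x b)) ((1 : ℝ) • f (x b))
            (Set.Icc a b) r := (hasDerivWithinAt_id r _).smul_const (f (x b))
        rw [one_smul] at h2
        exact h1.sub h2
      have hbound : ∀ r ∈ Set.Icc a b, ‖f (x r) - f (x b)‖ ≤ μ := by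
        intro r hr
        have h1 := hunif' r (hsub hr) b hbm (by
          rw [Real.dist_eq, abs_sub_comm, abs_of_nonneg (by linarith only [hr.2])]
          linarith only [hh, hba, hr.1])
        rw [← dist_eq_norm]
        exact h1.le
      have herr := (convex_Icc a b).norm_image_sub_le_of_norm_hasDerivWithin_le hder hbound
        (Set.left_mem_Icc.2 hab) (Set.right_mem_Icc.2 hab)
      rw [Real.norm_eq_abs, abs_of_nonneg (by linarith only [hab] : 0 ≤ b - a)] at herr
      set e : Fin d → ℝ := (x b - b • f (x b)) - (x a - a • f (x b)) with he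
      have he' : ∀ i, x b i - x a i = (b - a) * f (x b) i + e i := by
        intro i
        simp only [he, Pi.sub_apply, Pi.smul_apply, smul_eq_mul]
        ring
      have hei : ∀ i, |e i| ≤ μ * (b - a) := fun i => (norm_le_pi_norm e i).trans herr
      refine le_of_forall_pos_le_add (fun ε hε => ?_)
      obtain ⟨p, hpI, hpV, hpl, hpf⟩ := hgrad b hbm ε hε
      have h1 := hpV (x a) (fun i _ => hpos a ham i)
      have hpK : ∀ i, |p i| ≤ K := by
        intro i
        by_cases hi : i ∈ I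
        · have h2 := hpl i hi
          have h3 : |Real.log (x b i)| ≤ L :=
            (norm_le_pi_norm (fun i => Real.log (x b i)) i).trans (hL b hbm)
          have h4 : |p i| ≤ |p i - Real.log (x b i)| + |Real.log (x b i)| := by
            have := abs_add_le (p i - Real.log (x b i)) (Real.log (x b i))
            simpa only [ge_iff_le, sub_add_cancel] using this
          have h5 := le_abs_self C
          have h6 := le_abs_self L
          linarith only [h2, h3, h4, h5, h6]
        · rw [hpI i hi, abs_zero]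
          exact hK0
      have h2 : ∑ i, p i * (x a i - x b i) =
          -((b - a) * ∑ i, p i * f (x b) i) - ∑ i, p i * e i := by
        rw [Finset.mul_sum, ← Finset.sum_neg_distrib, ← Finset.sum_sub_distrib]
        refine Finset.sum_congr rfl (fun i _ => ?_)
        have := he' i
        have h3 : x a i - x b i = -((b - a) * f (x b) i + e i) := by linarith only [this]
        rw [h3]
        ring
      have h3 : ∑ i, p i * e i ≤ d * K * μ * (b - a) := by
        calc ∑ i, p i * e i ≤ ∑ _i : Fin d, K * (μ * (b - a)) := by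
              refine Finset.sum_le_sum (fun i _ => ?_)
              calc p i * e i ≤ |p i * e i| := le_abs_self _
                _ = |p i| * |e i| := abs_mul _ _
                _ ≤ K * (μ * (b - a)) :=
                    mul_le_mul (hpK i) (hei i) (abs_nonneg _) hK0
          _ = d * K * μ * (b - a) := by
              rw [Finset.sum_const, Finset.card_univ, Fintype.card_fin, nsmul_eq_mul]
              ring
      have h4 : (b - a) * ∑ i, p i * f (x b) i ≤ (b - a) * (-ρ) :=
        mul_le_mul_of_nonneg_left hpf (by linarith only [hab])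
      rw [h2] at h1
      linarith only [h1, h3, h4]
    obtain ⟨n, hn⟩ := exists_nat_gt ((t - s) / (h / 2))
    have hh2 : 0 < h / 2 := by linarith only [hh]
    have hn' : t - s ≤ n * (h / 2) := by
      rw [div_lt_iff₀ hh2] at hn
      exact hn.le
    exact decrease_chain (fun r => V (x r)) s t _ (h / 2) hh2 hstep n s t le_rfl hst le_rfl hn'
  refine le_of_forall_pos_le_add (fun ε hε => ?_)
  have hden : 0 < (t - s) * (d * K) + 1 := by
    have : 0 ≤ (t - s) * (d * K) := mul_nonneg (by linarith) (by (clear * -; positivity))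
    linarith only [this]
  have h1 := key (ε / ((t - s) * (d * K) + 1)) (div_pos hε hden)
  have h2 : (t - s) * (d * K) * (ε / ((t - s) * (d * K) + 1)) ≤ ε := by
    rw [← mul_div_assoc, div_le_iff₀ hden]
    nlinarith only [hε]
  have h3 : (t - s) * (-ρ + d * K * (ε / ((t - s) * (d * K) + 1))) =
      -(ρ * (t - s)) + (t - s) * (d * K) * (ε / ((t - s) * (d * K) + 1)) := by ring
  linarith only [h1, h2]

end Vale.Agent.P072
end
end

section

section

/-! # Global existence and uniqueness of solutions from a-priori bounds -/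

namespace Vale.Agent.P072

open Set Metric NNReal

section General

variable {E : Type*} [NormedAddCommGroup E] [NormedSpace ℝ E]

/-- Uniqueness for a globally Lipschitz field on `[0, T]`. -/
theorem unique_of_lipschitz {g : E → E} {K : ℝ≥0} (hg : LipschitzWith K g) {x z : ℝ → E} {T : ℝ}
    (hx : ∀ t ∈ Icc 0 T, HasDerivWithinAt x (g (x t)) (Icc 0 T) t)
    (hz : ∀ t ∈ Icc 0 T, HasDerivWithinAt z (g (z t)) (Icc 0 T) t)
    (h0 : x 0 = z 0) : EqOn x z (Icc 0 T) := by
  have key : ∀ {y : ℝ → E}, (∀ t ∈ Icc 0 T, HasDerivWithinAt y (g (y t)) (Icc 0 T) t) →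
      ContinuousOn y (Icc 0 T) ∧ ∀ t ∈ Ico 0 T, HasDerivWithinAt y (g (y t)) (Ici t) t := by
    intro y hy
    refine ⟨fun t ht => (hy t ht).continuousWithinAt, fun t ht => ?_⟩
    have h1 := hy t ⟨ht.1, ht.2.le⟩
    refine (h1.mono (Icc_subset_Icc_left ht.1)).mono_of_mem_nhdsWithin ?_
    exact Icc_mem_nhdsGE ht.2
  exact ODE_solution_unique (v := fun _ => g) (fun _ => hg) (key hx).1 (key hx).2 (key hz).1
    (key hz).2 h0

/-- Global existence for a bounded, globally Lipschitz field. -/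
theorem exists_global_of_lipschitz [CompleteSpace E] {g : E → E} {K : ℝ≥0}
    (hg : LipschitzWith K g) {L : ℝ≥0} (hL : ∀ x, ‖g x‖ ≤ L) (x₀ : E) :
    ∃ z : ℝ → E, z 0 = x₀ ∧ ∀ t ∈ Ici (0 : ℝ), HasDerivWithinAt z (g (z t)) (Ici 0) t := by
  have hloc : ∀ n : ℕ, ∃ y : ℝ → E, y 0 = x₀ ∧
      ∀ t ∈ Icc (0 : ℝ) n, HasDerivWithinAt y (g (y t)) (Icc (0 : ℝ) n) t := by
    intro n
    have h0 : (0 : ℝ) ∈ Icc (0 : ℝ) n := ⟨le_rfl, Nat.cast_nonneg n⟩
    have hPL : IsPicardLindelof (fun _ => g) (⟨0, h0⟩ : Icc (0 : ℝ) n) x₀ (L * n) 0 L K := by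
      apply IsPicardLindelof.of_time_independent
      · intro x _; exact hL x
      · exact hg.lipschitzOnWith
      · simp only [sub_zero, sub_self, Nat.cast_nonneg, sup_of_le_left, NNReal.coe_mul, NNReal.coe_natCast, coe_zero, Std.le_refl]
    exact hPL.exists_eq_forall_mem_Icc_hasDerivWithinAt₀
  choose y hy0 hy using hloc
  have hagree : ∀ m n : ℕ, m ≤ n → EqOn (y m) (y n) (Icc (0 : ℝ) m) := by
    intro m n hmn
    apply unique_of_lipschitz hg (hy m)
    · intro t ht
      have hmn' : (m : ℝ) ≤ n := by exact_mod_cast hmn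
      exact (hy n t ⟨ht.1, ht.2.trans hmn'⟩).mono (Icc_subset_Icc_right hmn')
    · rw [hy0, hy0]
  refine ⟨fun t => y (⌈t⌉₊ + 1) t, by simp [hy0], ?_⟩
  intro t ht
  have ht0 : (0 : ℝ) ≤ t := ht
  set n := ⌈t⌉₊ + 2 with hn
  have htn : t < ((⌈t⌉₊ + 1 : ℕ) : ℝ) := by
    push_cast
    have := Nat.le_ceil t
    linarith only [this]
  have heq : ∀ s ∈ Ico (0 : ℝ) (⌈t⌉₊ + 1 : ℕ), y (⌈s⌉₊ + 1) s = y n s := by
    intro s hs
    apply hagree
    · have : ⌈s⌉₊ ≤ ⌈t⌉₊ + 1 := by
        apply Nat.ceil_le.mpr hs.2.le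
      omega
    · refine ⟨hs.1, ?_⟩
      push_cast
      have := Nat.le_ceil s
      linarith only [this]
  have hder : HasDerivWithinAt (y n) (g (y n t)) (Icc (0 : ℝ) n) t := by
    apply hy n t
    refine ⟨ht0, ?_⟩
    rw [hn]; push_cast at htn ⊢; linarith only [htn]
  have hmem : Ico (0 : ℝ) (⌈t⌉₊ + 1 : ℕ) ∈ nhdsWithin t (Ici 0) := by
    have : Iio ((⌈t⌉₊ + 1 : ℕ) : ℝ) ∈ nhds t := Iio_mem_nhds htn
    have h2 := inter_mem_nhdsWithin (Ici (0 : ℝ)) this
    refine Filter.mem_of_superset h2 ?_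
    intro s hs
    exact ⟨hs.1, hs.2⟩
  have hder2 : HasDerivWithinAt (y n) (g (y n t)) (Ici 0) t := by
    apply (hder.mono (s := Ico (0 : ℝ) (⌈t⌉₊ + 1 : ℕ)) ?_).mono_of_mem_nhdsWithin hmem
    intro s hs
    refine ⟨hs.1, ?_⟩
    have := hs.2
    rw [hn]; push_cast at this ⊢; linarith only [this]
  have htt : y (⌈t⌉₊ + 1) t = y n t := heq t ⟨ht0, htn⟩
  show HasDerivWithinAt (fun t => y (⌈t⌉₊ + 1) t) (g (y (⌈t⌉₊ + 1) t)) (Ici 0) t
  rw [htt]
  apply hder2.congr_of_eventuallyEq
  · filter_upwards [hmem] with s hs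
    exact heq s hs
  · exact htt

end General

variable {d : ℕ}

/-- PART C2 (ODE theory). If every solution on `[0,b)` from `x₀` that is positive stays in
a fixed compact box of the open orthant then there is a global solution, etc. -/
theorem global_of_apriori (f : (Fin d → ℝ) → Fin d → ℝ) (hf : ContDiff ℝ 1 f)
    (x₀ : Fin d → ℝ) (hx₀ : ∀ i, 0 < x₀ i) (κ B : ℝ) (hκ : 0 < κ)
    (hbox : ∀ b > 0, ∀ x, IsSolutionOn f x b → x 0 = x₀ → (∀ t ∈ Set.Ico 0 b, ∀ i, 0 < x t i) →
      ∀ t ∈ Set.Ico 0 b, ∀ i, κ ≤ x t i ∧ x t i ≤ B) :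
    (∃ z, IsGlobalSolution f z ∧ z 0 = x₀ ∧ (∀ t ≥ 0, ∀ i, κ ≤ z t i ∧ z t i ≤ B)) ∧
    (∀ b > 0, ∀ x, IsSolutionOn f x b → x 0 = x₀ →
      ∀ z, IsGlobalSolution f z → z 0 = x₀ → Set.EqOn x z (Set.Ico 0 b)) := by
  -- cut-off of the field outside a big ball
  have hcut : ∀ R : ℝ, 0 < R → ∃ g : (Fin d → ℝ) → Fin d → ℝ, ∃ K L : ℝ≥0,
      LipschitzWith K g ∧ (∀ x, ‖g x‖ ≤ L) ∧ ∀ x ∈ closedBall (0 : Fin d → ℝ) R, g x = f x := by
    intro R hR
    let φ : ContDiffBump (0 : Fin d → ℝ) := ⟨R, R + 1, hR, by linarith⟩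
    let g : (Fin d → ℝ) → Fin d → ℝ := fun x => φ x • f x
    have hgc : ContDiff ℝ 1 g := φ.contDiff.smul hf
    have hgs : HasCompactSupport g := φ.hasCompactSupport.smul_right
    obtain ⟨K, hK⟩ := hgc.lipschitzWith_of_hasCompactSupport hgs (by simp)
    obtain ⟨L, hL⟩ := hgc.continuous.bounded_above_of_compact_support hgs
    refine ⟨g, K, L.toNNReal, hK, fun x => ?_, fun x hx => ?_⟩
    · exact (hL x).trans (Real.le_coe_toNNReal L)
    · show φ x • f x = f x
      rw [φ.one_of_mem_closedBall hx, one_smul]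
  constructor
  · -- existence
    obtain ⟨R, hR0, hRx, hRB⟩ : ∃ R : ℝ, 0 < R ∧ ‖x₀‖ < R ∧ B < R := by
      refine ⟨max (‖x₀‖ + 1) (B + 1), ?_, ?_, ?_⟩
      · have := norm_nonneg x₀
        exact lt_of_lt_of_le (by linarith only [this]) (le_max_left _ _)
      · exact lt_of_lt_of_le (by linarith) (le_max_left _ _)
      · exact lt_of_lt_of_le (by linarith) (le_max_right _ _)
    obtain ⟨g, K, L, hgK, hgL, hgf⟩ := hcut R hR0
    obtain ⟨z, hz0, hz⟩ := exists_global_of_lipschitz hgK hgL x₀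
    have hzc : ContinuousOn z (Ici 0) := fun t ht => (hz t ht).continuousWithinAt
    let U : Set (Fin d → ℝ) := {y | (∀ i, 0 < y i)} ∩ ball 0 R
    have hUo : IsOpen U := by
      apply IsOpen.inter _ isOpen_ball
      have : {y : Fin d → ℝ | ∀ i, 0 < y i} = ⋂ i, {y : Fin d → ℝ | 0 < y i} := by
        ext y; simp only [mem_ofPred_eq, mem_iInter]
      rw [this]
      exact isOpen_iInter_of_finite fun i => isOpen_lt continuous_const (continuous_apply i)
    have hsol : ∀ b > 0, (∀ t ∈ Ico 0 b, z t ∈ U) → ∀ t ∈ Ico 0 b, ∀ i, κ ≤ z t i ∧ z t i ≤ B := by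
      intro b hb hbU
      apply hbox b hb z _ hz0
      · intro t ht i
        exact (hbU t ht).1 i
      · intro t ht
        have h1 := hz t ht.1
        have h2 := (hbU t ht).2
        rwa [hgf _ (ball_subset_closedBall h2)] at h1
    have hU : ∀ t ∈ Ici (0 : ℝ), z t ∈ U := by
      by_contra hcon
      push Not at hcon
      let A : Set ℝ := {t | t ∈ Ici (0 : ℝ) ∧ z t ∉ U}
      have hAne : A.Nonempty := by
        obtain ⟨t, ht, htU⟩ := hcon
        exact ⟨t, ht, htU⟩
      have hAc : IsClosed A := by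
        have h1 : IsClosed (Ici (0 : ℝ) ∩ z ⁻¹' Uᶜ) :=
          hzc.preimage_isClosed_of_isClosed isClosed_Ici hUo.isClosed_compl
        exact h1
      have hAb : BddBelow A := ⟨0, fun t ht => ht.1⟩
      have hbA : sInf A ∈ A := hAc.csInf_mem hAne hAb
      set b := sInf A with hb
      have hb0 : 0 < b := by
        rcases eq_or_lt_of_le (show (0 : ℝ) ≤ b from hbA.1) with h | h
        · exfalso
          apply hbA.2
          rw [← h, hz0]
          refine ⟨hx₀, ?_⟩
          simpa using hRx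
        · exact h
      have hlt : ∀ t ∈ Ico 0 b, z t ∈ U := by
        intro t ht
        by_contra hcon2
        have : b ≤ t := csInf_le hAb ⟨ht.1, hcon2⟩
        exact absurd ht.2 (not_lt.mpr this)
      have hbd := hsol b hb0 hlt
      have hbd' : ∀ i, κ ≤ z b i ∧ z b i ≤ B := by
        intro i
        have hcb : ContinuousWithinAt (fun t => z t i) (Ico 0 b) b := by
          have h1 : ContinuousWithinAt z (Ici 0) b := hzc b hbA.1
          have h2 : ContinuousWithinAt z (Ico 0 b) b := h1.mono (fun t ht => ht.1)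
          exact (continuous_apply i).continuousAt.comp_continuousWithinAt h2
        have hcl : b ∈ closure (Ico 0 b) := by
          rw [closure_Ico hb0.ne]
          exact ⟨hb0.le, le_rfl⟩
        have h3 := hcb.mem_closure hcl (t := Icc κ B) (fun t ht => ⟨(hbd t ht i).1, (hbd t ht i).2⟩)
        rw [isClosed_Icc.closure_eq] at h3
        exact h3
      apply hbA.2
      refine ⟨fun i => lt_of_lt_of_le hκ (hbd' i).1, ?_⟩
      rw [mem_ball_zero_iff, pi_norm_lt_iff hR0]
      intro i
      rw [Real.norm_eq_abs, abs_of_pos (lt_of_lt_of_le hκ (hbd' i).1)]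
      exact lt_of_le_of_lt (hbd' i).2 hRB
    refine ⟨z, ?_, hz0, ?_⟩
    · intro t ht
      have h1 := hz t ht
      rwa [hgf _ (ball_subset_closedBall (hU t ht).2)] at h1
    · intro t ht i
      exact hsol (t + 1) (by linarith only [ht]) (fun s hs => hU s hs.1) t ⟨ht, by linarith⟩ i
  · -- uniqueness
    intro b hb x hx hx0 z hz hz0 T hT
    have hcx : ContinuousOn x (Icc 0 T) := by
      intro t ht
      have := (hx t ⟨ht.1, lt_of_le_of_lt ht.2 hT.2⟩).continuousWithinAt
      exact this.mono (fun s hs => hs.1)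
    have hcz : ContinuousOn z (Icc 0 T) := by
      intro t ht
      have := (hz t ht.1).continuousWithinAt
      exact this.mono (fun s hs => hs.1)
    obtain ⟨R1, hR1⟩ := (isCompact_Icc.image_of_continuousOn hcx).isBounded.subset_closedBall 0
    obtain ⟨R2, hR2⟩ := (isCompact_Icc.image_of_continuousOn hcz).isBounded.subset_closedBall 0
    set R := max 1 (max R1 R2) with hR
    obtain ⟨g, K, L, hgK, hgL, hgf⟩ := hcut R (lt_of_lt_of_le one_pos (le_max_left _ _))
    have h1 : ∀ t ∈ Icc 0 T, g (x t) = f (x t) := by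
      intro t ht
      apply hgf
      have := hR1 (mem_image_of_mem x ht)
      exact closedBall_subset_closedBall ((le_max_left _ _).trans (le_max_right _ _)) this
    have h2 : ∀ t ∈ Icc 0 T, g (z t) = f (z t) := by
      intro t ht
      apply hgf
      have := hR2 (mem_image_of_mem z ht)
      exact closedBall_subset_closedBall ((le_max_right _ _).trans (le_max_right _ _)) this
    have h3 := unique_of_lipschitz hgK (x := x) (z := z) (T := T) ?_ ?_ (by rw [hx0, hz0])
    · exact h3 ⟨hT.1, le_rfl⟩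
    · intro t ht
      rw [h1 t ht]
      exact (hx t ⟨ht.1, lt_of_le_of_lt ht.2 hT.2⟩).mono (fun s hs => hs.1)
    · intro t ht
      rw [h2 t ht]
      exact (hz t ht.1).mono (fun s hs => hs.1)

end Vale.Agent.P072
end
end

section

section

/-! # Assembly, part 1: general lemmas on solution segments -/

namespace Vale.Agent.P072

variable {d : ℕ}

/-- A positive solution segment on `[s,t]`. -/
def Seg (f : (Fin d → ℝ) → Fin d → ℝ) (x : ℝ → Fin d → ℝ) (s t : ℝ) : Prop :=
  (∀ r ∈ Set.Icc s t, HasDerivWithinAt x (f (x r)) (Set.Icc s t) r) ∧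
  (∀ r ∈ Set.Icc s t, ∀ i, 0 < x r i)

theorem Seg.mono {f : (Fin d → ℝ) → Fin d → ℝ} {x : ℝ → Fin d → ℝ} {s t s' t' : ℝ}
    (h : Seg f x s t) (hs : s ≤ s') (ht : t' ≤ t) : Seg f x s' t' := by
  have hsub : Set.Icc s' t' ⊆ Set.Icc s t := Set.Icc_subset_Icc hs ht
  exact ⟨fun r hr => (h.1 r (hsub hr)).mono hsub, fun r hr => h.2 r (hsub hr)⟩

theorem Seg.continuousOn {f : (Fin d → ℝ) → Fin d → ℝ} {x : ℝ → Fin d → ℝ} {s t : ℝ}
    (h : Seg f x s t) : ContinuousOn x (Set.Icc s t) :=
  fun r hr => (h.1 r hr).continuousWithinAt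

theorem Seg.continuousOn_apply {f : (Fin d → ℝ) → Fin d → ℝ} {x : ℝ → Fin d → ℝ} {s t : ℝ}
    (h : Seg f x s t) (i : Fin d) : ContinuousOn (fun r => x r i) (Set.Icc s t) :=
  fun r hr => (continuous_apply i).continuousAt.comp_continuousWithinAt (h.continuousOn r hr)

theorem field_contDiff (G : Network d) (k : (Fin d → ℕ) × (Fin d → ℕ) → ℝ) :
    ContDiff ℝ 1 (G.field k) := by
  unfold Network.field
  apply ContDiff.sum
  intro r _
  refine ContDiff.fun_smul ?_ contDiff_const
  refine ContDiff.mul contDiff_const ?_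
  apply contDiff_prod
  intro j _
  exact (contDiff_apply ℝ ℝ j).pow _

theorem field_mem_stoich (G : Network d) (k : (Fin d → ℕ) × (Fin d → ℕ) → ℝ)
    (x : Fin d → ℝ) : G.field k x ∈ G.stoich := by
  unfold Network.field
  apply Submodule.sum_mem
  intro r hr
  apply Submodule.smul_mem
  exact Submodule.subset_span ⟨r, hr, rfl⟩

theorem Seg.sub_mem {G : Network d} {k : (Fin d → ℕ) × (Fin d → ℕ) → ℝ}
    {x : ℝ → Fin d → ℝ} {s t : ℝ} (hst : s ≤ t) (h : Seg (G.field k) x s t) :
    x t - x s ∈ G.stoich := by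
  by_contra hcon
  obtain ⟨φ, hφ, hφ'⟩ := Submodule.exists_dual_map_eq_bot_of_notMem hcon inferInstance
  apply hφ
  have hzero : ∀ v ∈ G.stoich, φ v = 0 := by
    intro v hv
    have : φ v ∈ G.stoich.map φ := Submodule.mem_map_of_mem hv
    rw [hφ'] at this
    exact this
  let φ' : (Fin d → ℝ) →L[ℝ] ℝ := φ.toContinuousLinearMap
  have hconst := constant_of_has_deriv_right_zero (f := fun r => φ' (x r)) (a := s) (b := t)
    (fun r hr => φ'.continuous.continuousAt.comp_continuousWithinAt (h.continuousOn r hr))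
    (by
      intro r hr
      have h1 := h.1 r ⟨hr.1, hr.2.le⟩
      have h2 : HasDerivWithinAt x (G.field k (x r)) (Set.Ici r) r :=
        (h1.mono (Set.Icc_subset_Icc_left hr.1)).mono_of_mem_nhdsWithin (Icc_mem_nhdsGE hr.2)
      have h3 := φ'.hasFDerivAt.comp_hasDerivWithinAt r h2
      have h4 : φ' (G.field k (x r)) = 0 := hzero _ (field_mem_stoich G k _)
      rw [h4] at h3
      exact h3)
  have h5 := hconst t ⟨hst, le_rfl⟩
  have h6 : φ (x t) = φ (x s) := h5
  rw [map_sub, h6, sub_self]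

theorem mul_log_sub_ge (C y : ℝ) (hy : 0 < y) : -Real.exp C ≤ y * (Real.log y - C) := by
  have h1 : Real.log (Real.exp C / y) ≤ Real.exp C / y - 1 :=
    Real.log_le_sub_one_of_pos (by positivity)
  rw [Real.log_div (Real.exp_pos C).ne' hy.ne', Real.log_exp] at h1
  have h2 : y * (C - Real.log y) ≤ y * (Real.exp C / y - 1) :=
    mul_le_mul_of_nonneg_left h1 hy.le
  have h3 : y * (Real.exp C / y - 1) = Real.exp C - y := by field_simp
  rw [h3] at h2
  linarith only [hy, h2]

theorem sum_ge (I : Finset (Fin d)) (C : ℝ) (x : Fin d → ℝ) (hx : ∀ i ∈ I, 0 < x i) :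
    -(d * Real.exp C) ≤ ∑ i ∈ I, x i * (Real.log (x i) - C) := by
  have h1 : ∑ i ∈ I, (-Real.exp C) ≤ ∑ i ∈ I, x i * (Real.log (x i) - C) :=
    Finset.sum_le_sum fun i hi => mul_log_sub_ge C (x i) (hx i hi)
  rw [Finset.sum_const, nsmul_eq_mul] at h1
  have h2 : (I.card : ℝ) ≤ d := by
    have := Finset.card_le_univ I
    rw [Fintype.card_fin] at this
    exact_mod_cast this
  have h3 := Real.exp_pos C
  nlinarith

theorem bound_of_sum (C A : ℝ) (x : Fin d → ℝ) (hx : ∀ i, 0 < x i)
    (hA : ∑ i, x i * (Real.log (x i) - C) ≤ A) (i : Fin d) :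
    x i ≤ max (Real.exp (C + 1)) (A + d * Real.exp C) := by
  rcases le_or_gt (x i) (Real.exp (C + 1)) with h | h
  · exact h.trans (le_max_left _ _)
  · refine le_trans ?_ (le_max_right _ _)
    have h1 := sum_ge (Finset.univ.erase i) C x (fun j _ => hx j)
    have h2 := Finset.add_sum_erase Finset.univ (fun i => x i * (Real.log (x i) - C))
      (Finset.mem_univ i)
    have h3 : 1 < Real.log (x i) - C := by
      have := (Real.lt_log_iff_exp_lt (hx i)).mpr h
      linarith only [this]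
    have h4 : x i * 1 ≤ x i * (Real.log (x i) - C) :=
      mul_le_mul_of_nonneg_left h3.le (hx i).le
    linarith only [hA, h1, h2, h4]

theorem exists_pos_le {ι : Type*} [Finite ι] (κ : ι → ℝ) (h : ∀ i, 0 < κ i) :
    ∃ κ' > 0, ∀ i, κ' ≤ κ i := by
  have h1 : ∀ᶠ e in nhdsWithin (0 : ℝ) (Set.Ioi 0), ∀ i, e ∈ Set.Ioo 0 (κ i) :=
    Filter.eventually_all.2 fun i => Ioo_mem_nhdsGT (h i)
  have h2 : ∀ᶠ e in nhdsWithin (0 : ℝ) (Set.Ioi 0), e ∈ Set.Ioi (0 : ℝ) :=
    eventually_mem_nhdsWithin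
  obtain ⟨e, he1, he2⟩ := (h1.and h2).exists
  exact ⟨e, he2, fun i => (he1 i).2.le⟩

theorem num_aux (n L : ℝ) (hn : 0 ≤ n) (hL : 0 ≤ L) :
    n * (L * (1 / (4 * (L + 1) * (n + 1)))) ≤ 1 / 4 := by
  have e1 : n * (L * (1 / (4 * (L + 1) * (n + 1)))) = (n * L) / (4 * (L + 1) * (n + 1)) := by
    ring
  rw [e1, div_le_div_iff₀ (by positivity) (by norm_num)]
  nlinarith only [hn, hL]

/-- If `v` is in the stoichiometric subspace with bounded entries and `p · v ≥ 1/2` then
some reaction vector has a large pairing with `p`. -/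
theorem exists_reaction_large (G : Network d) (M : ℝ) :
    ∃ h > 0, ∀ v ∈ G.stoich, (∀ i, |v i| ≤ M) → ∀ p : Fin d → ℝ, 1 / 2 ≤ ∑ i, p i * v i →
      ∃ r ∈ G.reactions, h ≤ |∑ i, p i * ((r.2 i : ℝ) - (r.1 i : ℝ))| := by
  classical
  let w : G.reactions → (Fin d → ℝ) := fun r i => ((r.1.2 i : ℝ) - (r.1.1 i : ℝ))
  let T : (G.reactions → ℝ) →ₗ[ℝ] (Fin d → ℝ) := Fintype.linearCombination ℝ w
  have hT : LinearMap.range T = G.stoich := by
    show LinearMap.range (Fintype.linearCombination ℝ w) = _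
    rw [Fintype.range_linearCombination]
    unfold Network.stoich
    congr 1
    ext v
    simp only [Set.mem_range, Set.mem_image, w, Subtype.exists, Finset.mem_coe]
    constructor
    · rintro ⟨r, hr, rfl⟩; exact ⟨r, hr, rfl⟩
    · rintro ⟨r, hr, rfl⟩; exact ⟨r, hr, rfl⟩
  obtain ⟨g, hg⟩ := T.rangeRestrict.exists_rightInverse_of_surjective
    (LinearMap.range_rangeRestrict T)
  let g' := g.toContinuousLinearMap
  let Λ : ℝ := ‖g'‖
  have hΛ0 : 0 ≤ Λ := norm_nonneg g'
  let n : ℝ := G.reactions.card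
  have hn0 : 0 ≤ n := Nat.cast_nonneg _
  refine ⟨1 / (4 * (Λ * |M| + 1) * (n + 1)), by (clear * -; positivity), ?_⟩
  intro v hv hvM p hp
  by_contra hcon
  push Not at hcon
  have hv' : v ∈ LinearMap.range T := by rw [hT]; exact hv
  set a : G.reactions → ℝ := g ⟨v, hv'⟩ with ha
  have hTa : T a = v := by
    have h1 : (T.rangeRestrict ∘ₗ g) ⟨v, hv'⟩ = ⟨v, hv'⟩ := by rw [hg]; rfl
    have h2 := congrArg Subtype.val h1
    exact h2
  have hvn : ‖v‖ ≤ |M| := by
    rw [pi_norm_le_iff_of_nonneg (abs_nonneg M)]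
    intro i
    exact (hvM i).trans (le_abs_self M)
  have han : ∀ r, |a r| ≤ Λ * |M| := by
    intro r
    have h1 : ‖a r‖ ≤ ‖a‖ := norm_le_pi_norm a r
    have h2 : ‖a‖ ≤ Λ * ‖(⟨v, hv'⟩ : LinearMap.range T)‖ := g'.le_opNorm _
    have h3 : ‖(⟨v, hv'⟩ : LinearMap.range T)‖ = ‖v‖ := rfl
    rw [h3] at h2
    calc |a r| ≤ ‖a‖ := h1
      _ ≤ Λ * ‖v‖ := h2
      _ ≤ Λ * |M| := mul_le_mul_of_nonneg_left hvn hΛ0
  have hsum : ∑ i, p i * v i = ∑ r : G.reactions, a r * ∑ i, p i * w r i := by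
    conv_lhs => rw [← hTa]
    simp only [T, Fintype.linearCombination_apply, Finset.sum_apply, Pi.smul_apply, smul_eq_mul,
      Finset.mul_sum]
    rw [Finset.sum_comm]
    refine Finset.sum_congr rfl fun r _ => Finset.sum_congr rfl fun i _ => by ring
  have hle : ∑ r : G.reactions, a r * ∑ i, p i * w r i ≤
      ∑ r : G.reactions, (Λ * |M|) * (1 / (4 * (Λ * |M| + 1) * (n + 1))) := by
    apply Finset.sum_le_sum
    intro r _
    have h1 := hcon r.1 r.2
    calc a r * ∑ i, p i * w r i ≤ |a r * ∑ i, p i * w r i| := le_abs_self _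
      _ = |a r| * |∑ i, p i * w r i| := abs_mul _ _
      _ ≤ (Λ * |M|) * (1 / (4 * (Λ * |M| + 1) * (n + 1))) :=
        mul_le_mul (han r) h1.le (abs_nonneg _) (by (clear * -; positivity))
  rw [Finset.sum_const, nsmul_eq_mul] at hle
  have hcard : ((Finset.univ : Finset G.reactions).card : ℝ) = n := by
    simp only [Finset.univ_eq_attach, Finset.card_attach, n]
  rw [hcard] at hle
  have hfin := num_aux n (Λ * |M|) hn0 (by (clear * -; positivity))
  rw [hsum] at hp
  linarith only [hp, hle, hfin]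

/-- Nonincrease of the potential along a segment. -/
theorem IsPotential.decrease {G : Network d} {k : (Fin d → ℕ) × (Fin d → ℕ) → ℝ}
    {I : Finset (Fin d)} {κ B C η : ℝ} {V : (Fin d → ℝ) → ℝ}
    (hV : IsPotential G k I κ B V C η) {x : ℝ → Fin d → ℝ} {s t : ℝ} (hst : s ≤ t)
    (hx : Seg (G.field k) x s t)
    (hreg : ∀ r ∈ Set.Icc s t, ∀ i ∉ I, κ ≤ x r i ∧ x r i ≤ B) : V (x t) ≤ V (x s) := by
  have h := potential_decrease (G.field k) (field_contDiff G k).continuous V I C 0 x s t hst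
    hx.1 hx.2 (by
      intro r hr ε hε
      obtain ⟨p, h1, h2, h3, h4, _⟩ := hV.grad (x r) (hx.2 r hr) (hreg r hr) ε hε
      exact ⟨p, h1, h2, h3, by simpa only [neg_zero] using h4⟩)
  simpa using h

/-- Strict decrease of the potential along a segment. -/
theorem IsPotential.decrease_strict {G : Network d} {k : (Fin d → ℕ) × (Fin d → ℕ) → ℝ}
    {I : Finset (Fin d)} {κ B C η : ℝ} {V : (Fin d → ℝ) → ℝ}
    (hV : IsPotential G k I κ B V C η) {x : ℝ → Fin d → ℝ} {s t : ℝ} (hst : s ≤ t)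
    (hx : Seg (G.field k) x s t)
    (hreg : ∀ r ∈ Set.Icc s t, ∀ i ∉ I, κ ≤ x r i ∧ x r i ≤ B) {h m : ℝ} (hh : 0 ≤ h)
    (hm0 : 0 ≤ m)
    (hm : ∀ r ∈ Set.Icc s t, ∀ r' ∈ G.reactions, m ≤ ∏ i, x r i ^ r'.1 i)
    (hp : ∀ r ∈ Set.Icc s t, ∀ p : Fin d → ℝ, (∀ i ∉ I, p i = 0) →
      (∀ x' : Fin d → ℝ, (∀ i ∈ I, 0 < x' i) →
        V (x r) - 1 / 2 + ∑ i, p i * (x' i - x r i) ≤ V x') →
      (∀ i ∈ I, |p i - Real.log (x r i)| ≤ C) →
      ∃ r' ∈ G.reactions, h ≤ |∑ i, p i * ((r'.2 i : ℝ) - (r'.1 i : ℝ))|) :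
    V (x t) ≤ V (x s) - η * h * m * (t - s) := by
  apply potential_decrease (G.field k) (field_contDiff G k).continuous V I C (η * h * m) x s t hst
    hx.1 hx.2
  intro r hr ε hε
  obtain ⟨p, h1, h2, h3, h4, h5⟩ := hV.grad (x r) (hx.2 r hr) (hreg r hr) (min ε (1 / 2))
    (lt_min hε (by norm_num))
  have h2a : ∀ x' : Fin d → ℝ, (∀ i ∈ I, 0 < x' i) →
        V (x r) - ε + ∑ i, p i * (x' i - x r i) ≤ V x' := by
    intro x' hx'
    have := h2 x' hx'
    have h6 := min_le_left ε (1 / 2)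
    linarith
  have h2b : ∀ x' : Fin d → ℝ, (∀ i ∈ I, 0 < x' i) →
        V (x r) - 1 / 2 + ∑ i, p i * (x' i - x r i) ≤ V x' := by
    intro x' hx'
    have := h2 x' hx'
    have h6 := min_le_right ε (1 / 2)
    linarith only [this, h6]
  obtain ⟨r', hr', hr''⟩ := hp r hr p h1 h2b h3
  exact ⟨p, h1, h2a, h3, h5 h hh r' hr' hr'' m hm0 (hm r hr)⟩

/-- The exit lemma. -/
theorem exit_lemma {G : Network d} {k : (Fin d → ℕ) × (Fin d → ℕ) → ℝ}
    {I : Finset (Fin d)} {κ' B C η : ℝ} {V : (Fin d → ℝ) → ℝ}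
    (hV : IsPotential G k I κ' B V C η) {ε : ℝ} (hε : 0 < ε) (hεC : Real.log ε + C < 0) :
    ∃ κ > 0, ∀ (x : ℝ → Fin d → ℝ) (s t : ℝ), s ≤ t → Seg (G.field k) x s t →
      (∀ r ∈ Set.Icc s t, (∀ i ∈ I, x r i ≤ ε) → ∀ i ∉ I, κ' ≤ x r i ∧ x r i ≤ B) →
      (∃ i ∈ I, ε ≤ x s i) → ∃ i ∈ I, κ ≤ x t i := by
  set μ := -(ε * (Real.log ε + C)) with hμ
  have hμ0 : 0 < μ := by
    rw [hμ]; nlinarith
  have hcont : Continuous fun y : ℝ => y * (Real.log y - C) := by
    have : (fun y : ℝ => y * (Real.log y - C)) = fun y => y * Real.log y - y * C := by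
      ext y; ring
    rw [this]
    exact Real.continuous_mul_log.sub (continuous_id.mul continuous_const)
  have hμd : 0 < μ / (d + 1) := by (clear * - hμ0; positivity)
  obtain ⟨κ₀, hκ₀, hκ⟩ := Metric.continuous_iff.mp hcont 0 (μ / (d + 1)) hμd
  refine ⟨min κ₀ ε, lt_min hκ₀ hε, ?_⟩
  intro x s t hst hx hreg hs
  by_contra hcon
  push Not at hcon
  let A : Set ℝ := ⋃ i ∈ I, (Set.Icc s t ∩ (fun r => x r i) ⁻¹' Set.Ici ε)
  have hAc : IsClosed A := by
    apply isClosed_biUnion_finset
    intro i _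
    exact (hx.continuousOn_apply i).preimage_isClosed_of_isClosed isClosed_Icc isClosed_Ici
  have hmemA : ∀ r, r ∈ A ↔ r ∈ Set.Icc s t ∧ ∃ i ∈ I, ε ≤ x r i := by
    intro r
    simp only [A, Set.mem_iUnion, Set.mem_inter_iff, Set.mem_preimage, Set.mem_Ici]
    constructor
    · rintro ⟨i, hi, h1, h2⟩; exact ⟨h1, i, hi, h2⟩
    · rintro ⟨h1, i, hi, h2⟩; exact ⟨i, hi, h1, h2⟩
  have hsA : s ∈ A := (hmemA s).2 ⟨⟨le_rfl, hst⟩, hs⟩
  have hAb : BddAbove A := ⟨t, fun r hr => ((hmemA r).1 hr).1.2⟩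
  have hs'A : sSup A ∈ A := hAc.csSup_mem ⟨s, hsA⟩ hAb
  set s' := sSup A with hs'def
  obtain ⟨⟨hs'1, hs'2⟩, i₀, hi₀, hi₀ε⟩ := (hmemA s').1 hs'A
  have htA : t ∉ A := by
    intro h
    obtain ⟨_, i, hi, hi'⟩ := (hmemA t).1 h
    have := hcon i hi
    exact absurd (lt_of_lt_of_le this (min_le_right _ _)) (not_lt.mpr hi')
  have hs't : s' < t := by
    rcases eq_or_lt_of_le hs'2 with h | h
    · exact absurd (h ▸ hs'A) htA
    · exact h
  have hlt : ∀ r ∈ Set.Ioc s' t, ∀ i ∈ I, x r i < ε := by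
    intro r hr i hi
    by_contra hc
    push Not at hc
    have : r ∈ A := (hmemA r).2 ⟨⟨hs'1.trans hr.1.le, hr.2⟩, i, hi, hc⟩
    exact absurd (le_csSup hAb this) (not_le.mpr hr.1)
  have hle : ∀ i ∈ I, x s' i ≤ ε := by
    intro i hi
    have h1 : ContinuousWithinAt (fun r => x r i) (Set.Ioc s' t) s' :=
      (hx.continuousOn_apply i s' ⟨hs'1, hs'2⟩).mono
        (fun r hr => ⟨hs'1.trans hr.1.le, hr.2⟩)
    have hcl : s' ∈ closure (Set.Ioc s' t) := by
      rw [closure_Ioc hs't.ne]
      exact ⟨le_rfl, hs't.le⟩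
    have h2 := h1.mem_closure hcl (t := Set.Iic ε) (fun r hr => (hlt r hr i hi).le)
    rw [isClosed_Iic.closure_eq] at h2
    exact h2
  have hseg : Seg (G.field k) x s' t := hx.mono hs'1 le_rfl
  have hdec := hV.decrease hs't.le hseg (by
    intro r hr
    apply hreg r ⟨hs'1.trans hr.1, hr.2⟩
    intro i hi
    rcases eq_or_lt_of_le hr.1 with h | h
    · rw [← h]; exact hle i hi
    · exact (hlt r ⟨h, hr.2⟩ i hi).le)
  have hup : V (x s') ≤ -μ := by
    refine (hV.upper (x s') (fun i _ => hseg.2 s' ⟨le_rfl, hs't.le⟩ i)).trans ?_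
    have hterm : ∀ i ∈ I, x s' i * (Real.log (x s' i) + C) ≤ 0 := by
      intro i hi
      have h0 := hseg.2 s' ⟨le_rfl, hs't.le⟩ i
      have h1 : Real.log (x s' i) ≤ Real.log ε := Real.log_le_log h0 (hle i hi)
      exact mul_nonpos_of_nonneg_of_nonpos h0.le (by linarith only [hεC, h1])
    have h1 : ∑ i ∈ I, x s' i * (Real.log (x s' i) + C) ≤
        x s' i₀ * (Real.log (x s' i₀) + C) := by
      have := Finset.single_le_sum (f := fun i => -(x s' i * (Real.log (x s' i) + C)))
        (fun i hi => by have := hterm i hi; linarith only [this]) hi₀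
      simp only [Finset.sum_neg_distrib] at this
      linarith only [this]
    have h2 : x s' i₀ = ε := le_antisymm (hle i₀ hi₀) hi₀ε
    rw [h2] at h1
    linarith only [h1]
  have hlow : -μ < V (x t) := by
    refine lt_of_lt_of_le ?_ (hV.lower (x t) (fun i _ => hseg.2 t ⟨hs't.le, le_rfl⟩ i))
    have hterm : ∀ i ∈ I, -(μ / (d + 1)) ≤ x t i * (Real.log (x t i) - C) := by
      intro i hi
      have h0 := hseg.2 t ⟨hs't.le, le_rfl⟩ i
      have h1 : dist (x t i) 0 < κ₀ := by
        rw [Real.dist_eq, sub_zero, abs_of_pos h0]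
        exact lt_of_lt_of_le (hcon i hi) (min_le_left _ _)
      have h2 := hκ (x t i) h1
      rw [Real.dist_eq] at h2
      have h3 := (abs_lt.mp h2).1
      simp only [zero_mul] at h3
      linarith only [h3]
    have h1 := Finset.sum_le_sum hterm
    rw [Finset.sum_const, nsmul_eq_mul] at h1
    refine lt_of_lt_of_le ?_ h1
    have h2 : (I.card : ℝ) ≤ d := by
      have := Finset.card_le_univ I
      rw [Fintype.card_fin] at this
      exact_mod_cast this
    have h3 : (I.card : ℝ) * (μ / (d + 1)) ≤ d * (μ / (d + 1)) :=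
      mul_le_mul_of_nonneg_right h2 hμd.le
    have h4 : (d : ℝ) * (μ / (d + 1)) < μ := by
      rw [mul_div_assoc', div_lt_iff₀ (by (clear * -; positivity))]
      nlinarith only [hμ0]
    linarith
  linarith only [hdec, hup, hlow]

end Vale.Agent.P072
end
end

section

section

/-! # Assembly, part 2: a-priori bounds, absorption, permanence -/

namespace Vale.Agent.P072

variable {d : ℕ}

theorem exists_potential (G : Network d) (hG : G.WeaklyReversible)
    (k : (Fin d → ℕ) × (Fin d → ℕ) → ℝ) (hk : ∀ r ∈ G.reactions, 0 < k r)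
    (I : Finset (Fin d)) (κ B : ℝ) (hκ : 0 < κ) :
    ∃ (V : (Fin d → ℝ) → ℝ) (C η : ℝ), IsPotential G k I κ B V C η :=
  isPotential_of_subset G hG k hk I κ B hκ (exists_potential_subset I)

/-- The set of positive segments on `[0,t]` with a bound and a lower bound at time `0`
always has one coordinate of `I` above a fixed level. -/
theorem apriori_low (G : Network d) (hG : G.WeaklyReversible)
    (k : (Fin d → ℕ) × (Fin d → ℕ) → ℝ) (hk : ∀ r ∈ G.reactions, 0 < k r)
    (B ε₀ : ℝ) (hε₀ : 0 < ε₀) :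
    ∀ (n : ℕ) (I : Finset (Fin d)), I.Nonempty → Iᶜ.card < n →
      ∃ κ > 0, ∀ (x : ℝ → Fin d → ℝ) (t : ℝ), 0 ≤ t → Seg (G.field k) x 0 t →
        (∀ i, ε₀ ≤ x 0 i) → (∀ r ∈ Set.Icc 0 t, ∀ i, x r i ≤ B) → ∃ i ∈ I, κ ≤ x t i := by
  intro n
  induction n with
  | zero => intro I _ h; exact absurd h (Nat.not_lt_zero _)
  | succ n ih =>
    intro I hI hIn
    have hstep : ∀ j : Fin d, ∃ κ > 0, j ∉ I → ∀ (x : ℝ → Fin d → ℝ) (t : ℝ), 0 ≤ t →
        Seg (G.field k) x 0 t → (∀ i, ε₀ ≤ x 0 i) →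
        (∀ r ∈ Set.Icc 0 t, ∀ i, x r i ≤ B) → ∃ i ∈ insert j I, κ ≤ x t i := by
      intro j
      by_cases hj : j ∈ I
      · exact ⟨1, one_pos, fun h => absurd hj h⟩
      · have hcard : (insert j I)ᶜ.card < n := by
          have h1 : (insert j I)ᶜ ⊂ Iᶜ := by
            rw [Finset.compl_ssubset_compl]
            exact Finset.ssubset_insert hj
          have := Finset.card_lt_card h1
          omega
        obtain ⟨κ, hκ, h⟩ := ih (insert j I) (Finset.insert_nonempty _ _) hcard
        exact ⟨κ, hκ, fun _ => h⟩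
    choose κf hκf hκ using hstep
    obtain ⟨κ', hκ', hκ'le⟩ := exists_pos_le κf hκf
    obtain ⟨V, C, η, hV⟩ := exists_potential G hG k hk I κ' B hκ'
    -- choose ε
    obtain ⟨ε, hε0, hε1, hε2, hε3⟩ : ∃ ε : ℝ, 0 < ε ∧ ε < κ' ∧ ε ≤ ε₀ ∧ Real.log ε + C < 0 := by
      obtain ⟨e, he, hle⟩ := exists_pos_le (ι := Fin 3) ![κ' / 2, ε₀, Real.exp (-C - 1)] (by
        intro i; fin_cases i
        · show 0 < κ' / 2; linarith only [hκ']
        · exact hε₀
        · exact Real.exp_pos _)
      refine ⟨e, he, ?_, hle 1, ?_⟩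
      · have := hle 0
        simp only [Matrix.cons_val_zero] at this
        linarith only [he, this]
      · have h2 : e ≤ Real.exp (-C - 1) := hle 2
        have h3 : Real.log e ≤ -C - 1 := (Real.log_le_iff_le_exp he).mpr h2
        linarith only [h3]
    obtain ⟨κ, hκ0, hex⟩ := exit_lemma hV hε0 hε3
    refine ⟨κ, hκ0, ?_⟩
    intro x t ht hx hx0 hxB
    apply hex x 0 t ht hx
    · intro r hr hrI j hj
      refine ⟨?_, hxB r hr j⟩
      obtain ⟨i, hi, hi'⟩ := hκ j hj x r hr.1 (hx.mono le_rfl hr.2) hx0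
        (fun r' hr' => hxB r' ⟨hr'.1, hr'.2.trans hr.2⟩)
      rcases Finset.mem_insert.mp hi with h | h
      · rw [h] at hi'
        exact (hκ'le j).trans hi'
      · exfalso
        have h1 := hrI i h
        have h2 := hκ'le j
        linarith only [hε1, hi', h1, h2]
    · obtain ⟨i, hi⟩ := hI
      exact ⟨i, hi, hε2.trans (hx0 i)⟩

/-- Upper a-priori bound. -/
theorem apriori_up (G : Network d) (hG : G.WeaklyReversible)
    (k : (Fin d → ℕ) × (Fin d → ℕ) → ℝ) (hk : ∀ r ∈ G.reactions, 0 < k r) (x₀ : Fin d → ℝ) :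
    ∃ B, ∀ (x : ℝ → Fin d → ℝ) (t : ℝ), 0 ≤ t → Seg (G.field k) x 0 t → x 0 = x₀ →
      ∀ i, x t i ≤ B := by
  obtain ⟨V, C, η, hV⟩ := exists_potential G hG k hk Finset.univ 1 1 one_pos
  refine ⟨max (Real.exp (C + 1)) (V x₀ + d * Real.exp C), ?_⟩
  intro x t ht hx hx0 i
  have h1 := hV.decrease ht hx (fun r _ i hi => absurd (Finset.mem_univ i) hi)
  rw [hx0] at h1
  have hpos := hx.2 t ⟨ht, le_rfl⟩
  exact bound_of_sum C _ (x t) hpos ((hV.lower (x t) (fun i _ => hpos i)).trans h1) i

/-- Two-sided a-priori bound. -/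
theorem apriori_box (G : Network d) (hG : G.WeaklyReversible)
    (k : (Fin d → ℕ) × (Fin d → ℕ) → ℝ) (hk : ∀ r ∈ G.reactions, 0 < k r) (x₀ : Fin d → ℝ)
    (hx₀ : ∀ i, 0 < x₀ i) :
    ∃ κ > 0, ∃ B, ∀ (x : ℝ → Fin d → ℝ) (t : ℝ), 0 ≤ t → Seg (G.field k) x 0 t → x 0 = x₀ →
      ∀ i, κ ≤ x t i ∧ x t i ≤ B := by
  obtain ⟨B, hB⟩ := apriori_up G hG k hk x₀
  obtain ⟨ε₀, hε₀, hε₀le⟩ := exists_pos_le x₀ hx₀
  have h1 : ∀ i : Fin d, ∃ κ > 0, ∀ (x : ℝ → Fin d → ℝ) (t : ℝ), 0 ≤ t →
      Seg (G.field k) x 0 t → (∀ i, ε₀ ≤ x 0 i) → (∀ r ∈ Set.Icc 0 t, ∀ i, x r i ≤ B) →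
      κ ≤ x t i := by
    intro i
    obtain ⟨κ, hκ, h⟩ := apriori_low G hG k hk B ε₀ hε₀ _ {i} (Finset.singleton_nonempty i)
      (Nat.lt_succ_self _)
    refine ⟨κ, hκ, fun x t ht hx hx0 hxB => ?_⟩
    obtain ⟨j, hj, hj'⟩ := h x t ht hx hx0 hxB
    rw [Finset.mem_singleton] at hj
    rw [hj] at hj'
    exact hj'
  choose κf hκf hκ using h1
  obtain ⟨κ, hκ0, hκle⟩ := exists_pos_le κf hκf
  refine ⟨κ, hκ0, B, fun x t ht hx hx0 i => ⟨?_, hB x t ht hx hx0 i⟩⟩
  exact (hκle i).trans (hκ i x t ht hx (fun j => by rw [hx0]; exact hε₀le j)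
    (fun r hr j => hB x r hr.1 (hx.mono le_rfl hr.2) hx0 j))

theorem IsSolutionOn.seg {f : (Fin d → ℝ) → Fin d → ℝ} {x : ℝ → Fin d → ℝ} {b t : ℝ}
    (hx : IsSolutionOn f x b) (ht : t < b) (hpos : ∀ r ∈ Set.Icc 0 t, ∀ i, 0 < x r i) :
    Seg f x 0 t :=
  ⟨fun r hr => (hx r ⟨hr.1, lt_of_le_of_lt hr.2 ht⟩).mono (fun _ h => h.1), hpos⟩

theorem IsGlobalSolution.seg {f : (Fin d → ℝ) → Fin d → ℝ} {x : ℝ → Fin d → ℝ} {s t : ℝ}
    (hx : IsGlobalSolution f x) (hs : 0 ≤ s) (hpos : ∀ r ≥ 0, ∀ i, 0 < x r i) :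
    Seg f x s t :=
  ⟨fun r hr => (hx r (hs.trans hr.1)).mono (fun _ h => hs.trans h.1),
    fun r hr => hpos r (hs.trans hr.1)⟩

theorem IsGlobalSolution.isSolutionOn {f : (Fin d → ℝ) → Fin d → ℝ} {x : ℝ → Fin d → ℝ}
    (hx : IsGlobalSolution f x) (b : ℝ) : IsSolutionOn f x b :=
  fun t ht => hx t ht.1

/-- Global solutions are trapped in a box depending on the initial point. -/
theorem global_box (G : Network d) (hG : G.WeaklyReversible)
    (k : (Fin d → ℕ) × (Fin d → ℕ) → ℝ) (hk : ∀ r ∈ G.reactions, 0 < k r) (x₀ : Fin d → ℝ)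
    (hx₀ : ∀ i, 0 < x₀ i) :
    (∃ z, IsGlobalSolution (G.field k) z ∧ z 0 = x₀) ∧
    (∀ b > 0, ∀ x, IsSolutionOn (G.field k) x b → x 0 = x₀ →
      ∀ z, IsGlobalSolution (G.field k) z → z 0 = x₀ → Set.EqOn x z (Set.Ico 0 b)) ∧
    ∃ κ > 0, ∃ B, ∀ x, IsGlobalSolution (G.field k) x → x 0 = x₀ →
      ∀ t ≥ 0, ∀ i, κ ≤ x t i ∧ x t i ≤ B := by
  obtain ⟨κ, hκ, B, hbox⟩ := apriori_box G hG k hk x₀ hx₀
  obtain ⟨⟨z, hz, hz0, hzb⟩, huniq⟩ := global_of_apriori (G.field k) (field_contDiff G k) x₀ hx₀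
    κ B hκ (by
      intro b hb x hx hx0 hpos t ht
      exact hbox x t ht.1 (hx.seg ht.2 (fun r hr => hpos r ⟨hr.1, lt_of_le_of_lt hr.2 ht.2⟩)) hx0)
  refine ⟨⟨z, hz, hz0⟩, huniq, κ, hκ, B, ?_⟩
  intro x hx hx0 t ht i
  have h1 := huniq (t + 1) (by linarith) x (hx.isSolutionOn _) hx0 z hz hz0
    (⟨ht, by linarith⟩ : t ∈ Set.Ico 0 (t + 1))
  rw [h1]
  exact hzb t ht i

/-- A positive lower bound of all source monomials on a box. -/
theorem exists_monomial_lower (G : Network d) (κ : ℝ) (hκ : 0 < κ) :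
    ∃ m > 0, ∀ x : Fin d → ℝ, (∀ i, κ ≤ x i) → ∀ r ∈ G.reactions, m ≤ ∏ i, x i ^ r.1 i := by
  obtain ⟨m, hm, hle⟩ := exists_pos_le
    (fun r : G.reactions => ∏ i, κ ^ (r : (Fin d → ℕ) × (Fin d → ℕ)).1 i)
    (fun r => Finset.prod_pos fun i _ => pow_pos hκ _)
  refine ⟨m, hm, fun x hx r hr => (hle ⟨r, hr⟩).trans ?_⟩
  exact Finset.prod_le_prod (fun i _ => (pow_pos hκ _).le)
    (fun i _ => pow_le_pow_left₀ hκ.le (hx i) _)

/-- A quantity bounded below cannot decrease linearly forever. -/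
theorem no_linear_decrease {a ρ A : ℝ} (hρ : 0 < ρ) {s : ℝ} {v : ℝ → ℝ}
    (h : ∀ t ≥ s, v t ≤ a - ρ * (t - s)) (hA : ∀ t ≥ s, A ≤ v t) : False := by
  have h1 : s ≤ s + (|a - A| + 1) / ρ := by
    have : 0 ≤ (|a - A| + 1) / ρ := by positivity
    linarith
  have h2 := h _ h1
  have h3 := hA _ h1
  have h4 : ρ * (s + (|a - A| + 1) / ρ - s) = |a - A| + 1 := by
    field_simp
    ring
  rw [h4] at h2
  have := le_abs_self (a - A)
  linarith only [h2, h3, this]

/-- Uniform eventual upper bound. -/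
theorem eventual_up (G : Network d) (hG : G.WeaklyReversible)
    (k : (Fin d → ℕ) × (Fin d → ℕ) → ℝ) (hk : ∀ r ∈ G.reactions, 0 < k r)
    (c : Fin d → ℝ) (hc : ∀ i, 0 < c i) :
    ∃ B, ∀ x, IsGlobalSolution (G.field k) x → x 0 ∈ G.posClass c →
      ∃ t₀ ≥ 0, ∀ t ≥ t₀, ∀ i, x t i ≤ B := by
  obtain ⟨V, C, η, hV⟩ := exists_potential G hG k hk Finset.univ 1 1 one_pos
  refine ⟨max (Real.exp (C + 1)) (V c + 1 + d * Real.exp C), ?_⟩
  intro x hx hx0
  obtain ⟨_, _, κ, hκ, B, hbox⟩ := global_box G hG k hk (x 0) hx0.2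
  have hbx := hbox x hx rfl
  have hpos : ∀ r ≥ 0, ∀ i, 0 < x r i := fun r hr i => lt_of_lt_of_le hκ (hbx r hr i).1
  have hseg : ∀ s t, 0 ≤ s → Seg (G.field k) x s t := fun s t hs => hx.seg hs hpos
  have hreg : ∀ s t : ℝ, ∀ r ∈ Set.Icc s t, ∀ i ∉ (Finset.univ : Finset (Fin d)),
      1 ≤ x r i ∧ x r i ≤ 1 := fun s t r _ i hi => absurd (Finset.mem_univ i) hi
  have hcls : ∀ t ≥ 0, x t - c ∈ G.stoich := by
    intro t ht
    have h1 := (hseg 0 t le_rfl).sub_mem ht
    have h2 := G.stoich.add_mem h1 hx0.1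
    have : x t - c = x t - x 0 + (x 0 - c) := by abel
    rw [this]; exact h2
  have hex : ∃ t₀ ≥ 0, V (x t₀) ≤ V c + 1 := by
    by_contra hcon
    push Not at hcon
    obtain ⟨Mc, hMc⟩ : ∃ Mc, ∀ i, |c i| ≤ Mc := by
      refine ⟨∑ i, |c i|, fun i => ?_⟩
      exact Finset.single_le_sum (f := fun i => |c i|) (fun i _ => abs_nonneg _) (Finset.mem_univ i)
    obtain ⟨h, hh, hlarge⟩ := exists_reaction_large G (|B| + Mc)
    obtain ⟨m, hm, hmon⟩ := exists_monomial_lower G κ hκ
    have hdec : ∀ t ≥ (0 : ℝ), V (x t) ≤ V (x 0) - (η * h * m) * (t - 0) := by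
      intro t ht
      apply hV.decrease_strict ht (hseg 0 t le_rfl) (hreg 0 t) hh.le hm.le
      · intro r hr r' hr'
        exact hmon (x r) (fun i => (hbx r hr.1 i).1) r' hr'
      · intro r hr p _ h2 _
        apply hlarge (x r - c) (hcls r hr.1)
        · intro i
          have h5 := hbx r hr.1 i
          have h6 := hMc i
          have h7 : |x r i| ≤ |B| := by
            rw [abs_of_pos (hpos r hr.1 i)]
            exact h5.2.trans (le_abs_self B)
          calc |(x r - c) i| = |x r i - c i| := rfl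
            _ ≤ |x r i| + |c i| := abs_sub _ _
            _ ≤ |B| + Mc := add_le_add h7 h6
        · have h5 := h2 c (fun i _ => hc i)
          have h6 := hcon r hr.1
          have h7 : ∑ i, p i * (x r - c) i = - ∑ i, p i * (c i - x r i) := by
            rw [← Finset.sum_neg_distrib]
            refine Finset.sum_congr rfl fun i _ => ?_
            rw [Pi.sub_apply]; ring
          rw [h7]
          linarith
    have hρ : 0 < η * h * m := mul_pos (mul_pos hV.η_pos hh) hm
    refine no_linear_decrease hρ (s := 0) (v := fun t => V (x t)) (A := -(d * Real.exp C))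
      hdec ?_
    intro t ht
    exact (sum_ge Finset.univ C (x t) (fun i _ => hpos t ht i)).trans
      (hV.lower (x t) (fun i _ => hpos t ht i))
  obtain ⟨t₀, ht₀, hVt₀⟩ := hex
  refine ⟨t₀, ht₀, fun t ht i => ?_⟩
  have h1 := hV.decrease ht (hseg t₀ t ht₀) (hreg t₀ t)
  have hpt := hpos t (ht₀.trans ht)
  exact bound_of_sum C _ (x t) hpt
    (((hV.lower (x t) (fun i _ => hpt i)).trans h1).trans hVt₀) i

/-- Uniform eventual lower bounds, by downward induction. -/
theorem eventual_low (G : Network d) (hG : G.WeaklyReversible)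
    (k : (Fin d → ℕ) × (Fin d → ℕ) → ℝ) (hk : ∀ r ∈ G.reactions, 0 < k r)
    (c : Fin d → ℝ) (hc : ∀ i, 0 < c i) (B : ℝ)
    (hB : ∀ x, IsGlobalSolution (G.field k) x → x 0 ∈ G.posClass c →
      ∃ t₀ ≥ 0, ∀ t ≥ t₀, ∀ i, x t i ≤ B) :
    ∀ (n : ℕ) (I : Finset (Fin d)), I.Nonempty → Iᶜ.card < n →
      ∃ κ > 0, ∀ x, IsGlobalSolution (G.field k) x → x 0 ∈ G.posClass c →
        ∃ t₀ ≥ 0, ∀ t ≥ t₀, ∃ i ∈ I, κ ≤ x t i := by
  intro n
  induction n with
  | zero => intro I _ h; exact absurd h (Nat.not_lt_zero _)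
  | succ n ih =>
    intro I hI hIn
    have hstep : ∀ j : Fin d, ∃ κ > 0, j ∉ I → ∀ x, IsGlobalSolution (G.field k) x →
        x 0 ∈ G.posClass c → ∃ t₀ ≥ 0, ∀ t ≥ t₀, ∃ i ∈ insert j I, κ ≤ x t i := by
      intro j
      by_cases hj : j ∈ I
      · exact ⟨1, one_pos, fun h => absurd hj h⟩
      · have hcard : (insert j I)ᶜ.card < n := by
          have h1 : (insert j I)ᶜ ⊂ Iᶜ := by
            rw [Finset.compl_ssubset_compl]
            exact Finset.ssubset_insert hj
          have := Finset.card_lt_card h1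
          omega
        obtain ⟨κ, hκ, h⟩ := ih (insert j I) (Finset.insert_nonempty _ _) hcard
        exact ⟨κ, hκ, fun _ => h⟩
    choose κf hκf hκ using hstep
    obtain ⟨κ', hκ', hκ'le⟩ := exists_pos_le κf hκf
    obtain ⟨V, C, η, hV⟩ := exists_potential G hG k hk I κ' B hκ'
    obtain ⟨cm, hcm0, hcm⟩ := exists_pos_le c hc
    -- choose ε
    obtain ⟨ε, hε0, hε1, hε2, hε3, hε4⟩ : ∃ ε : ℝ, 0 < ε ∧ ε < κ' ∧ ε ≤ cm / 2 ∧
        Real.log ε + C < 0 ∧ Real.log ε + C ≤ -(1 / cm) := by
      obtain ⟨e, he, hle⟩ := exists_pos_le (ι := Fin 4)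
        ![κ' / 2, cm / 2, Real.exp (-C - 1), Real.exp (-C - 1 / cm)] (by
        intro i; fin_cases i
        · show 0 < κ' / 2; linarith only [hκ']
        · show 0 < cm / 2; linarith only [hcm0]
        · exact Real.exp_pos _
        · exact Real.exp_pos _)
      refine ⟨e, he, ?_, hle 1, ?_, ?_⟩
      · have := hle 0
        simp only [Matrix.cons_val_zero] at this
        linarith only [he, this]
      · have h2 : e ≤ Real.exp (-C - 1) := hle 2
        have h3 : Real.log e ≤ -C - 1 := (Real.log_le_iff_le_exp he).mpr h2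
        linarith only [h3]
      · have h2 : e ≤ Real.exp (-C - 1 / cm) := hle 3
        have h3 : Real.log e ≤ -C - 1 / cm := (Real.log_le_iff_le_exp he).mpr h2
        linarith only [h3]
    obtain ⟨κ, hκ0, hex⟩ := exit_lemma hV hε0 hε3
    refine ⟨κ, hκ0, ?_⟩
    intro x hx hx0
    obtain ⟨_, _, κx, hκx, Bx, hbox⟩ := global_box G hG k hk (x 0) hx0.2
    have hbx := hbox x hx rfl
    have hpos : ∀ r ≥ 0, ∀ i, 0 < x r i := fun r hr i => lt_of_lt_of_le hκx (hbx r hr i).1
    have hseg : ∀ s t, 0 ≤ s → Seg (G.field k) x s t := fun s t hs => hx.seg hs hpos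
    have hcls : ∀ t ≥ 0, x t - c ∈ G.stoich := by
      intro t ht
      have h1 := (hseg 0 t le_rfl).sub_mem ht
      have h2 := G.stoich.add_mem h1 hx0.1
      have : x t - c = x t - x 0 + (x 0 - c) := by abel
      rw [this]; exact h2
    -- a common time after which all earlier bounds hold
    obtain ⟨t₁, ht₁, hall⟩ : ∃ t₁ ≥ (0 : ℝ), ∀ t ≥ t₁, (∀ i, x t i ≤ B) ∧
        ∀ j ∉ I, ∃ i ∈ insert j I, κf j ≤ x t i := by
      obtain ⟨tB, htB, hBt⟩ := hB x hx hx0
      have h1 : ∀ j : Fin d, ∃ tj : ℝ, j ∉ I → ∀ t ≥ tj, ∃ i ∈ insert j I, κf j ≤ x t i := by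
        intro j
        by_cases hj : j ∈ I
        · exact ⟨0, fun h => absurd hj h⟩
        · obtain ⟨tj, _, h⟩ := hκ j hj x hx hx0
          exact ⟨tj, fun _ => h⟩
      choose tj htj using h1
      refine ⟨tB + ∑ j, |tj j|, by (clear * - htB; positivity), fun t ht => ⟨?_, ?_⟩⟩
      · apply hBt t
        have : 0 ≤ ∑ j, |tj j| := Finset.sum_nonneg fun _ _ => abs_nonneg _
        linarith only [ht, this]
      · intro j hj
        apply htj j hj t
        have h2 : |tj j| ≤ ∑ j, |tj j| :=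
          Finset.single_le_sum (f := fun j => |tj j|) (fun i _ => abs_nonneg _)
            (Finset.mem_univ j)
        have h3 := le_abs_self (tj j)
        linarith only [htB, ht, h2, h3]
    have hreg' : ∀ r ≥ t₁, (∀ i ∈ I, x r i ≤ ε) → ∀ i ∉ I, κ' ≤ x r i ∧ x r i ≤ B := by
      intro r hr hrI j hj
      obtain ⟨h1, h2⟩ := hall r hr
      refine ⟨?_, h1 j⟩
      obtain ⟨i, hi, hi'⟩ := h2 j hj
      rcases Finset.mem_insert.mp hi with h | h
      · rw [h] at hi'
        exact (hκ'le j).trans hi'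
      · exfalso
        have h1 := hrI i h
        have h2 := hκ'le j
        linarith only [hε1, hi', h1, h2]
    have hvisit : ∃ s ≥ t₁, ∃ i ∈ I, ε ≤ x s i := by
      by_contra hcon
      push Not at hcon
      obtain ⟨Mc, hMc⟩ : ∃ Mc, ∀ i, |c i| ≤ Mc := by
        refine ⟨∑ i, |c i|, fun i => ?_⟩
        exact Finset.single_le_sum (f := fun i => |c i|) (fun i _ => abs_nonneg _)
          (Finset.mem_univ i)
      obtain ⟨h, hh, hlarge⟩ := exists_reaction_large G (|Bx| + Mc)
      obtain ⟨m, hm, hmon⟩ := exists_monomial_lower G κx hκx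
      have hdec : ∀ t ≥ t₁, V (x t) ≤ V (x t₁) - (η * h * m) * (t - t₁) := by
        intro t ht
        apply hV.decrease_strict ht (hseg t₁ t ht₁) _ hh.le hm.le
        · intro r hr r' hr'
          exact hmon (x r) (fun i => (hbx r (ht₁.trans hr.1) i).1) r' hr'
        · intro r hr p hp0 _ h3
          have hr0 : 0 ≤ r := ht₁.trans hr.1
          apply hlarge (x r - c) (hcls r hr0)
          · intro i
            have h5 := hbx r hr0 i
            have h6 := hMc i
            have h7 : |x r i| ≤ |Bx| := by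
              rw [abs_of_pos (hpos r hr0 i)]
              exact h5.2.trans (le_abs_self Bx)
            calc |(x r - c) i| = |x r i - c i| := rfl
              _ ≤ |x r i| + |c i| := abs_sub _ _
              _ ≤ |Bx| + Mc := add_le_add h7 h6
          · -- p · (x - c) ≥ 1/2
            have h7 : ∑ i, p i * (x r - c) i = ∑ i ∈ I, p i * (x r - c) i := by
              symm
              apply Finset.sum_subset (Finset.subset_univ I)
              intro i _ hi
              rw [hp0 i hi, zero_mul]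
            rw [h7]
            have hterm : ∀ i ∈ I, 1 / 2 ≤ p i * (x r - c) i := by
              intro i hi
              have h8 := hcon r hr.1 i hi
              have h9 : Real.log (x r i) ≤ Real.log ε := Real.log_le_log (hpos r hr0 i) h8.le
              have h10 := (abs_le.mp (h3 i hi)).2
              have h11 : p i ≤ -(1 / cm) := by linarith only [hε4, h9, h10]
              have h12 : (x r - c) i ≤ -(cm / 2) := by
                have := hcm i
                rw [Pi.sub_apply]; linarith only [hε2, h8, this]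
              have h13 : 0 < 1 / cm := by positivity
              have h14 : (1 / cm) * (cm / 2) ≤ (-p i) * (-(x r - c) i) :=
                mul_le_mul (by linarith only [hε4, h9, h10]) (by linarith only [h12]) (by positivity) (by linarith only [hε3, h9, h10])
              have h15 : (1 / cm) * (cm / 2) = 1 / 2 := by (clear * - hcm0; field_simp)
              linarith only [h14, h15]
            obtain ⟨i₀, hi₀⟩ := hI
            have h8 := Finset.single_le_sum (f := fun i => p i * (x r - c) i)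
              (fun i hi => le_trans (by norm_num) (hterm i hi)) hi₀
            exact (hterm i₀ hi₀).trans h8
        · intro r hr
          exact hreg' r hr.1 (fun i hi => (hcon r hr.1 i hi).le)
      have hρ : 0 < η * h * m := mul_pos (mul_pos hV.η_pos hh) hm
      refine no_linear_decrease hρ (s := t₁) (v := fun t => V (x t)) (A := -(d * Real.exp C))
        hdec ?_
      intro t ht
      exact (sum_ge I C (x t) (fun i _ => hpos t (ht₁.trans ht) i)).trans
        (hV.lower (x t) (fun i _ => hpos t (ht₁.trans ht) i))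
    obtain ⟨s, hs, hsI⟩ := hvisit
    refine ⟨s, ht₁.trans hs, fun t ht => ?_⟩
    exact hex x s t ht (hseg s t (ht₁.trans hs)) (fun r hr => hreg' r (hs.trans hr.1)) hsI

theorem isCompact_box_class (G : Network d) (c : Fin d → ℝ) (κ B : ℝ) :
    IsCompact {y : Fin d → ℝ | y - c ∈ G.stoich ∧ ∀ i, κ ≤ y i ∧ y i ≤ B} := by
  have h1 : {y : Fin d → ℝ | y - c ∈ G.stoich ∧ ∀ i, κ ≤ y i ∧ y i ≤ B} =
      Set.pi Set.univ (fun _ : Fin d => Set.Icc κ B) ∩ (fun y => y - c) ⁻¹' (G.stoich : Set _) := by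
    ext y
    simp only [Set.mem_ofPred_eq, Set.mem_inter_iff, Set.mem_pi, Set.mem_univ, true_implies,
      Set.mem_Icc, Set.mem_preimage, SetLike.mem_coe]
    exact and_comm
  rw [h1]
  apply IsCompact.inter_right (isCompact_univ_pi fun _ => isCompact_Icc)
  exact (Submodule.closed_of_finiteDimensional G.stoich).preimage
    (continuous_id.sub continuous_const)

/-- MAIN: the permanence theorem. -/
theorem permanence (G : Network d) (hG : G.WeaklyReversible)
    (k : (Fin d → ℕ) × (Fin d → ℕ) → ℝ) (hk : ∀ r ∈ G.reactions, 0 < k r)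
    (c : Fin d → ℝ) (hc : ∀ i, 0 < c i) :
    PermanentOn (G.field k) (G.posClass c) := by
  refine ⟨?_, ?_, ?_, ?_⟩
  · intro x₀ hx₀
    exact (global_box G hG k hk x₀ hx₀.2).1
  · intro b hb x hx hx0
    obtain ⟨⟨z, hz, hz0⟩, huniq, _⟩ := global_box G hG k hk (x 0) hx0.2
    exact ⟨z, hz, huniq b hb x hx rfl z hz hz0⟩
  · intro x hx hx0 t ht i
    obtain ⟨_, _, κ, hκ, B, hbox⟩ := global_box G hG k hk (x 0) hx0.2
    exact lt_of_lt_of_le hκ (hbox x hx rfl t ht i).1
  · obtain ⟨B, hB⟩ := eventual_up G hG k hk c hc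
    have h1 : ∀ i : Fin d, ∃ κ > 0, ∀ x, IsGlobalSolution (G.field k) x →
        x 0 ∈ G.posClass c → ∃ t₀ ≥ 0, ∀ t ≥ t₀, κ ≤ x t i := by
      intro i
      obtain ⟨κ, hκ, h⟩ := eventual_low G hG k hk c hc B hB _ {i} (Finset.singleton_nonempty i)
        (Nat.lt_succ_self _)
      refine ⟨κ, hκ, fun x hx hx0 => ?_⟩
      obtain ⟨t₀, ht₀, h'⟩ := h x hx hx0
      refine ⟨t₀, ht₀, fun t ht => ?_⟩
      obtain ⟨j, hj, hj'⟩ := h' t ht
      rw [Finset.mem_singleton] at hj
      rw [hj] at hj'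
      exact hj'
    choose κf hκf hκ using h1
    obtain ⟨κ, hκ0, hκle⟩ := exists_pos_le κf hκf
    refine ⟨{y | y - c ∈ G.stoich ∧ ∀ i, κ ≤ y i ∧ y i ≤ B}, ?_, isCompact_box_class G c κ B, ?_⟩
    · intro y hy
      exact ⟨hy.1, fun i => lt_of_lt_of_le hκ0 (hy.2 i).1⟩
    · intro x hx hx0
      obtain ⟨_, _, κx, hκx, Bx, hbox⟩ := global_box G hG k hk (x 0) hx0.2
      have hbx := hbox x hx rfl
      have hpos : ∀ r ≥ 0, ∀ i, 0 < x r i := fun r hr i => lt_of_lt_of_le hκx (hbx r hr i).1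
      obtain ⟨tB, htB, hBt⟩ := hB x hx hx0
      have h2 : ∀ i, ∃ t₀ ≥ 0, ∀ t ≥ t₀, κf i ≤ x t i := fun i => hκ i x hx hx0
      choose ti hti0 hti using h2
      refine ⟨tB + ∑ j, ti j, fun t ht => ?_⟩
      have hsum : 0 ≤ ∑ j, ti j := Finset.sum_nonneg fun j _ => hti0 j
      have ht0 : 0 ≤ t := by linarith
      refine ⟨?_, fun i => ⟨(hκle i).trans (hti i t ?_), hBt t (by linarith) i⟩⟩
      · have h3 := (hx.seg (s := 0) (t := t) le_rfl hpos).sub_mem ht0
        have h4 := G.stoich.add_mem h3 hx0.1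
        have : x t - c = x t - x 0 + (x 0 - c) := by abel
        rw [this]; exact h4
      · have h3 : ti i ≤ ∑ j, ti j :=
          Finset.single_le_sum (f := ti) (fun j _ => hti0 j) (Finset.mem_univ i)
        linarith only [htB, ht, h3]

end Vale.Agent.P072
end
end

section

section

/-! # Network lemma and potentials, uniformly in the rates -/

namespace Vale.Agent.P072

variable {d : ℕ}

/-- Network lemma, uniform in the rates: if the covector `p` is aligned with the
monomials, then `p · f(x) ≤ 0`, with a quantitative version. -/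
theorem network_lemma_unif (G : Network d) (hG : G.WeaklyReversible)
    (kmin kmax : ℝ) (hkmin : 0 < kmin) (hkmax : 0 < kmax) :
    ∃ E > 0, ∃ η > 0, ∀ k : (Fin d → ℕ) × (Fin d → ℕ) → ℝ,
      (∀ r ∈ G.reactions, kmin ≤ k r ∧ k r ≤ kmax) →
      ∀ x p : Fin d → ℝ, (∀ i, 0 < x i) →
      (∀ y ∈ G.complexes, ∀ z ∈ G.complexes,
        Relation.ReflTransGen (fun y z => (y, z) ∈ G.reactions) y z →
        0 < ∑ i, p i * ((z i : ℝ) - (y i : ℝ)) →
        E * ∏ i, x i ^ y i ≤ ∏ i, x i ^ z i) →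
      (∑ i, p i * G.field k x i ≤ 0) ∧
      (∀ h : ℝ, 0 ≤ h → ∀ r ∈ G.reactions, h ≤ |∑ i, p i * ((r.2 i : ℝ) - (r.1 i : ℝ))| →
        ∀ m : ℝ, 0 ≤ m → (∀ r' ∈ G.reactions, m ≤ ∏ i, x i ^ r'.1 i) →
        ∑ i, p i * G.field k x i ≤ - (η * h * m)) := by
  classical
  set N1 : ℝ := (G.complexes.card : ℝ) + 1 with hN1
  have hN1pos : 0 < N1 := by (clear * -; positivity)
  have hN1ge : 1 ≤ N1 := by rw [hN1]; have : (0 : ℝ) ≤ G.complexes.card := by (clear * -; positivity)
                            linarith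
  set n1 : ℝ := (G.reactions.card : ℝ) + 1 with hn1
  have hn1pos : 0 < n1 := by (clear * -; positivity)
  set E : ℝ := 2 * n1 * N1 * kmax / kmin with hE
  have hEpos : 0 < E := by (clear * - hkmax hkmin; positivity)
  refine ⟨E, hEpos, kmin / (2 * N1), by (clear * - hkmin; positivity), fun k hkk x p hx halign => ?_⟩
  have hk : ∀ r ∈ G.reactions, 0 < k r := fun r hr => lt_of_lt_of_le hkmin (hkk r hr).1
  have hkmin' : ∀ r ∈ G.reactions, kmin ≤ k r := fun r hr => (hkk r hr).1
  have hkmax' : ∀ r ∈ G.reactions, k r ≤ kmax := fun r hr => (hkk r hr).2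
  set D : (Fin d → ℕ) × (Fin d → ℕ) → ℝ :=
    fun r => ∑ i, p i * ((r.2 i : ℝ) - (r.1 i : ℝ)) with hD
  set M : (Fin d → ℕ) → ℝ := fun y => ∏ i, x i ^ y i with hM
  have hMpos : ∀ y, 0 < M y := fun y => Finset.prod_pos fun i _ => pow_pos (hx i) _
  set w : (Fin d → ℕ) × (Fin d → ℕ) → ℝ := fun r => k r * M r.1 with hw
  have hwpos : ∀ r ∈ G.reactions, 0 < w r := fun r hr => mul_pos (hk r hr) (hMpos _)
  set NEG : ℝ := ∑ r ∈ G.reactions, w r * max 0 (- D r) with hNEG
  have hNEGnn : 0 ≤ NEG := Finset.sum_nonneg fun r hr =>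
    mul_nonneg (hwpos r hr).le (le_max_left _ _)
  have hterm : ∀ r ∈ G.reactions, w r * (- D r) ≤ NEG := by
    intro r hr
    calc w r * (- D r) ≤ w r * max 0 (- D r) :=
          mul_le_mul_of_nonneg_left (le_max_right _ _) (hwpos r hr).le
      _ ≤ NEG := Finset.single_le_sum (f := fun r => w r * max 0 (- D r))
          (fun r hr => mul_nonneg (hwpos r hr).le (le_max_left _ _)) hr
  -- the negative partner of a positive reaction
  have hpartner : ∀ r ∈ G.reactions, 0 < D r → ∃ r' ∈ G.reactions,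
      E * M r.1 ≤ M r'.1 ∧ D r ≤ N1 * (- D r') ∧ 0 < - D r' := by
    intro r hr hDr
    obtain ⟨r', hr', hreach, hlev, hdrop⟩ := exists_negative G hG p r hr hDr
    refine ⟨r', hr', ?_, hdrop, ?_⟩
    · exact halign r.1 (G.source_mem r hr) r'.1 (G.source_mem r' hr') hreach hlev
    · have : 0 < N1 * (- D r') := lt_of_lt_of_le hDr hdrop
      exact (pos_iff_pos_of_mul_pos this).1 hN1pos
  have hpos : ∀ r ∈ G.reactions, w r * D r ≤ 1 / (2 * n1) * NEG - w r * max 0 (- D r) := by
    intro r hr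
    rcases le_or_gt (D r) 0 with hle | hgt
    · have : max 0 (- D r) = - D r := max_eq_right (by linarith only [hle])
      rw [this]
      have : 0 ≤ 1 / (2 * n1) * NEG := by (clear * - hNEGnn; positivity)
      linarith only [this]
    · have h0 : max 0 (- D r) = 0 := max_eq_left (by linarith only [hgt])
      rw [h0, mul_zero, sub_zero]
      obtain ⟨r', hr', hMM, hdrop, hneg⟩ := hpartner r hr hgt
      have h1 : w r ≤ kmax * M r.1 := mul_le_mul_of_nonneg_right (hkmax' r hr) (hMpos _).le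
      have h2 : M r.1 ≤ M r'.1 / E := by
        rw [le_div_iff₀ hEpos]; linarith only [hMM]
      have h3 : kmin * M r'.1 ≤ w r' := mul_le_mul_of_nonneg_right (hkmin' r' hr') (hMpos _).le
      have h4 : w r' * (- D r') ≤ NEG := hterm r' hr'
      calc w r * D r ≤ (kmax * M r.1) * (N1 * (- D r')) :=
            mul_le_mul h1 hdrop hgt.le (by have := hMpos r.1; (clear * - hkmax this; positivity))
        _ ≤ (kmax * (M r'.1 / E)) * (N1 * (- D r')) := by
            apply mul_le_mul_of_nonneg_right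
            · exact mul_le_mul_of_nonneg_left h2 hkmax.le
            · (clear * - hneg; positivity)
        _ = 1 / (2 * n1) * ((kmin * M r'.1) * (- D r')) := by
            rw [hE]; (clear * - hkmax hN1pos hkmin hn1pos; field_simp)
        _ ≤ 1 / (2 * n1) * (w r' * (- D r')) := by
            apply mul_le_mul_of_nonneg_left _ (by (clear * -; positivity))
            exact mul_le_mul_of_nonneg_right h3 hneg.le
        _ ≤ 1 / (2 * n1) * NEG := mul_le_mul_of_nonneg_left h4 (by (clear * -; positivity))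
  have hmain : ∑ i, p i * G.field k x i ≤ - (1 / 2) * NEG := by
    rw [sum_mul_field]
    have hsum : ∑ r ∈ G.reactions, w r * D r ≤
        ∑ r ∈ G.reactions, (1 / (2 * n1) * NEG - w r * max 0 (- D r)) :=
      Finset.sum_le_sum hpos
    rw [Finset.sum_sub_distrib, Finset.sum_const, nsmul_eq_mul] at hsum
    have hcard : (G.reactions.card : ℝ) * (1 / (2 * n1) * NEG) ≤ 1 / 2 * NEG := by
      have h5 : (G.reactions.card : ℝ) ≤ n1 := by rw [hn1]; linarith only []
      calc (G.reactions.card : ℝ) * (1 / (2 * n1) * NEG) ≤ n1 * (1 / (2 * n1) * NEG) :=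
            mul_le_mul_of_nonneg_right h5 (by (clear * - hNEGnn; positivity))
        _ = 1 / 2 * NEG := by (clear * - hn1pos; field_simp)
    have : ∑ r ∈ G.reactions, w r * D r ≤ - (1 / 2) * NEG := by linarith only [hsum, hcard]
    exact this
  refine ⟨by linarith only [hNEGnn, hmain], fun h hh r hr hhr m hm hmM => ?_⟩
  -- lower bound for NEG
  have hkey : kmin * m * (h / N1) ≤ NEG := by
    rcases lt_trichotomy (D r) 0 with hneg | hzero | hposD
    · have habs : |D r| = - D r := abs_of_neg hneg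
      have h1 : h ≤ - D r := by rw [← habs]; exact hhr
      calc kmin * m * (h / N1) ≤ kmin * m * h := by
            apply mul_le_mul_of_nonneg_left _ (by (clear * - hkmin hm; positivity))
            exact div_le_self hh hN1ge
        _ ≤ w r * (- D r) := by
            apply mul_le_mul _ h1 hh (hwpos r hr).le
            exact mul_le_mul (hkmin' r hr) (hmM r hr) hm (hk r hr).le
        _ ≤ NEG := hterm r hr
    · have : |D r| = 0 := by rw [hzero, abs_zero]
      have h1 : h ≤ 0 := by rw [← this]; exact hhr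
      have h2 : h = 0 := le_antisymm h1 hh
      rw [h2]; simpa only [zero_div, mul_zero, ge_iff_le] using hNEGnn
    · have habs : |D r| = D r := abs_of_pos hposD
      have h1 : h ≤ D r := by rw [← habs]; exact hhr
      obtain ⟨r', hr', _, hdrop, hneg⟩ := hpartner r hr hposD
      have h2 : h / N1 ≤ - D r' := by
        rw [div_le_iff₀ hN1pos]; linarith only [hhr, habs, hdrop]
      calc kmin * m * (h / N1) ≤ w r' * (- D r') := by
            apply mul_le_mul _ h2 (by (clear * - hh; positivity)) (hwpos r' hr').le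
            exact mul_le_mul (hkmin' r' hr') (hmM r' hr') hm (hk r' hr').le
        _ ≤ NEG := hterm r' hr'
  calc ∑ i, p i * G.field k x i ≤ - (1 / 2) * NEG := hmain
    _ ≤ - (1 / 2) * (kmin * m * (h / N1)) := by linarith only [hkey]
    _ = - (kmin / (2 * N1) * h * m) := by (clear * - hN1pos hkmin; field_simp)

/-- The property of a potential on the coordinates in `I`, valid where the other
coordinates lie in `[κ, B]`, uniformly for all rates in `[kmin, kmax]`. -/
structure IsUPotential (G : Network d) (kmin kmax : ℝ)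
    (I : Finset (Fin d)) (κ B : ℝ) (V : (Fin d → ℝ) → ℝ) (C η : ℝ) : Prop where
  C_nonneg : 0 ≤ C
  η_pos : 0 < η
  lower : ∀ x : Fin d → ℝ, (∀ i ∈ I, 0 < x i) → ∑ i ∈ I, x i * (Real.log (x i) - C) ≤ V x
  upper : ∀ x : Fin d → ℝ, (∀ i ∈ I, 0 < x i) → V x ≤ ∑ i ∈ I, x i * (Real.log (x i) + C)
  grad : ∀ x : Fin d → ℝ, (∀ i, 0 < x i) → (∀ i ∉ I, κ ≤ x i ∧ x i ≤ B) → ∀ ε > 0,
    ∃ p : Fin d → ℝ, (∀ i ∉ I, p i = 0) ∧
      (∀ x' : Fin d → ℝ, (∀ i ∈ I, 0 < x' i) → V x - ε + ∑ i, p i * (x' i - x i) ≤ V x') ∧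
      (∀ i ∈ I, |p i - Real.log (x i)| ≤ C) ∧
      ∀ k : (Fin d → ℕ) × (Fin d → ℕ) → ℝ, (∀ r ∈ G.reactions, kmin ≤ k r ∧ k r ≤ kmax) →
      (∑ i, p i * G.field k x i ≤ 0) ∧
      (∀ h : ℝ, 0 ≤ h → ∀ r ∈ G.reactions, h ≤ |∑ i, p i * ((r.2 i : ℝ) - (r.1 i : ℝ))| →
        ∀ m : ℝ, 0 ≤ m → (∀ r' ∈ G.reactions, m ≤ ∏ i, x i ^ r'.1 i) →
        ∑ i, p i * G.field k x i ≤ - (η * h * m))

open Finset in
/-- Existence of potentials uniform in the rates. -/
theorem isUPotential_of_subset (G : Network d) (hG : G.WeaklyReversible)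
    (kmin kmax : ℝ) (hkmin : 0 < kmin) (hkmax : 0 < kmax)
    (I : Finset (Fin d)) (κ B : ℝ) (hκ : 0 < κ)
    (hsub : ∀ (N : ℕ) (δ : ℝ), ∃ (V : (Fin d → ℝ) → ℝ) (C : ℝ), 0 ≤ C ∧
      (∀ x, (∀ i ∈ I, 0 < x i) → ∑ i ∈ I, x i * (Real.log (x i) - C) ≤ V x ∧
        V x ≤ ∑ i ∈ I, x i * (Real.log (x i) + C)) ∧
      (∀ x, (∀ i ∈ I, 0 < x i) → ∀ ε > 0, ∃ p : Fin d → ℝ, (∀ i ∉ I, p i = 0) ∧
       (∀ x', (∀ i ∈ I, 0 < x' i) → V x - ε + ∑ i, p i * (x' i - x i) ≤ V x') ∧
       (∀ i ∈ I, |p i - Real.log (x i)| ≤ C) ∧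
       (∀ v : Fin d → ℤ, (∀ i, |v i| ≤ N) → 0 < ∑ i, (v i : ℝ) * p i →
          δ < ∑ i ∈ I, (v i : ℝ) * Real.log (x i)))) :
    ∃ (V : (Fin d → ℝ) → ℝ) (C η : ℝ), IsUPotential G kmin kmax I κ B V C η := by
  classical
  obtain ⟨E, hE, η, hη, hnet⟩ := network_lemma_unif G hG kmin kmax hkmin hkmax
  obtain ⟨N, hN⟩ := exists_exponent_bound G
  set L : ℝ := |Real.log κ| + |Real.log B| with hL
  have hLnn : 0 ≤ L := by (clear * -; positivity)
  obtain ⟨V, C, hC, hbd, hgrad⟩ := hsub N (Real.log E + d * (N * L))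
  refine ⟨V, C, η, hC, hη, fun x hx => (hbd x hx).1, fun x hx => (hbd x hx).2, ?_⟩
  intro x hx hxI ε hε
  obtain ⟨p, hp0, hp1, hp2, hp3⟩ := hgrad x (fun i _ => hx i) ε hε
  refine ⟨p, hp0, hp1, hp2, fun k hk => ?_⟩
  apply hnet k hk x p hx
  intro y hy z hz _ hpos
  apply monomial_le_of_align x hx y z E hE
  have hv : ∀ i, |((z i : ℤ) - (y i : ℤ))| ≤ (N : ℤ) := by
    intro i
    have h1 := hN y hy i
    have h2 := hN z hz i
    rw [abs_le]
    constructor <;> omega
  have hpos' : 0 < ∑ i, ((((z i : ℤ) - (y i : ℤ) : ℤ)) : ℝ) * p i := by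
    have : ∑ i, ((((z i : ℤ) - (y i : ℤ) : ℤ)) : ℝ) * p i =
        ∑ i, p i * ((z i : ℝ) - (y i : ℝ)) := by
      refine Finset.sum_congr rfl fun i _ => ?_
      push_cast; ring
    rw [this]; exact hpos
  have h3 := hp3 (fun i => (z i : ℤ) - (y i : ℤ)) hv hpos'
  have h4 : ∑ i ∈ I, ((((z i : ℤ) - (y i : ℤ) : ℤ)) : ℝ) * Real.log (x i) =
      ∑ i ∈ I, ((z i : ℝ) - (y i : ℝ)) * Real.log (x i) := by
    refine Finset.sum_congr rfl fun i _ => ?_
    push_cast; ring
  rw [h4] at h3
  have h5 : ∑ i, ((z i : ℝ) - (y i : ℝ)) * Real.log (x i) =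
      ∑ i ∈ I, ((z i : ℝ) - (y i : ℝ)) * Real.log (x i) +
      ∑ i ∈ Iᶜ, ((z i : ℝ) - (y i : ℝ)) * Real.log (x i) :=
    (Finset.sum_add_sum_compl I _).symm
  have h6 : |∑ i ∈ Iᶜ, ((z i : ℝ) - (y i : ℝ)) * Real.log (x i)| ≤ d * (N * L) := by
    calc |∑ i ∈ Iᶜ, ((z i : ℝ) - (y i : ℝ)) * Real.log (x i)|
        ≤ ∑ i ∈ Iᶜ, |((z i : ℝ) - (y i : ℝ)) * Real.log (x i)| :=
          Finset.abs_sum_le_sum_abs _ _
      _ ≤ ∑ i ∈ Iᶜ, (N : ℝ) * L := by
          apply Finset.sum_le_sum
          intro i hi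
          rw [abs_mul]
          have hi' : i ∉ I := by simpa using hi
          have h7 : |(z i : ℝ) - (y i : ℝ)| ≤ N := by
            have := hv i
            exact_mod_cast this
          exact mul_le_mul h7 (abs_log_le_of_mem hκ (hxI i hi').1 (hxI i hi').2)
            (abs_nonneg _) (by (clear * -; positivity))
      _ = (Iᶜ.card : ℝ) * (N * L) := by rw [Finset.sum_const, nsmul_eq_mul]
      _ ≤ d * (N * L) := by
          apply mul_le_mul_of_nonneg_right _ (by (clear * -; positivity))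
          have : Iᶜ.card ≤ d := by
            simpa only [Fintype.card_fin] using Finset.card_le_univ (Iᶜ : Finset (Fin d))
          exact_mod_cast this
  have h8 := neg_abs_le (∑ i ∈ Iᶜ, ((z i : ℝ) - (y i : ℝ)) * Real.log (x i))
  rw [h5]
  linarith only [h3, h6, h8]

end Vale.Agent.P072
end
end

section

section

/-! # Decrease of potentials along Caratheodory solutions -/

namespace Vale.Agent.P072

open Finset MeasureTheory

variable {d : ℕ}

/-- rates in `[kmin, kmax]` for nonnegative times, measurable -/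
def RatesIn (G : Network d) (kmin kmax : ℝ) (k : (Fin d → ℕ) × (Fin d → ℕ) → ℝ → ℝ) : Prop :=
  ∀ r ∈ G.reactions, Measurable (k r) ∧ ∀ t, 0 ≤ t → kmin ≤ k r t ∧ k r t ≤ kmax

/-- integrability of the field along a continuous path -/
theorem tvField_intervalIntegrable (G : Network d) {kmin kmax : ℝ}
    {k : (Fin d → ℕ) × (Fin d → ℕ) → ℝ → ℝ} (hk : RatesIn G kmin kmax k)
    {x : ℝ → Fin d → ℝ} {a b : ℝ} (ha : 0 ≤ a) (hab : a ≤ b)
    (hx : ContinuousOn x (Set.Icc a b)) :
    IntervalIntegrable (fun s => G.tvField k s (x s)) volume a b := by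
  have hsum : (fun s => G.tvField k s (x s)) = fun s => ∑ r ∈ G.reactions,
      (k r s * ∏ j, x s j ^ r.1 j) • (fun i => (r.2 i : ℝ) - (r.1 i : ℝ)) := by
    funext s; rfl
  rw [hsum]
  have : (fun s => ∑ r ∈ G.reactions,
      (k r s * ∏ j, x s j ^ r.1 j) • (fun i => (r.2 i : ℝ) - (r.1 i : ℝ) : Fin d → ℝ)) =
      ∑ r ∈ G.reactions, fun s =>
      (k r s * ∏ j, x s j ^ r.1 j) • (fun i => (r.2 i : ℝ) - (r.1 i : ℝ) : Fin d → ℝ) := by
    funext s; simp only [Finset.sum_apply]
  rw [this]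
  refine IntervalIntegrable.sum _ fun r hr => ?_
  have h1 : IntervalIntegrable (k r) volume a b := by
    rw [intervalIntegrable_iff_integrableOn_Ioc_of_le hab]
    refine Measure.integrableOn_of_bounded (M := max |kmin| |kmax|) (by simp only [Real.volume_Ioc, ne_eq, ENNReal.ofReal_ne_top, not_false_eq_true]) ?_ ?_
    · exact ((hk r hr).1).aestronglyMeasurable
    · refine (ae_restrict_iff' measurableSet_Ioc).2 (Filter.Eventually.of_forall fun s hs => ?_)
      obtain ⟨h3, h4⟩ := (hk r hr).2 s (by linarith [hs.1])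
      rw [Real.norm_eq_abs]
      exact abs_le_max_abs_abs h3 h4
  have h2 : ContinuousOn (fun s => ∏ j, x s j ^ r.1 j) (Set.uIcc a b) := by
    rw [Set.uIcc_of_le hab]
    refine continuousOn_finsetProd _ fun j _ => ?_
    exact ((continuous_apply j).comp_continuousOn hx).pow _
  have h3 : IntervalIntegrable (fun s => k r s * ∏ j, x s j ^ r.1 j) volume a b :=
    h1.mul_continuousOn h2
  exact ⟨Integrable.smul_const h3.1 _, Integrable.smul_const h3.2 _⟩

/-- increments of a Caratheodory solution -/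
theorem car_increment (G : Network d) {kmin kmax : ℝ}
    {k : (Fin d → ℕ) × (Fin d → ℕ) → ℝ → ℝ} (hk : RatesIn G kmin kmax k)
    {x : ℝ → Fin d → ℝ} {b : ℝ} (hx : IsCarSolutionOn (G.tvField k) x b)
    {s t : ℝ} (hs : 0 ≤ s) (hst : s ≤ t) (htb : t < b) :
    x t - x s = ∫ r in s..t, G.tvField k r (x r) := by
  have h1 := hx.2 t ⟨hs.trans hst, htb⟩
  have h2 := hx.2 s ⟨hs, lt_of_le_of_lt hst htb⟩
  have h3 : IntervalIntegrable (fun s => G.tvField k s (x s)) volume 0 s :=
    tvField_intervalIntegrable G hk le_rfl hs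
      (hx.1.mono fun r hr => ⟨hr.1, lt_of_le_of_lt (hr.2.trans hst) htb⟩)
  have h4 : IntervalIntegrable (fun s => G.tvField k s (x s)) volume s t :=
    tvField_intervalIntegrable G hk hs hst
      (hx.1.mono fun r hr => ⟨hs.trans hr.1, lt_of_le_of_lt hr.2 htb⟩)
  have h5 := intervalIntegral.integral_add_adjacent_intervals h3 h4
  rw [h1, h2, ← h5]
  abel

/-- decrease of a potential along a path with absolutely continuous increments -/
theorem tv_potential_decrease (G : Network d) {kmin kmax : ℝ}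
    {k : (Fin d → ℕ) × (Fin d → ℕ) → ℝ → ℝ} (hk : RatesIn G kmin kmax k)
    (V : (Fin d → ℝ) → ℝ) (I : Finset (Fin d)) (C ρ : ℝ) (x : ℝ → Fin d → ℝ) (s t : ℝ)
    (hs : 0 ≤ s) (hst : s ≤ t)
    (hxc : ContinuousOn x (Set.Icc s t))
    (hx : ∀ a b, s ≤ a → a ≤ b → b ≤ t → x b - x a = ∫ r in a..b, G.tvField k r (x r))
    (hpos : ∀ r ∈ Set.Icc s t, ∀ i, 0 < x r i)
    (hgrad : ∀ r ∈ Set.Icc s t, ∀ ε > 0, ∃ p : Fin d → ℝ, (∀ i ∉ I, p i = 0) ∧
      (∀ x' : Fin d → ℝ, (∀ i ∈ I, 0 < x' i) →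
        V (x r) - ε + ∑ i, p i * (x' i - x r i) ≤ V x') ∧
      (∀ i ∈ I, |p i - Real.log (x r i)| ≤ C) ∧
      ∀ k' : (Fin d → ℕ) × (Fin d → ℕ) → ℝ, (∀ r ∈ G.reactions, kmin ≤ k' r ∧ k' r ≤ kmax) →
        (∑ i, p i * G.field k' (x r) i ≤ -ρ)) :
    V (x t) ≤ V (x s) - ρ * (t - s) := by
  -- bound on the logarithms
  have hlogc : ContinuousOn (fun r => (fun i => Real.log (x r i))) (Set.Icc s t) := by
    rw [continuousOn_pi]
    intro i
    refine ContinuousOn.log ?_ (fun r hr => (hpos r hr i).ne')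
    exact (continuous_apply i).comp_continuousOn hxc
  obtain ⟨L, hL⟩ := isCompact_Icc.exists_bound_of_continuousOn hlogc
  have hmonc : ContinuousOn (fun r => (fun q : G.reactions => ∏ j, x r j ^ q.1.1 j))
      (Set.Icc s t) := by
    rw [continuousOn_pi]
    intro q
    refine continuousOn_finsetProd _ fun j _ => ?_
    exact ((continuous_apply j).comp_continuousOn hxc).pow _
  have hunif := isCompact_Icc.uniformContinuousOn_of_continuous hmonc
  set K : ℝ := |C| + |L| with hK
  have hK0 : 0 ≤ K := by (clear * -; positivity)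
  set W : ℝ := ∑ r ∈ G.reactions, (|kmax| + |kmin|) * ∑ i, |(r.2 i : ℝ) - (r.1 i : ℝ)|
    with hW
  have hW0 : 0 ≤ W := Finset.sum_nonneg fun r _ => by (clear * -; positivity)
  have key : ∀ μ > 0, V (x t) ≤ V (x s) + (t - s) * (-ρ + W * K * μ) := by
    intro μ hμ
    obtain ⟨h, hh, hunif'⟩ := Metric.uniformContinuousOn_iff.1 hunif μ hμ
    have hstep : ∀ a b, s ≤ a → a ≤ b → b ≤ t → b - a ≤ h / 2 →
        V (x b) ≤ V (x a) + (b - a) * (-ρ + W * K * μ) := by
      intro a b ha hab hb hba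
      have hbm : b ∈ Set.Icc s t := ⟨by linarith only [ha, hab], hb⟩
      have ham : a ∈ Set.Icc s t := ⟨ha, by linarith only [hab, hb]⟩
      have hsub : Set.Icc a b ⊆ Set.Icc s t := Set.Icc_subset_Icc ha hb
      refine le_of_forall_pos_le_add (fun ε hε => ?_)
      obtain ⟨p, hpI, hpV, hpl, hpf⟩ := hgrad b hbm ε hε
      have h1 := hpV (x a) (fun i _ => hpos a ham i)
      have hpK : ∀ i, |p i| ≤ K := by
        intro i
        by_cases hi : i ∈ I
        · have h2 := hpl i hi
          have h3 : |Real.log (x b i)| ≤ L :=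
            (norm_le_pi_norm (fun i => Real.log (x b i)) i).trans (hL b hbm)
          have h4 : |p i| ≤ |p i - Real.log (x b i)| + |Real.log (x b i)| := by
            have := abs_add_le (p i - Real.log (x b i)) (Real.log (x b i))
            simpa only [ge_iff_le, sub_add_cancel] using this
          have h5 := le_abs_self C
          have h6 := le_abs_self L
          linarith only [h2, h3, h4, h5, h6]
        · rw [hpI i hi, abs_zero]
          exact hK0
      -- pointwise bound of the rate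
      have hrate : ∀ r ∈ Set.Icc a b, ∑ i, p i * G.tvField k r (x r) i ≤ -ρ + W * K * μ := by
        intro r hr
        have hr0 : 0 ≤ r := by linarith only [hs, ha, hr.1]
        have hkr : ∀ q ∈ G.reactions, kmin ≤ k q r ∧ k q r ≤ kmax := fun q hq =>
          (hk q hq).2 r hr0
        have h2 := hpf (fun q => k q r) hkr
        have hdist := hunif' r (hsub hr) b hbm (by
          rw [Real.dist_eq, abs_sub_comm, abs_of_nonneg (by linarith only [hr.2])]
          linarith only [hh, hba, hr.1])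
        have hmon : ∀ q ∈ G.reactions, |∏ j, x r j ^ q.1 j - ∏ j, x b j ^ q.1 j| ≤ μ := by
          intro q hq
          have h3 := (dist_le_pi_dist (fun q : G.reactions => ∏ j, x r j ^ q.1.1 j)
            (fun q : G.reactions => ∏ j, x b j ^ q.1.1 j) ⟨q, hq⟩).trans hdist.le
          rwa [Real.dist_eq] at h3
        have h4 : ∑ i, p i * G.tvField k r (x r) i - ∑ i, p i * G.field (fun q => k q r) (x b) i
            ≤ W * K * μ := by
          unfold Network.tvField
          rw [sum_mul_field, sum_mul_field, ← Finset.sum_sub_distrib, hW, Finset.sum_mul,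
            Finset.sum_mul]
          refine Finset.sum_le_sum fun q hq => ?_
          have h5 : |∑ i, p i * ((q.2 i : ℝ) - (q.1 i : ℝ))| ≤
              K * ∑ i, |(q.2 i : ℝ) - (q.1 i : ℝ)| := by
            rw [Finset.mul_sum]
            refine (Finset.abs_sum_le_sum_abs _ _).trans (Finset.sum_le_sum fun i _ => ?_)
            rw [abs_mul]
            exact mul_le_mul_of_nonneg_right (hpK i) (abs_nonneg _)
          have h6 : |k q r| ≤ |kmax| + |kmin| := by
            have := abs_le_max_abs_abs (hkr q hq).1 (hkr q hq).2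
            refine this.trans (max_le ?_ ?_) <;>
              linarith only [abs_nonneg kmax, abs_nonneg kmin]
          have h7 := hmon q hq
          calc (k q r * ∏ j, x r j ^ q.1 j) * ∑ i, p i * ((q.2 i : ℝ) - (q.1 i : ℝ)) -
                (k q r * ∏ j, x b j ^ q.1 j) * ∑ i, p i * ((q.2 i : ℝ) - (q.1 i : ℝ))
              = k q r * (∏ j, x r j ^ q.1 j - ∏ j, x b j ^ q.1 j) *
                ∑ i, p i * ((q.2 i : ℝ) - (q.1 i : ℝ)) := by
                  have e1 : ∀ k A B P : ℝ, k * A * P - k * B * P = k * (A - B) * P := by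
                    intros; ring
                  exact e1 _ _ _ _
            _ ≤ |k q r * (∏ j, x r j ^ q.1 j - ∏ j, x b j ^ q.1 j) *
                ∑ i, p i * ((q.2 i : ℝ) - (q.1 i : ℝ))| := le_abs_self _
            _ = |k q r| * |∏ j, x r j ^ q.1 j - ∏ j, x b j ^ q.1 j| *
                |∑ i, p i * ((q.2 i : ℝ) - (q.1 i : ℝ))| := by rw [abs_mul, abs_mul]
            _ ≤ (|kmax| + |kmin|) * μ * (K * ∑ i, |(q.2 i : ℝ) - (q.1 i : ℝ)|) := by
                (clear * - h6 h7 h5 hμ; gcongr)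
            _ = (|kmax| + |kmin|) * (∑ i, |(q.2 i : ℝ) - (q.1 i : ℝ)|) * K * μ := by
                  have e2 : ∀ A μ K P : ℝ, A * μ * (K * P) = A * P * K * μ := by
                    intros; ring
                  exact e2 _ _ _ _
        linarith only [h2, h4]
      have hint : IntervalIntegrable (fun r => G.tvField k r (x r)) volume a b :=
        tvField_intervalIntegrable G hk (by linarith only [hs, ha]) hab (hxc.mono hsub)
      let Lp : (Fin d → ℝ) →L[ℝ] ℝ := ∑ i, p i • ContinuousLinearMap.proj (R := ℝ)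
        (φ := fun _ : Fin d => ℝ) i
      have hLp : ∀ v : Fin d → ℝ, Lp v = ∑ i, p i * v i := by
        intro v; simp only [_root_.sum_apply, smul_apply, ContinuousLinearMap.proj_apply, smul_eq_mul, Lp]
      have h2 : ∑ i, p i * (x b i - x a i) = ∫ r in a..b, ∑ i, p i * G.tvField k r (x r) i := by
        have h3 : ∑ i, p i * (x b i - x a i) = Lp (x b - x a) := by
          rw [hLp]; rfl
        rw [h3, hx a b ha hab hb, ← ContinuousLinearMap.intervalIntegral_comp_comm Lp hint]
        simp only [hLp]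
      have h3 : ∫ r in a..b, ∑ i, p i * G.tvField k r (x r) i ≤ (b - a) * (-ρ + W * K * μ) := by
        have h4 : IntervalIntegrable (fun r => ∑ i, p i * G.tvField k r (x r) i) volume a b := by
          have : IntervalIntegrable (fun r => Lp (G.tvField k r (x r))) volume a b :=
            ⟨Lp.integrable_comp hint.1, Lp.integrable_comp hint.2⟩
          simpa only [hLp] using this
        have h5 := intervalIntegral.integral_mono_on hab h4
          (intervalIntegrable_const (c := -ρ + W * K * μ)) hrate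
        rwa [intervalIntegral.integral_const, smul_eq_mul] at h5
      have h4 : ∑ i, p i * (x a i - x b i) = - ∑ i, p i * (x b i - x a i) := by
        rw [← Finset.sum_neg_distrib]
        exact Finset.sum_congr rfl fun i _ => by ring
      rw [h4, h2] at h1
      linarith only [h1, h3]
    obtain ⟨n, hn⟩ := exists_nat_gt ((t - s) / (h / 2))
    refine decrease_chain (fun r => V (x r)) s t (-ρ + W * K * μ) (h / 2) (by (clear * - hh; positivity))
      hstep n s t le_rfl hst le_rfl ?_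
    rw [div_lt_iff₀ (by positivity)] at hn
    exact hn.le
  refine le_of_forall_pos_le_add (fun ε hε => ?_)
  have hpos2 : 0 < (t - s) * (W * K) + 1 := by
    have : 0 ≤ (t - s) * (W * K) := by
      have : 0 ≤ t - s := by linarith
      (clear * - hst; positivity)
    linarith only [this]
  have h1 := key (ε / ((t - s) * (W * K) + 1)) (by (clear * - hε hst; positivity))
  have h2 : (t - s) * (W * K) * (ε / ((t - s) * (W * K) + 1)) ≤ ε := by
    rw [← mul_div_assoc, div_le_iff₀ hpos2]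
    nlinarith only [hε]
  linarith

end Vale.Agent.P072
end
end

section

section

/-! # Existence and uniqueness of Caratheodory solutions -/

namespace Vale.Agent.P072

open Set MeasureTheory
open scoped BoundedContinuousFunction NNReal

section Abstract

variable {E : Type*} [NormedAddCommGroup E] [NormedSpace ℝ E]

/-- A Caratheodory field with uniform Lipschitz constant and uniform bound. -/
structure CarLip (g : ℝ → E → E) (K L : ℝ) : Prop where
  K_nonneg : 0 ≤ K
  L_nonneg : 0 ≤ L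
  int : ∀ x : ℝ → E, Continuous x → ∀ a b, IntervalIntegrable (fun s => g s (x s)) volume a b
  lip : ∀ t x y, ‖g t x - g t y‖ ≤ K * ‖x - y‖
  bdd : ∀ t x, ‖g t x‖ ≤ L

theorem integral_exp_le {lam t : ℝ} (hlam : 0 < lam) (_ht : 0 ≤ t) :
    ∫ s in (0 : ℝ)..t, Real.exp (lam * s) ≤ Real.exp (lam * t) / lam := by
  have h1 : ∫ s in (0 : ℝ)..t, Real.exp (lam * s) = (Real.exp (lam * t) - 1) / lam := by
    rw [intervalIntegral.integral_comp_mul_left (fun s => Real.exp s) hlam.ne', integral_exp]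
    simp only [mul_zero, Real.exp_zero, smul_eq_mul]
    (clear * - hlam; field_simp)
  rw [h1]
  apply div_le_div_of_nonneg_right _ hlam.le
  linarith only []

theorem exists_global_car [CompleteSpace E] {g : ℝ → E → E} {K L : ℝ} (hg : CarLip g K L)
    (x₀ : E) :
    ∃ z : ℝ → E, Continuous z ∧ z 0 = x₀ ∧
      ∀ t : ℝ, 0 ≤ t → z t = x₀ + ∫ s in (0 : ℝ)..t, g s (z s) := by
  set lam : ℝ := 2 * K + 1 with hlam
  have hlam0 : 0 < lam := by rw [hlam]; linarith [hg.K_nonneg]
  -- the path associated to a bounded continuous function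
  let X : (ℝ →ᵇ E) → ℝ → E := fun y s => x₀ + Real.exp (lam * s) • y s
  have hXc : ∀ y, Continuous (X y) := by
    intro y
    have : Continuous y := y.continuous
    fun_prop
  let F : (ℝ →ᵇ E) → ℝ → E := fun y t => ∫ s in (0 : ℝ)..t, g s (X y s)
  have hFc : ∀ y, Continuous (F y) := fun y =>
    intervalIntegral.continuous_primitive (fun a b => hg.int _ (hXc y) a b) 0
  have hFb : ∀ y t, 0 ≤ t → ‖F y t‖ ≤ L * t := by
    intro y t ht
    have := intervalIntegral.norm_integral_le_of_norm_le_const (a := 0) (b := t)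
      (f := fun s => g s (X y s)) (C := L) (fun s _ => hg.bdd s _)
    simpa only [ge_iff_le, sub_zero, abs_of_nonneg ht] using this
  have hΨb : ∀ y t, ‖Real.exp (-(lam * max t 0)) • F y (max t 0)‖ ≤ L / lam := by
    intro y t
    have ht : 0 ≤ max t 0 := le_max_right _ _
    generalize max t 0 = τ at ht
    rw [norm_smul, Real.norm_eq_abs, abs_of_pos (Real.exp_pos _)]
    have h1 := hFb y τ ht
    have h2 : lam * τ ≤ Real.exp (lam * τ) := by
      have := Real.add_one_le_exp (lam * τ)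
      linarith only [this]
    rw [Real.exp_neg]
    calc (Real.exp (lam * τ))⁻¹ * ‖F y τ‖ ≤ (Real.exp (lam * τ))⁻¹ * (L * τ) := by
          gcongr
      _ = (L / lam) * ((lam * τ) / Real.exp (lam * τ)) := by
          (clear * - hlam0; field_simp)
      _ ≤ (L / lam) * 1 := by
          apply mul_le_mul_of_nonneg_left _ (div_nonneg hg.L_nonneg hlam0.le)
          exact (div_le_one (Real.exp_pos _)).2 h2
      _ = L / lam := mul_one _
  let Ψ : (ℝ →ᵇ E) → (ℝ →ᵇ E) := fun y =>
    BoundedContinuousFunction.ofNormedAddCommGroup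
      (fun t => Real.exp (-(lam * max t 0)) • F y (max t 0))
      (by
        have h1 := hFc y
        have h2 : Continuous fun t : ℝ => F y (max t 0) := h1.comp (by fun_prop)
        fun_prop) (L / lam) (hΨb y)
  have hdiff : ∀ y y' t, 0 ≤ t → ‖F y t - F y' t‖ ≤ K / lam * Real.exp (lam * t) * ‖y - y'‖ := by
    intro y y' t ht
    have h1 : F y t - F y' t = ∫ s in (0 : ℝ)..t, (g s (X y s) - g s (X y' s)) :=
      (intervalIntegral.integral_sub (hg.int _ (hXc y) 0 t) (hg.int _ (hXc y') 0 t)).symm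
    rw [h1]
    have h2 : ∀ s, ‖g s (X y s) - g s (X y' s)‖ ≤ K * ‖y - y'‖ * Real.exp (lam * s) := by
      intro s
      refine (hg.lip s _ _).trans ?_
      have h3 : X y s - X y' s = Real.exp (lam * s) • (y s - y' s) := by
        simp only [X]
        rw [smul_sub]; abel
      rw [h3, norm_smul, Real.norm_eq_abs, abs_of_pos (Real.exp_pos _)]
      have h4 : ‖y s - y' s‖ ≤ ‖y - y'‖ := (y - y').norm_coe_le_norm s
      calc K * (Real.exp (lam * s) * ‖y s - y' s‖) ≤ K * (Real.exp (lam * s) * ‖y - y'‖) := by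
            gcongr
            exact hg.K_nonneg
        _ = K * ‖y - y'‖ * Real.exp (lam * s) := by ring
    have h5 := intervalIntegral.norm_integral_le_of_norm_le (μ := volume) ht
      (f := fun s => g s (X y s) - g s (X y' s))
      (g := fun s => K * ‖y - y'‖ * Real.exp (lam * s))
      (Filter.Eventually.of_forall fun s _ => h2 s)
      (Continuous.intervalIntegrable (by fun_prop) _ _)
    refine h5.trans ?_
    rw [intervalIntegral.integral_const_mul]
    have h6 := integral_exp_le hlam0 ht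
    calc K * ‖y - y'‖ * ∫ s in (0 : ℝ)..t, Real.exp (lam * s)
        ≤ K * ‖y - y'‖ * (Real.exp (lam * t) / lam) := by
          apply mul_le_mul_of_nonneg_left h6
          exact mul_nonneg hg.K_nonneg (norm_nonneg _)
      _ = K / lam * Real.exp (lam * t) * ‖y - y'‖ := by ring
  have hK2 : K / lam ≤ 1 / 2 := by
    rw [div_le_div_iff₀ hlam0 (by norm_num)]
    rw [hlam]; linarith
  have hcontr : ContractingWith (1 / 2 : ℝ≥0) Ψ := by
    refine ⟨by
      rw [← NNReal.coe_lt_coe]; push_cast; norm_num, ?_⟩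
    refine LipschitzWith.of_dist_le_mul fun y y' => ?_
    rw [BoundedContinuousFunction.dist_le (by positivity)]
    intro t
    rw [dist_eq_norm]
    show ‖Real.exp (-(lam * max t 0)) • F y (max t 0) -
      Real.exp (-(lam * max t 0)) • F y' (max t 0)‖ ≤ _
    rw [← smul_sub, norm_smul, Real.norm_eq_abs, abs_of_pos (Real.exp_pos _)]
    have ht : 0 ≤ max t 0 := le_max_right _ _
    generalize max t 0 = τ at ht
    have h1 := hdiff y y' τ ht
    calc Real.exp (-(lam * τ)) * ‖F y τ - F y' τ‖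
        ≤ Real.exp (-(lam * τ)) * (K / lam * Real.exp (lam * τ) * ‖y - y'‖) := by (clear * - h1; gcongr)
      _ = (Real.exp (-(lam * τ)) * Real.exp (lam * τ)) * (K / lam * ‖y - y'‖) := by ring
      _ = K / lam * ‖y - y'‖ := by rw [← Real.exp_add]; simp
      _ ≤ 1 / 2 * ‖y - y'‖ := by (clear * - hK2; gcongr)
      _ = ((1 / 2 : ℝ≥0) : ℝ) * dist y y' := by
          rw [dist_eq_norm]; push_cast; ring
  have hfix : Ψ (hcontr.fixedPoint Ψ) = hcontr.fixedPoint Ψ := hcontr.fixedPoint_isFixedPt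
  set y := hcontr.fixedPoint Ψ with hy
  have hyt : ∀ t, y t = Real.exp (-(lam * max t 0)) • F y (max t 0) := by
    intro t
    conv_lhs => rw [← hfix]
    rfl
  have hmain : ∀ t : ℝ, 0 ≤ t → X y t = x₀ + ∫ s in (0 : ℝ)..t, g s (X y s) := by
    intro t ht
    show x₀ + Real.exp (lam * t) • y t = _
    rw [hyt t, max_eq_left ht, smul_smul, ← Real.exp_add]
    simp only [add_neg_cancel, Real.exp_zero, one_smul, F]
  refine ⟨X y, hXc y, ?_, hmain⟩
  have := hmain 0 le_rfl
  simpa using this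

/-- Uniqueness, integral form of the Gronwall inequality. -/
theorem unique_car {g : ℝ → E → E} {K : ℝ} {x z : ℝ → E} {T : ℝ} (hT : 0 ≤ T)
    (hlip : ∀ t ∈ Icc 0 T, ‖g t (x t) - g t (z t)‖ ≤ K * ‖x t - z t‖)
    (hxc : ContinuousOn x (Icc 0 T)) (hzc : ContinuousOn z (Icc 0 T))
    (hxi : ∀ t ∈ Icc 0 T, IntervalIntegrable (fun s => g s (x s)) volume 0 t)
    (hzi : ∀ t ∈ Icc 0 T, IntervalIntegrable (fun s => g s (z s)) volume 0 t)
    (hx : ∀ t ∈ Icc 0 T, x t = x 0 + ∫ s in (0 : ℝ)..t, g s (x s))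
    (hz : ∀ t ∈ Icc 0 T, z t = z 0 + ∫ s in (0 : ℝ)..t, g s (z s))
    (h0 : x 0 = z 0) : EqOn x z (Icc 0 T) := by
  let φ₀ : Icc (0 : ℝ) T → ℝ := fun s => ‖x s - z s‖
  let φ : ℝ → ℝ := IccExtend hT φ₀
  have hφ₀c : Continuous φ₀ := (hxc.sub hzc).norm.domRestrict
  have hφc : Continuous φ := hφ₀c.Icc_extend'
  have hφe : ∀ s ∈ Icc 0 T, φ s = ‖x s - z s‖ := by
    intro s hs
    exact IccExtend_of_mem hT φ₀ hs
  have hφ0 : ∀ s, 0 ≤ φ s := fun s => norm_nonneg _
  let u : ℝ → ℝ := fun t => ∫ s in (0 : ℝ)..t, φ s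
  have hu : ∀ t, HasDerivAt u (φ t) t := fun t =>
    intervalIntegral.integral_hasDerivAt_right (hφc.intervalIntegrable _ _)
      (hφc.stronglyMeasurableAtFilter _ _) hφc.continuousAt
  have hbound : ∀ t ∈ Icc 0 T, φ t ≤ K * u t := by
    intro t ht
    rw [hφe t ht, hx t ht, hz t ht, h0, add_sub_add_left_eq_sub,
      ← intervalIntegral.integral_sub (hxi t ht) (hzi t ht)]
    have h5 := intervalIntegral.norm_integral_le_of_norm_le (μ := volume) ht.1
      (f := fun s => g s (x s) - g s (z s)) (g := fun s => K * φ s)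
      (Filter.Eventually.of_forall fun s hs => by
        have hs' : s ∈ Icc 0 T := ⟨hs.1.le, hs.2.trans ht.2⟩
        rw [hφe s hs']
        exact hlip s hs')
      (Continuous.intervalIntegrable (by fun_prop) _ _)
    refine h5.trans ?_
    rw [intervalIntegral.integral_const_mul]
  have hgr := norm_le_gronwallBound_of_norm_deriv_right_le (f := u) (f' := φ) (δ := 0) (K := K)
    (ε := 0) (a := 0) (b := T) (fun t _ => (hu t).continuousAt.continuousWithinAt)
    (fun t _ => (hu t).hasDerivWithinAt) (by simp [u]) (by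
      intro t ht
      have h1 := hbound t ⟨ht.1, ht.2.le⟩
      have h2 : 0 ≤ u t := intervalIntegral.integral_nonneg ht.1 fun s _ => hφ0 s
      rw [Real.norm_eq_abs, Real.norm_eq_abs, abs_of_nonneg (hφ0 t), abs_of_nonneg h2]
      linarith)
  intro t ht
  have h1 := hgr t ht
  rw [gronwallBound_ε0_δ0] at h1
  have h2 : u t = 0 := by
    have := norm_nonneg (u t)
    exact norm_eq_zero.1 (le_antisymm h1 this)
  have h3 := hbound t ht
  rw [h2, mul_zero, hφe t ht] at h3
  have h4 : ‖x t - z t‖ = 0 := le_antisymm h3 (norm_nonneg _)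
  exact sub_eq_zero.1 (norm_eq_zero.1 h4)

end Abstract

variable {d : ℕ}

/-- The cut-off time-dependent field is Lipschitz and bounded. -/
theorem exists_cutoff (G : Network d) {kmin kmax : ℝ}
    {k : (Fin d → ℕ) × (Fin d → ℕ) → ℝ → ℝ} (hk : RatesIn G kmin kmax k) (R : ℝ) (hR : 0 < R) :
    ∃ (g : ℝ → (Fin d → ℝ) → Fin d → ℝ) (K L : ℝ), CarLip g K L ∧
      ∀ t, 0 ≤ t → ∀ x ∈ Metric.closedBall (0 : Fin d → ℝ) R, g t x = G.tvField k t x := by
  let φ : ContDiffBump (0 : Fin d → ℝ) := ⟨R, R + 1, hR, by linarith⟩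
  let h : (Fin d → ℕ) × (Fin d → ℕ) → (Fin d → ℝ) → Fin d → ℝ := fun r x =>
    φ x • ((∏ j, x j ^ r.1 j) • (fun i => (r.2 i : ℝ) - (r.1 i : ℝ) : Fin d → ℝ))
  have hhc : ∀ r, ContDiff ℝ 1 (h r) := by
    intro r
    refine φ.contDiff.smul (ContDiff.fun_smul ?_ contDiff_const)
    apply contDiff_prod
    intro j _
    exact (contDiff_apply ℝ ℝ j).pow _
  have hhs : ∀ r, HasCompactSupport (h r) := fun r => φ.hasCompactSupport.smul_right
  have hhK : ∀ r, ∃ K : ℝ≥0, LipschitzWith K (h r) := fun r =>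
    (hhc r).lipschitzWith_of_hasCompactSupport (hhs r) (by simp)
  choose K hK using hhK
  have hhL : ∀ r, ∃ L, ∀ x, ‖h r x‖ ≤ L := fun r =>
    (hhc r).continuous.bounded_above_of_compact_support (hhs r)
  choose L hL using hhL
  set M : ℝ := max |kmin| |kmax| with hM
  have hM0 : 0 ≤ M := (abs_nonneg _).trans (le_max_left _ _)
  have hkM : ∀ r ∈ G.reactions, ∀ t, |k r (max t 0)| ≤ M := by
    intro r hr t
    obtain ⟨h1, h2⟩ := (hk r hr).2 (max t 0) (le_max_right _ _)
    exact abs_le_max_abs_abs h1 h2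
  let g : ℝ → (Fin d → ℝ) → Fin d → ℝ := fun t x => ∑ r ∈ G.reactions, k r (max t 0) • h r x
  refine ⟨g, ∑ r ∈ G.reactions, M * K r, ∑ r ∈ G.reactions, M * |L r|, ?_, ?_⟩
  · refine ⟨Finset.sum_nonneg fun r _ => by (clear * -; positivity),
      Finset.sum_nonneg fun r _ => by (clear * -; positivity), ?_, ?_, ?_⟩
    · intro x hx a b
      have hsum : (fun s => g s (x s)) = ∑ r ∈ G.reactions,
          fun s => k r (max s 0) • h r (x s) := by
        funext s; simp only [Finset.sum_apply, g]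
      rw [hsum]
      refine IntervalIntegrable.sum _ fun r hr => ?_
      have h1 : IntervalIntegrable (fun s => k r (max s 0)) volume a b := by
        rw [intervalIntegrable_iff]
        refine Measure.integrableOn_of_bounded (M := M) (by simp only [uIoc, Real.volume_Ioc, ne_eq, ENNReal.ofReal_ne_top, not_false_eq_true]) ?_ ?_
        · exact (((hk r hr).1).comp (by fun_prop)).aestronglyMeasurable
        · exact Filter.Eventually.of_forall fun s => by
            rw [Real.norm_eq_abs]; exact hkM r hr s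
      have h2 : Continuous (fun s => h r (x s)) := (hhc r).continuous.comp hx
      exact h1.smul_continuousOn h2.continuousOn
    · intro t x y
      show ‖∑ r ∈ G.reactions, k r (max t 0) • h r x -
        ∑ r ∈ G.reactions, k r (max t 0) • h r y‖ ≤ _
      rw [← Finset.sum_sub_distrib, Finset.sum_mul]
      refine (norm_sum_le _ _).trans (Finset.sum_le_sum fun r hr => ?_)
      rw [← smul_sub, norm_smul, Real.norm_eq_abs, mul_assoc]
      have h1 : ‖h r x - h r y‖ ≤ K r * ‖x - y‖ := by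
        have := (hK r).dist_le_mul x y
        rwa [dist_eq_norm, dist_eq_norm] at this
      exact mul_le_mul (hkM r hr t) h1 (norm_nonneg _) hM0
    · intro t x
      refine (norm_sum_le _ _).trans (Finset.sum_le_sum fun r hr => ?_)
      rw [norm_smul, Real.norm_eq_abs]
      exact mul_le_mul (hkM r hr t) ((hL r x).trans (le_abs_self _)) (norm_nonneg _) hM0
  · intro t ht x hx
    show ∑ r ∈ G.reactions, k r (max t 0) • h r x = G.tvField k t x
    unfold Network.tvField Network.field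
    refine Finset.sum_congr rfl fun r _ => ?_
    show k r (max t 0) • (φ x • ((∏ j, x j ^ r.1 j) •
      (fun i => (r.2 i : ℝ) - (r.1 i : ℝ) : Fin d → ℝ))) = _
    rw [φ.one_of_mem_closedBall hx, one_smul, max_eq_left ht, smul_smul]

/-- Existence and uniqueness of Caratheodory solutions from a-priori bounds. -/
theorem tv_global_of_apriori (G : Network d) {kmin kmax : ℝ}
    {k : (Fin d → ℕ) × (Fin d → ℕ) → ℝ → ℝ} (hk : RatesIn G kmin kmax k)
    (x₀ : Fin d → ℝ) (hx₀ : ∀ i, 0 < x₀ i) (κ B : ℝ) (hκ : 0 < κ)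
    (hbox : ∀ b > 0, ∀ x, IsCarSolutionOn (G.tvField k) x b → x 0 = x₀ →
      (∀ t ∈ Set.Ico 0 b, ∀ i, 0 < x t i) →
      ∀ t ∈ Set.Ico 0 b, ∀ i, κ ≤ x t i ∧ x t i ≤ B) :
    (∃ z, IsGlobalCarSolution (G.tvField k) z ∧ z 0 = x₀ ∧
      (∀ t ≥ 0, ∀ i, κ ≤ z t i ∧ z t i ≤ B)) ∧
    (∀ b > 0, ∀ x, IsCarSolutionOn (G.tvField k) x b → x 0 = x₀ →
      ∀ z, IsGlobalCarSolution (G.tvField k) z → z 0 = x₀ → Set.EqOn x z (Set.Ico 0 b)) := by
  constructor
  · -- existence
    obtain ⟨R, hR0, hRx, hRB⟩ : ∃ R : ℝ, 0 < R ∧ ‖x₀‖ < R ∧ B < R := by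
      refine ⟨max (‖x₀‖ + 1) (B + 1), ?_, ?_, ?_⟩
      · have := norm_nonneg x₀
        exact lt_of_lt_of_le (by linarith) (le_max_left _ _)
      · exact lt_of_lt_of_le (by linarith) (le_max_left _ _)
      · exact lt_of_lt_of_le (by linarith) (le_max_right _ _)
    obtain ⟨g, K, L, hg, hgf⟩ := exists_cutoff G hk R hR0
    obtain ⟨z, hzc', hz0, hz⟩ := exists_global_car hg x₀
    have hzc : ContinuousOn z (Ici 0) := hzc'.continuousOn
    let U : Set (Fin d → ℝ) := {y | (∀ i, 0 < y i)} ∩ Metric.ball 0 R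
    have hUo : IsOpen U := by
      apply IsOpen.inter _ Metric.isOpen_ball
      have : {y : Fin d → ℝ | ∀ i, 0 < y i} = ⋂ i, {y : Fin d → ℝ | 0 < y i} := by
        ext y; simp only [mem_ofPred_eq, mem_iInter]
      rw [this]
      exact isOpen_iInter_of_finite fun i => isOpen_lt continuous_const (continuous_apply i)
    have hcar : ∀ b > 0, (∀ t ∈ Ico 0 b, z t ∈ U) → IsCarSolutionOn (G.tvField k) z b := by
      intro b hb hbU
      refine ⟨hzc'.continuousOn, fun t ht => ?_⟩
      rw [hz t ht.1, hz0]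
      congr 1
      apply intervalIntegral.integral_congr
      intro s hs
      rw [uIcc_of_le ht.1] at hs
      exact hgf s hs.1 _ (Metric.ball_subset_closedBall (hbU s ⟨hs.1, lt_of_le_of_lt hs.2 ht.2⟩).2)
    have hsol : ∀ b > 0, (∀ t ∈ Ico 0 b, z t ∈ U) →
        ∀ t ∈ Ico 0 b, ∀ i, κ ≤ z t i ∧ z t i ≤ B := by
      intro b hb hbU
      exact hbox b hb z (hcar b hb hbU) hz0 fun t ht i => (hbU t ht).1 i
    have hU : ∀ t ∈ Ici (0 : ℝ), z t ∈ U := by
      by_contra hcon
      push Not at hcon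
      let A : Set ℝ := {t | t ∈ Ici (0 : ℝ) ∧ z t ∉ U}
      have hAne : A.Nonempty := by
        obtain ⟨t, ht, htU⟩ := hcon
        exact ⟨t, ht, htU⟩
      have hAc : IsClosed A := by
        have h1 : IsClosed (Ici (0 : ℝ) ∩ z ⁻¹' Uᶜ) :=
          hzc.preimage_isClosed_of_isClosed isClosed_Ici hUo.isClosed_compl
        exact h1
      have hAb : BddBelow A := ⟨0, fun t ht => ht.1⟩
      have hbA : sInf A ∈ A := hAc.csInf_mem hAne hAb
      set b := sInf A with hb
      have hb0 : 0 < b := by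
        rcases eq_or_lt_of_le (show (0 : ℝ) ≤ b from hbA.1) with h | h
        · exfalso
          apply hbA.2
          rw [← h, hz0]
          refine ⟨hx₀, ?_⟩
          simpa using hRx
        · exact h
      have hlt : ∀ t ∈ Ico 0 b, z t ∈ U := by
        intro t ht
        by_contra hcon2
        have : b ≤ t := csInf_le hAb ⟨ht.1, hcon2⟩
        exact absurd ht.2 (not_lt.mpr this)
      have hbd := hsol b hb0 hlt
      have hbd' : ∀ i, κ ≤ z b i ∧ z b i ≤ B := by
        intro i
        have hcb : ContinuousWithinAt (fun t => z t i) (Ico 0 b) b := by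
          have h1 : ContinuousWithinAt z (Ici 0) b := hzc b hbA.1
          have h2 : ContinuousWithinAt z (Ico 0 b) b := h1.mono (fun t ht => ht.1)
          exact (continuous_apply i).continuousAt.comp_continuousWithinAt h2
        have hcl : b ∈ closure (Ico 0 b) := by
          rw [closure_Ico hb0.ne]
          exact ⟨hb0.le, le_rfl⟩
        have h3 := hcb.mem_closure hcl (t := Icc κ B) (fun t ht => ⟨(hbd t ht i).1, (hbd t ht i).2⟩)
        rw [isClosed_Icc.closure_eq] at h3
        exact h3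
      apply hbA.2
      refine ⟨fun i => lt_of_lt_of_le hκ (hbd' i).1, ?_⟩
      rw [mem_ball_zero_iff, pi_norm_lt_iff hR0]
      intro i
      rw [Real.norm_eq_abs, abs_of_pos (lt_of_lt_of_le hκ (hbd' i).1)]
      exact lt_of_le_of_lt (hbd' i).2 hRB
    refine ⟨z, ⟨hzc, fun t ht => ?_⟩, hz0, ?_⟩
    · have ht0 : (0 : ℝ) ≤ t := ht
      exact (hcar (t + 1) (by linarith) (fun s hs => hU s hs.1)).2 t ⟨ht, by linarith⟩
    · intro t ht i
      exact hsol (t + 1) (by linarith) (fun s hs => hU s hs.1) t ⟨ht, by linarith⟩ i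
  · -- uniqueness
    intro b hb x hx hx0 z hz hz0 T hT
    have hcx : ContinuousOn x (Icc 0 T) :=
      hx.1.mono fun t ht => ⟨ht.1, lt_of_le_of_lt ht.2 hT.2⟩
    have hcz : ContinuousOn z (Icc 0 T) := hz.1.mono fun t ht => ht.1
    obtain ⟨R1, hR1⟩ := (isCompact_Icc.image_of_continuousOn hcx).isBounded.subset_closedBall 0
    obtain ⟨R2, hR2⟩ := (isCompact_Icc.image_of_continuousOn hcz).isBounded.subset_closedBall 0
    set R := max 1 (max R1 R2) with hR
    obtain ⟨g, K, L, hg, hgf⟩ := exists_cutoff G hk R (lt_of_lt_of_le one_pos (le_max_left _ _))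
    have h1 : ∀ t ∈ Icc 0 T, g t (x t) = G.tvField k t (x t) := by
      intro t ht
      apply hgf t ht.1
      have := hR1 (mem_image_of_mem x ht)
      exact Metric.closedBall_subset_closedBall ((le_max_left _ _).trans (le_max_right _ _)) this
    have h2 : ∀ t ∈ Icc 0 T, g t (z t) = G.tvField k t (z t) := by
      intro t ht
      apply hgf t ht.1
      have := hR2 (mem_image_of_mem z ht)
      exact Metric.closedBall_subset_closedBall ((le_max_right _ _).trans (le_max_right _ _)) this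
    have h3 := unique_car (g := G.tvField k) (K := K) (x := x) (z := z) hT.1 ?_ hcx hcz ?_ ?_ ?_ ?_
      (by rw [hx0, hz0])
    · exact h3 ⟨hT.1, le_rfl⟩
    · intro t ht
      rw [← h1 t ht, ← h2 t ht]
      exact hg.lip t _ _
    · intro t ht
      exact tvField_intervalIntegrable G hk le_rfl ht.1 (hcx.mono (Icc_subset_Icc_right ht.2))
    · intro t ht
      exact tvField_intervalIntegrable G hk le_rfl ht.1 (hcz.mono (Icc_subset_Icc_right ht.2))
    · intro t ht
      exact hx.2 t ⟨ht.1, lt_of_le_of_lt ht.2 hT.2⟩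
    · intro t ht
      exact hz.2 t ht.1

end Vale.Agent.P072
end
end

section

section

/-! # Assembly for time-dependent rates -/

namespace Vale.Agent.P072

open MeasureTheory

variable {d : ℕ}

/-- A positive segment on `[s,t]` driven by some rates with values in `[kmin, kmax]`. -/
def TSeg (G : Network d) (kmin kmax : ℝ) (x : ℝ → Fin d → ℝ) (s t : ℝ) : Prop :=
  (0 ≤ s ∧ ContinuousOn x (Set.Icc s t) ∧ ∃ k, RatesIn G kmin kmax k ∧
    ∀ a b, s ≤ a → a ≤ b → b ≤ t → x b - x a = ∫ r in a..b, G.tvField k r (x r)) ∧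
  (∀ r ∈ Set.Icc s t, ∀ i, 0 < x r i)

theorem TSeg.mono {G : Network d} {kmin kmax : ℝ} {x : ℝ → Fin d → ℝ} {s t s' t' : ℝ}
    (h : TSeg G kmin kmax x s t) (hs : s ≤ s') (ht : t' ≤ t) : TSeg G kmin kmax x s' t' := by
  have hsub : Set.Icc s' t' ⊆ Set.Icc s t := Set.Icc_subset_Icc hs ht
  obtain ⟨⟨h0, hc, k, hk, hi⟩, hp⟩ := h
  exact ⟨⟨h0.trans hs, hc.mono hsub, k, hk, fun a b ha hab hb =>
    hi a b (hs.trans ha) hab (hb.trans ht)⟩, fun r hr => hp r (hsub hr)⟩

theorem TSeg.continuousOn {G : Network d} {kmin kmax : ℝ} {x : ℝ → Fin d → ℝ} {s t : ℝ}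
    (h : TSeg G kmin kmax x s t) : ContinuousOn x (Set.Icc s t) := h.1.2.1

theorem TSeg.continuousOn_apply {G : Network d} {kmin kmax : ℝ} {x : ℝ → Fin d → ℝ} {s t : ℝ}
    (h : TSeg G kmin kmax x s t) (i : Fin d) : ContinuousOn (fun r => x r i) (Set.Icc s t) :=
  fun r hr => (continuous_apply i).continuousAt.comp_continuousWithinAt (h.continuousOn r hr)

theorem TSeg.sub_mem {G : Network d} {kmin kmax : ℝ}
    {x : ℝ → Fin d → ℝ} {s t : ℝ} (hst : s ≤ t) (h : TSeg G kmin kmax x s t) :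
    x t - x s ∈ G.stoich := by
  obtain ⟨⟨h0, hc, k, hk, hi⟩, hp⟩ := h
  by_contra hcon
  obtain ⟨φ, hφ, hφ'⟩ := Submodule.exists_dual_map_eq_bot_of_notMem hcon inferInstance
  apply hφ
  have hzero : ∀ v ∈ G.stoich, φ v = 0 := by
    intro v hv
    have : φ v ∈ G.stoich.map φ := Submodule.mem_map_of_mem hv
    rw [hφ'] at this
    exact this
  let φ' : (Fin d → ℝ) →L[ℝ] ℝ := φ.toContinuousLinearMap
  have hint : IntervalIntegrable (fun r => G.tvField k r (x r)) volume s t :=
    tvField_intervalIntegrable G hk h0 hst hc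
  have h1 := hi s t le_rfl hst le_rfl
  show φ' (x t - x s) = 0
  rw [h1, ← ContinuousLinearMap.intervalIntegral_comp_comm φ' hint]
  have h2 : ∀ r, φ' (G.tvField k r (x r)) = 0 := fun r => hzero _ (field_mem_stoich G _ _)
  simp [h2]

/-- Nonincrease of the potential along a segment. -/
theorem IsUPotential.decrease {G : Network d} {kmin kmax : ℝ}
    {I : Finset (Fin d)} {κ B C η : ℝ} {V : (Fin d → ℝ) → ℝ}
    (hV : IsUPotential G kmin kmax I κ B V C η) {x : ℝ → Fin d → ℝ} {s t : ℝ} (hst : s ≤ t)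
    (hx : TSeg G kmin kmax x s t)
    (hreg : ∀ r ∈ Set.Icc s t, ∀ i ∉ I, κ ≤ x r i ∧ x r i ≤ B) : V (x t) ≤ V (x s) := by
  obtain ⟨⟨h0, hc, k, hk, hi⟩, hpos⟩ := hx
  have h := tv_potential_decrease G hk V I C 0 x s t h0 hst hc hi hpos (by
      intro r hr ε hε
      obtain ⟨p, h1, h2, h3, h4⟩ := hV.grad (x r) (hpos r hr) (hreg r hr) ε hε
      exact ⟨p, h1, h2, h3, fun k' hk' => by simpa only [neg_zero] using (h4 k' hk').1⟩)
  simpa using h

/-- Strict decrease of the potential along a segment. -/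
theorem IsUPotential.decrease_strict {G : Network d} {kmin kmax : ℝ}
    {I : Finset (Fin d)} {κ B C η : ℝ} {V : (Fin d → ℝ) → ℝ}
    (hV : IsUPotential G kmin kmax I κ B V C η) {x : ℝ → Fin d → ℝ} {s t : ℝ} (hst : s ≤ t)
    (hx : TSeg G kmin kmax x s t)
    (hreg : ∀ r ∈ Set.Icc s t, ∀ i ∉ I, κ ≤ x r i ∧ x r i ≤ B) {h m : ℝ} (hh : 0 ≤ h)
    (hm0 : 0 ≤ m)
    (hm : ∀ r ∈ Set.Icc s t, ∀ r' ∈ G.reactions, m ≤ ∏ i, x r i ^ r'.1 i)
    (hp : ∀ r ∈ Set.Icc s t, ∀ p : Fin d → ℝ, (∀ i ∉ I, p i = 0) →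
      (∀ x' : Fin d → ℝ, (∀ i ∈ I, 0 < x' i) →
        V (x r) - 1 / 2 + ∑ i, p i * (x' i - x r i) ≤ V x') →
      (∀ i ∈ I, |p i - Real.log (x r i)| ≤ C) →
      ∃ r' ∈ G.reactions, h ≤ |∑ i, p i * ((r'.2 i : ℝ) - (r'.1 i : ℝ))|) :
    V (x t) ≤ V (x s) - η * h * m * (t - s) := by
  obtain ⟨⟨h0, hc, k, hk, hi⟩, hpos⟩ := hx
  apply tv_potential_decrease G hk V I C (η * h * m) x s t h0 hst hc hi hpos
  intro r hr ε hε
  obtain ⟨p, h1, h2, h3, h4⟩ := hV.grad (x r) (hpos r hr) (hreg r hr) (min ε (1 / 2))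
    (lt_min hε (by norm_num))
  have h2a : ∀ x' : Fin d → ℝ, (∀ i ∈ I, 0 < x' i) →
        V (x r) - ε + ∑ i, p i * (x' i - x r i) ≤ V x' := by
    intro x' hx'
    have := h2 x' hx'
    have h6 := min_le_left ε (1 / 2)
    linarith
  have h2b : ∀ x' : Fin d → ℝ, (∀ i ∈ I, 0 < x' i) →
        V (x r) - 1 / 2 + ∑ i, p i * (x' i - x r i) ≤ V x' := by
    intro x' hx'
    have := h2 x' hx'
    have h6 := min_le_right ε (1 / 2)
    linarith only [this, h6]
  obtain ⟨r', hr', hr''⟩ := hp r hr p h1 h2b h3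
  exact ⟨p, h1, h2a, h3, fun k' hk' => (h4 k' hk').2 h hh r' hr' hr'' m hm0 (hm r hr)⟩

/-- The exit lemma. -/
theorem tv_exit_lemma {G : Network d} {kmin kmax : ℝ}
    {I : Finset (Fin d)} {κ' B C η : ℝ} {V : (Fin d → ℝ) → ℝ}
    (hV : IsUPotential G kmin kmax I κ' B V C η) {ε : ℝ} (hε : 0 < ε) (hεC : Real.log ε + C < 0) :
    ∃ κ > 0, ∀ (x : ℝ → Fin d → ℝ) (s t : ℝ), s ≤ t → TSeg G kmin kmax x s t →
      (∀ r ∈ Set.Icc s t, (∀ i ∈ I, x r i ≤ ε) → ∀ i ∉ I, κ' ≤ x r i ∧ x r i ≤ B) →
      (∃ i ∈ I, ε ≤ x s i) → ∃ i ∈ I, κ ≤ x t i := by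
  set μ := -(ε * (Real.log ε + C)) with hμ
  have hμ0 : 0 < μ := by
    rw [hμ]; nlinarith
  have hcont : Continuous fun y : ℝ => y * (Real.log y - C) := by
    have : (fun y : ℝ => y * (Real.log y - C)) = fun y => y * Real.log y - y * C := by
      ext y; ring
    rw [this]
    exact Real.continuous_mul_log.sub (continuous_id.mul continuous_const)
  have hμd : 0 < μ / (d + 1) := by (clear * - hμ0; positivity)
  obtain ⟨κ₀, hκ₀, hκ⟩ := Metric.continuous_iff.mp hcont 0 (μ / (d + 1)) hμd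
  refine ⟨min κ₀ ε, lt_min hκ₀ hε, ?_⟩
  intro x s t hst hx hreg hs
  by_contra hcon
  push Not at hcon
  let A : Set ℝ := ⋃ i ∈ I, (Set.Icc s t ∩ (fun r => x r i) ⁻¹' Set.Ici ε)
  have hAc : IsClosed A := by
    apply isClosed_biUnion_finset
    intro i _
    exact (hx.continuousOn_apply i).preimage_isClosed_of_isClosed isClosed_Icc isClosed_Ici
  have hmemA : ∀ r, r ∈ A ↔ r ∈ Set.Icc s t ∧ ∃ i ∈ I, ε ≤ x r i := by
    intro r
    simp only [A, Set.mem_iUnion, Set.mem_inter_iff, Set.mem_preimage, Set.mem_Ici]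
    constructor
    · rintro ⟨i, hi, h1, h2⟩; exact ⟨h1, i, hi, h2⟩
    · rintro ⟨h1, i, hi, h2⟩; exact ⟨i, hi, h1, h2⟩
  have hsA : s ∈ A := (hmemA s).2 ⟨⟨le_rfl, hst⟩, hs⟩
  have hAb : BddAbove A := ⟨t, fun r hr => ((hmemA r).1 hr).1.2⟩
  have hs'A : sSup A ∈ A := hAc.csSup_mem ⟨s, hsA⟩ hAb
  set s' := sSup A with hs'def
  obtain ⟨⟨hs'1, hs'2⟩, i₀, hi₀, hi₀ε⟩ := (hmemA s').1 hs'A
  have htA : t ∉ A := by
    intro h
    obtain ⟨_, i, hi, hi'⟩ := (hmemA t).1 h
    have := hcon i hi
    exact absurd (lt_of_lt_of_le this (min_le_right _ _)) (not_lt.mpr hi')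
  have hs't : s' < t := by
    rcases eq_or_lt_of_le hs'2 with h | h
    · exact absurd (h ▸ hs'A) htA
    · exact h
  have hlt : ∀ r ∈ Set.Ioc s' t, ∀ i ∈ I, x r i < ε := by
    intro r hr i hi
    by_contra hc
    push Not at hc
    have : r ∈ A := (hmemA r).2 ⟨⟨hs'1.trans hr.1.le, hr.2⟩, i, hi, hc⟩
    exact absurd (le_csSup hAb this) (not_le.mpr hr.1)
  have hle : ∀ i ∈ I, x s' i ≤ ε := by
    intro i hi
    have h1 : ContinuousWithinAt (fun r => x r i) (Set.Ioc s' t) s' :=
      (hx.continuousOn_apply i s' ⟨hs'1, hs'2⟩).mono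
        (fun r hr => ⟨hs'1.trans hr.1.le, hr.2⟩)
    have hcl : s' ∈ closure (Set.Ioc s' t) := by
      rw [closure_Ioc hs't.ne]
      exact ⟨le_rfl, hs't.le⟩
    have h2 := h1.mem_closure hcl (t := Set.Iic ε) (fun r hr => (hlt r hr i hi).le)
    rw [isClosed_Iic.closure_eq] at h2
    exact h2
  have hseg : TSeg G kmin kmax x s' t := hx.mono hs'1 le_rfl
  have hdec := hV.decrease hs't.le hseg (by
    intro r hr
    apply hreg r ⟨hs'1.trans hr.1, hr.2⟩
    intro i hi
    rcases eq_or_lt_of_le hr.1 with h | h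
    · rw [← h]; exact hle i hi
    · exact (hlt r ⟨h, hr.2⟩ i hi).le)
  have hup : V (x s') ≤ -μ := by
    refine (hV.upper (x s') (fun i _ => hseg.2 s' ⟨le_rfl, hs't.le⟩ i)).trans ?_
    have hterm : ∀ i ∈ I, x s' i * (Real.log (x s' i) + C) ≤ 0 := by
      intro i hi
      have h0 := hseg.2 s' ⟨le_rfl, hs't.le⟩ i
      have h1 : Real.log (x s' i) ≤ Real.log ε := Real.log_le_log h0 (hle i hi)
      exact mul_nonpos_of_nonneg_of_nonpos h0.le (by linarith only [hεC, h1])
    have h1 : ∑ i ∈ I, x s' i * (Real.log (x s' i) + C) ≤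
        x s' i₀ * (Real.log (x s' i₀) + C) := by
      have := Finset.single_le_sum (f := fun i => -(x s' i * (Real.log (x s' i) + C)))
        (fun i hi => by have := hterm i hi; linarith only [this]) hi₀
      simp only [Finset.sum_neg_distrib] at this
      linarith only [this]
    have h2 : x s' i₀ = ε := le_antisymm (hle i₀ hi₀) hi₀ε
    rw [h2] at h1
    linarith only [h1]
  have hlow : -μ < V (x t) := by
    refine lt_of_lt_of_le ?_ (hV.lower (x t) (fun i _ => hseg.2 t ⟨hs't.le, le_rfl⟩ i))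
    have hterm : ∀ i ∈ I, -(μ / (d + 1)) ≤ x t i * (Real.log (x t i) - C) := by
      intro i hi
      have h0 := hseg.2 t ⟨hs't.le, le_rfl⟩ i
      have h1 : dist (x t i) 0 < κ₀ := by
        rw [Real.dist_eq, sub_zero, abs_of_pos h0]
        exact lt_of_lt_of_le (hcon i hi) (min_le_left _ _)
      have h2 := hκ (x t i) h1
      rw [Real.dist_eq] at h2
      have h3 := (abs_lt.mp h2).1
      simp only [zero_mul] at h3
      linarith only [h3]
    have h1 := Finset.sum_le_sum hterm
    rw [Finset.sum_const, nsmul_eq_mul] at h1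
    refine lt_of_lt_of_le ?_ h1
    have h2 : (I.card : ℝ) ≤ d := by
      have := Finset.card_le_univ I
      rw [Fintype.card_fin] at this
      exact_mod_cast this
    have h3 : (I.card : ℝ) * (μ / (d + 1)) ≤ d * (μ / (d + 1)) :=
      mul_le_mul_of_nonneg_right h2 hμd.le
    have h4 : (d : ℝ) * (μ / (d + 1)) < μ := by
      rw [mul_div_assoc', div_lt_iff₀ (by (clear * -; positivity))]
      nlinarith only [hμ0]
    linarith only [h3, h4]
  linarith only [hdec, hup, hlow]

theorem exists_upotential (G : Network d) (hG : G.WeaklyReversible)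
    (kmin kmax : ℝ) (hkmin : 0 < kmin) (hkmax : 0 < kmax)
    (I : Finset (Fin d)) (κ B : ℝ) (hκ : 0 < κ) :
    ∃ (V : (Fin d → ℝ) → ℝ) (C η : ℝ), IsUPotential G kmin kmax I κ B V C η :=
  isUPotential_of_subset G hG kmin kmax hkmin hkmax I κ B hκ (exists_potential_subset I)

/-- The set of positive segments on `[0,t]` with a bound and a lower bound at time `0`
always has one coordinate of `I` above a fixed level. -/
theorem tv_apriori_low (G : Network d) (hG : G.WeaklyReversible)
    (kmin kmax : ℝ) (hkmin : 0 < kmin) (hkmax : 0 < kmax)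
    (B ε₀ : ℝ) (hε₀ : 0 < ε₀) :
    ∀ (n : ℕ) (I : Finset (Fin d)), I.Nonempty → Iᶜ.card < n →
      ∃ κ > 0, ∀ (x : ℝ → Fin d → ℝ) (t : ℝ), 0 ≤ t → TSeg G kmin kmax x 0 t →
        (∀ i, ε₀ ≤ x 0 i) → (∀ r ∈ Set.Icc 0 t, ∀ i, x r i ≤ B) → ∃ i ∈ I, κ ≤ x t i := by
  intro n
  induction n with
  | zero => intro I _ h; exact absurd h (Nat.not_lt_zero _)
  | succ n ih =>
    intro I hI hIn
    have hstep : ∀ j : Fin d, ∃ κ > 0, j ∉ I → ∀ (x : ℝ → Fin d → ℝ) (t : ℝ), 0 ≤ t →
        TSeg G kmin kmax x 0 t → (∀ i, ε₀ ≤ x 0 i) →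
        (∀ r ∈ Set.Icc 0 t, ∀ i, x r i ≤ B) → ∃ i ∈ insert j I, κ ≤ x t i := by
      intro j
      by_cases hj : j ∈ I
      · exact ⟨1, one_pos, fun h => absurd hj h⟩
      · have hcard : (insert j I)ᶜ.card < n := by
          have h1 : (insert j I)ᶜ ⊂ Iᶜ := by
            rw [Finset.compl_ssubset_compl]
            exact Finset.ssubset_insert hj
          have := Finset.card_lt_card h1
          omega
        obtain ⟨κ, hκ, h⟩ := ih (insert j I) (Finset.insert_nonempty _ _) hcard
        exact ⟨κ, hκ, fun _ => h⟩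
    choose κf hκf hκ using hstep
    obtain ⟨κ', hκ', hκ'le⟩ := exists_pos_le κf hκf
    obtain ⟨V, C, η, hV⟩ := exists_upotential G hG kmin kmax hkmin hkmax I κ' B hκ'
    -- choose ε
    obtain ⟨ε, hε0, hε1, hε2, hε3⟩ : ∃ ε : ℝ, 0 < ε ∧ ε < κ' ∧ ε ≤ ε₀ ∧ Real.log ε + C < 0 := by
      obtain ⟨e, he, hle⟩ := exists_pos_le (ι := Fin 3) ![κ' / 2, ε₀, Real.exp (-C - 1)] (by
        intro i; fin_cases i
        · show 0 < κ' / 2; linarith only [hκ']
        · exact hε₀
        · exact Real.exp_pos _)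
      refine ⟨e, he, ?_, hle 1, ?_⟩
      · have := hle 0
        simp only [Matrix.cons_val_zero] at this
        linarith only [he, this]
      · have h2 : e ≤ Real.exp (-C - 1) := hle 2
        have h3 : Real.log e ≤ -C - 1 := (Real.log_le_iff_le_exp he).mpr h2
        linarith only [h3]
    obtain ⟨κ, hκ0, hex⟩ := tv_exit_lemma hV hε0 hε3
    refine ⟨κ, hκ0, ?_⟩
    intro x t ht hx hx0 hxB
    apply hex x 0 t ht hx
    · intro r hr hrI j hj
      refine ⟨?_, hxB r hr j⟩
      obtain ⟨i, hi, hi'⟩ := hκ j hj x r hr.1 (hx.mono le_rfl hr.2) hx0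
        (fun r' hr' => hxB r' ⟨hr'.1, hr'.2.trans hr.2⟩)
      rcases Finset.mem_insert.mp hi with h | h
      · rw [h] at hi'
        exact (hκ'le j).trans hi'
      · exfalso
        have h1 := hrI i h
        have h2 := hκ'le j
        linarith only [hε1, hi', h1, h2]
    · obtain ⟨i, hi⟩ := hI
      exact ⟨i, hi, hε2.trans (hx0 i)⟩

/-- Upper a-priori bound. -/
theorem tv_apriori_up (G : Network d) (hG : G.WeaklyReversible)
    (kmin kmax : ℝ) (hkmin : 0 < kmin) (hkmax : 0 < kmax) (x₀ : Fin d → ℝ) :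
    ∃ B, ∀ (x : ℝ → Fin d → ℝ) (t : ℝ), 0 ≤ t → TSeg G kmin kmax x 0 t → x 0 = x₀ →
      ∀ i, x t i ≤ B := by
  obtain ⟨V, C, η, hV⟩ := exists_upotential G hG kmin kmax hkmin hkmax Finset.univ 1 1 one_pos
  refine ⟨max (Real.exp (C + 1)) (V x₀ + d * Real.exp C), ?_⟩
  intro x t ht hx hx0 i
  have h1 := hV.decrease ht hx (fun r _ i hi => absurd (Finset.mem_univ i) hi)
  rw [hx0] at h1
  have hpos := hx.2 t ⟨ht, le_rfl⟩
  exact bound_of_sum C _ (x t) hpos ((hV.lower (x t) (fun i _ => hpos i)).trans h1) i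

/-- Two-sided a-priori bound. -/
theorem tv_apriori_box (G : Network d) (hG : G.WeaklyReversible)
    (kmin kmax : ℝ) (hkmin : 0 < kmin) (hkmax : 0 < kmax) (x₀ : Fin d → ℝ)
    (hx₀ : ∀ i, 0 < x₀ i) :
    ∃ κ > 0, ∃ B, ∀ (x : ℝ → Fin d → ℝ) (t : ℝ), 0 ≤ t → TSeg G kmin kmax x 0 t → x 0 = x₀ →
      ∀ i, κ ≤ x t i ∧ x t i ≤ B := by
  obtain ⟨B, hB⟩ := tv_apriori_up G hG kmin kmax hkmin hkmax x₀
  obtain ⟨ε₀, hε₀, hε₀le⟩ := exists_pos_le x₀ hx₀
  have h1 : ∀ i : Fin d, ∃ κ > 0, ∀ (x : ℝ → Fin d → ℝ) (t : ℝ), 0 ≤ t →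
      TSeg G kmin kmax x 0 t → (∀ i, ε₀ ≤ x 0 i) → (∀ r ∈ Set.Icc 0 t, ∀ i, x r i ≤ B) →
      κ ≤ x t i := by
    intro i
    obtain ⟨κ, hκ, h⟩ := tv_apriori_low G hG kmin kmax hkmin hkmax B ε₀ hε₀ _ {i} (Finset.singleton_nonempty i)
      (Nat.lt_succ_self _)
    refine ⟨κ, hκ, fun x t ht hx hx0 hxB => ?_⟩
    obtain ⟨j, hj, hj'⟩ := h x t ht hx hx0 hxB
    rw [Finset.mem_singleton] at hj
    rw [hj] at hj'
    exact hj'
  choose κf hκf hκ using h1
  obtain ⟨κ, hκ0, hκle⟩ := exists_pos_le κf hκf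
  refine ⟨κ, hκ0, B, fun x t ht hx hx0 i => ⟨?_, hB x t ht hx hx0 i⟩⟩
  exact (hκle i).trans (hκ i x t ht hx (fun j => by rw [hx0]; exact hε₀le j)
    (fun r hr j => hB x r hr.1 (hx.mono le_rfl hr.2) hx0 j))


/-- global solutions for some rates in `[kmin, kmax]` -/
def TGlobal (G : Network d) (kmin kmax : ℝ) (x : ℝ → Fin d → ℝ) : Prop :=
  ∃ k, RatesIn G kmin kmax k ∧ IsGlobalCarSolution (G.tvField k) x

theorem IsGlobalCarSolution.on {g : ℝ → (Fin d → ℝ) → Fin d → ℝ} {x : ℝ → Fin d → ℝ}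
    (hx : IsGlobalCarSolution g x) (b : ℝ) : IsCarSolutionOn g x b :=
  ⟨hx.1.mono fun _ h => h.1, fun t ht => hx.2 t ht.1⟩

theorem IsCarSolutionOn.tseg {G : Network d} {kmin kmax : ℝ}
    {k : (Fin d → ℕ) × (Fin d → ℕ) → ℝ → ℝ} (hk : RatesIn G kmin kmax k)
    {x : ℝ → Fin d → ℝ} {b s t : ℝ} (hx : IsCarSolutionOn (G.tvField k) x b) (hs : 0 ≤ s)
    (ht : t < b) (hpos : ∀ r ∈ Set.Icc s t, ∀ i, 0 < x r i) : TSeg G kmin kmax x s t :=
  ⟨⟨hs, hx.1.mono fun r hr => ⟨hs.trans hr.1, lt_of_le_of_lt hr.2 ht⟩, k, hk,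
    fun _ _ ha hab hb => car_increment G hk hx (hs.trans ha) hab (lt_of_le_of_lt hb ht)⟩, hpos⟩

theorem TGlobal.seg {G : Network d} {kmin kmax : ℝ} {x : ℝ → Fin d → ℝ} {s t : ℝ}
    (hx : TGlobal G kmin kmax x) (hs : 0 ≤ s) (hpos : ∀ r ≥ 0, ∀ i, 0 < x r i) :
    TSeg G kmin kmax x s t := by
  obtain ⟨k, hk, hx⟩ := hx
  exact (hx.on (t + 1)).tseg hk hs (by linarith) fun r hr => hpos r (hs.trans hr.1)

/-- Existence and uniqueness for given rates. -/
theorem tv_global_exists (G : Network d) (hG : G.WeaklyReversible)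
    (kmin kmax : ℝ) (hkmin : 0 < kmin) (hkmax : 0 < kmax)
    (k : (Fin d → ℕ) × (Fin d → ℕ) → ℝ → ℝ) (hk : RatesIn G kmin kmax k) (x₀ : Fin d → ℝ)
    (hx₀ : ∀ i, 0 < x₀ i) :
    (∃ z, IsGlobalCarSolution (G.tvField k) z ∧ z 0 = x₀) ∧
    (∀ b > 0, ∀ x, IsCarSolutionOn (G.tvField k) x b → x 0 = x₀ →
      ∀ z, IsGlobalCarSolution (G.tvField k) z → z 0 = x₀ → Set.EqOn x z (Set.Ico 0 b)) := by
  obtain ⟨κ, hκ, B, hbox⟩ := tv_apriori_box G hG kmin kmax hkmin hkmax x₀ hx₀
  obtain ⟨⟨z, hz, hz0, hzb⟩, huniq⟩ := tv_global_of_apriori G hk x₀ hx₀ κ B hκ (by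
      intro b hb x hx hx0 hpos t ht
      exact hbox x t ht.1 (hx.tseg hk le_rfl ht.2
        (fun r hr => hpos r ⟨hr.1, lt_of_le_of_lt hr.2 ht.2⟩)) hx0)
  exact ⟨⟨z, hz, hz0⟩, huniq⟩

/-- Global solutions are trapped in a box depending on the initial point only. -/
theorem tv_global_box (G : Network d) (hG : G.WeaklyReversible)
    (kmin kmax : ℝ) (hkmin : 0 < kmin) (hkmax : 0 < kmax) (x₀ : Fin d → ℝ)
    (hx₀ : ∀ i, 0 < x₀ i) :
    ∃ κ > 0, ∃ B, ∀ x, TGlobal G kmin kmax x → x 0 = x₀ →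
      ∀ t ≥ 0, ∀ i, κ ≤ x t i ∧ x t i ≤ B := by
  obtain ⟨κ, hκ, B, hbox⟩ := tv_apriori_box G hG kmin kmax hkmin hkmax x₀ hx₀
  refine ⟨κ, hκ, B, ?_⟩
  rintro x ⟨k, hk, hx⟩ hx0 t ht i
  obtain ⟨⟨z, hz, hz0, hzb⟩, huniq⟩ := tv_global_of_apriori G hk x₀ hx₀ κ B hκ (by
      intro b hb x hx hx0 hpos t ht
      exact hbox x t ht.1 (hx.tseg hk le_rfl ht.2
        (fun r hr => hpos r ⟨hr.1, lt_of_le_of_lt hr.2 ht.2⟩)) hx0)
  have h1 := huniq (t + 1) (by linarith) x (hx.on _) hx0 z hz hz0
    (⟨ht, by linarith⟩ : t ∈ Set.Ico 0 (t + 1))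
  rw [h1]
  exact hzb t ht i

/-- Uniform eventual upper bound. -/
theorem tv_eventual_up (G : Network d) (hG : G.WeaklyReversible)
    (kmin kmax : ℝ) (hkmin : 0 < kmin) (hkmax : 0 < kmax)
    (c : Fin d → ℝ) (hc : ∀ i, 0 < c i) :
    ∃ B, ∀ x, TGlobal G kmin kmax x → x 0 ∈ G.posClass c →
      ∃ t₀ ≥ 0, ∀ t ≥ t₀, ∀ i, x t i ≤ B := by
  obtain ⟨V, C, η, hV⟩ := exists_upotential G hG kmin kmax hkmin hkmax Finset.univ 1 1 one_pos
  refine ⟨max (Real.exp (C + 1)) (V c + 1 + d * Real.exp C), ?_⟩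
  intro x hx hx0
  obtain ⟨κ, hκ, B, hbox⟩ := tv_global_box G hG kmin kmax hkmin hkmax (x 0) hx0.2
  have hbx := hbox x hx rfl
  have hpos : ∀ r ≥ 0, ∀ i, 0 < x r i := fun r hr i => lt_of_lt_of_le hκ (hbx r hr i).1
  have hseg : ∀ s t, 0 ≤ s → TSeg G kmin kmax x s t := fun s t hs => hx.seg hs hpos
  have hreg : ∀ s t : ℝ, ∀ r ∈ Set.Icc s t, ∀ i ∉ (Finset.univ : Finset (Fin d)),
      1 ≤ x r i ∧ x r i ≤ 1 := fun s t r _ i hi => absurd (Finset.mem_univ i) hi
  have hcls : ∀ t ≥ 0, x t - c ∈ G.stoich := by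
    intro t ht
    have h1 := (hseg 0 t le_rfl).sub_mem ht
    have h2 := G.stoich.add_mem h1 hx0.1
    have : x t - c = x t - x 0 + (x 0 - c) := by abel
    rw [this]; exact h2
  have hex : ∃ t₀ ≥ 0, V (x t₀) ≤ V c + 1 := by
    by_contra hcon
    push Not at hcon
    obtain ⟨Mc, hMc⟩ : ∃ Mc, ∀ i, |c i| ≤ Mc := by
      refine ⟨∑ i, |c i|, fun i => ?_⟩
      exact Finset.single_le_sum (f := fun i => |c i|) (fun i _ => abs_nonneg _) (Finset.mem_univ i)
    obtain ⟨h, hh, hlarge⟩ := exists_reaction_large G (|B| + Mc)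
    obtain ⟨m, hm, hmon⟩ := exists_monomial_lower G κ hκ
    have hdec : ∀ t ≥ (0 : ℝ), V (x t) ≤ V (x 0) - (η * h * m) * (t - 0) := by
      intro t ht
      apply hV.decrease_strict ht (hseg 0 t le_rfl) (hreg 0 t) hh.le hm.le
      · intro r hr r' hr'
        exact hmon (x r) (fun i => (hbx r hr.1 i).1) r' hr'
      · intro r hr p _ h2 _
        apply hlarge (x r - c) (hcls r hr.1)
        · intro i
          have h5 := hbx r hr.1 i
          have h6 := hMc i
          have h7 : |x r i| ≤ |B| := by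
            rw [abs_of_pos (hpos r hr.1 i)]
            exact h5.2.trans (le_abs_self B)
          calc |(x r - c) i| = |x r i - c i| := rfl
            _ ≤ |x r i| + |c i| := abs_sub _ _
            _ ≤ |B| + Mc := add_le_add h7 h6
        · have h5 := h2 c (fun i _ => hc i)
          have h6 := hcon r hr.1
          have h7 : ∑ i, p i * (x r - c) i = - ∑ i, p i * (c i - x r i) := by
            rw [← Finset.sum_neg_distrib]
            refine Finset.sum_congr rfl fun i _ => ?_
            rw [Pi.sub_apply]; ring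
          rw [h7]
          linarith only [h5, h6]
    have hρ : 0 < η * h * m := mul_pos (mul_pos hV.η_pos hh) hm
    refine no_linear_decrease hρ (s := 0) (v := fun t => V (x t)) (A := -(d * Real.exp C))
      hdec ?_
    intro t ht
    exact (sum_ge Finset.univ C (x t) (fun i _ => hpos t ht i)).trans
      (hV.lower (x t) (fun i _ => hpos t ht i))
  obtain ⟨t₀, ht₀, hVt₀⟩ := hex
  refine ⟨t₀, ht₀, fun t ht i => ?_⟩
  have h1 := hV.decrease ht (hseg t₀ t ht₀) (hreg t₀ t)
  have hpt := hpos t (ht₀.trans ht)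
  exact bound_of_sum C _ (x t) hpt
    (((hV.lower (x t) (fun i _ => hpt i)).trans h1).trans hVt₀) i

/-- Uniform eventual lower bounds, by downward induction. -/
theorem tv_eventual_low (G : Network d) (hG : G.WeaklyReversible)
    (kmin kmax : ℝ) (hkmin : 0 < kmin) (hkmax : 0 < kmax)
    (c : Fin d → ℝ) (hc : ∀ i, 0 < c i) (B : ℝ)
    (hB : ∀ x, TGlobal G kmin kmax x → x 0 ∈ G.posClass c →
      ∃ t₀ ≥ 0, ∀ t ≥ t₀, ∀ i, x t i ≤ B) :
    ∀ (n : ℕ) (I : Finset (Fin d)), I.Nonempty → Iᶜ.card < n →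
      ∃ κ > 0, ∀ x, TGlobal G kmin kmax x → x 0 ∈ G.posClass c →
        ∃ t₀ ≥ 0, ∀ t ≥ t₀, ∃ i ∈ I, κ ≤ x t i := by
  intro n
  induction n with
  | zero => intro I _ h; exact absurd h (Nat.not_lt_zero _)
  | succ n ih =>
    intro I hI hIn
    have hstep : ∀ j : Fin d, ∃ κ > 0, j ∉ I → ∀ x, TGlobal G kmin kmax x →
        x 0 ∈ G.posClass c → ∃ t₀ ≥ 0, ∀ t ≥ t₀, ∃ i ∈ insert j I, κ ≤ x t i := by
      intro j
      by_cases hj : j ∈ I
      · exact ⟨1, one_pos, fun h => absurd hj h⟩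
      · have hcard : (insert j I)ᶜ.card < n := by
          have h1 : (insert j I)ᶜ ⊂ Iᶜ := by
            rw [Finset.compl_ssubset_compl]
            exact Finset.ssubset_insert hj
          have := Finset.card_lt_card h1
          omega
        obtain ⟨κ, hκ, h⟩ := ih (insert j I) (Finset.insert_nonempty _ _) hcard
        exact ⟨κ, hκ, fun _ => h⟩
    choose κf hκf hκ using hstep
    obtain ⟨κ', hκ', hκ'le⟩ := exists_pos_le κf hκf
    obtain ⟨V, C, η, hV⟩ := exists_upotential G hG kmin kmax hkmin hkmax I κ' B hκ'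
    obtain ⟨cm, hcm0, hcm⟩ := exists_pos_le c hc
    -- choose ε
    obtain ⟨ε, hε0, hε1, hε2, hε3, hε4⟩ : ∃ ε : ℝ, 0 < ε ∧ ε < κ' ∧ ε ≤ cm / 2 ∧
        Real.log ε + C < 0 ∧ Real.log ε + C ≤ -(1 / cm) := by
      obtain ⟨e, he, hle⟩ := exists_pos_le (ι := Fin 4)
        ![κ' / 2, cm / 2, Real.exp (-C - 1), Real.exp (-C - 1 / cm)] (by
        intro i; fin_cases i
        · show 0 < κ' / 2; linarith only [hκ']
        · show 0 < cm / 2; linarith only [hcm0]
        · exact Real.exp_pos _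
        · exact Real.exp_pos _)
      refine ⟨e, he, ?_, hle 1, ?_, ?_⟩
      · have := hle 0
        simp only [Matrix.cons_val_zero] at this
        linarith only [he, this]
      · have h2 : e ≤ Real.exp (-C - 1) := hle 2
        have h3 : Real.log e ≤ -C - 1 := (Real.log_le_iff_le_exp he).mpr h2
        linarith only [h3]
      · have h2 : e ≤ Real.exp (-C - 1 / cm) := hle 3
        have h3 : Real.log e ≤ -C - 1 / cm := (Real.log_le_iff_le_exp he).mpr h2
        linarith only [h3]
    obtain ⟨κ, hκ0, hex⟩ := tv_exit_lemma hV hε0 hε3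
    refine ⟨κ, hκ0, ?_⟩
    intro x hx hx0
    obtain ⟨κx, hκx, Bx, hbox⟩ := tv_global_box G hG kmin kmax hkmin hkmax (x 0) hx0.2
    have hbx := hbox x hx rfl
    have hpos : ∀ r ≥ 0, ∀ i, 0 < x r i := fun r hr i => lt_of_lt_of_le hκx (hbx r hr i).1
    have hseg : ∀ s t, 0 ≤ s → TSeg G kmin kmax x s t := fun s t hs => hx.seg hs hpos
    have hcls : ∀ t ≥ 0, x t - c ∈ G.stoich := by
      intro t ht
      have h1 := (hseg 0 t le_rfl).sub_mem ht
      have h2 := G.stoich.add_mem h1 hx0.1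
      have : x t - c = x t - x 0 + (x 0 - c) := by abel
      rw [this]; exact h2
    -- a common time after which all earlier bounds hold
    obtain ⟨t₁, ht₁, hall⟩ : ∃ t₁ ≥ (0 : ℝ), ∀ t ≥ t₁, (∀ i, x t i ≤ B) ∧
        ∀ j ∉ I, ∃ i ∈ insert j I, κf j ≤ x t i := by
      obtain ⟨tB, htB, hBt⟩ := hB x hx hx0
      have h1 : ∀ j : Fin d, ∃ tj : ℝ, j ∉ I → ∀ t ≥ tj, ∃ i ∈ insert j I, κf j ≤ x t i := by
        intro j
        by_cases hj : j ∈ I
        · exact ⟨0, fun h => absurd hj h⟩
        · obtain ⟨tj, _, h⟩ := hκ j hj x hx hx0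
          exact ⟨tj, fun _ => h⟩
      choose tj htj using h1
      refine ⟨tB + ∑ j, |tj j|, by (clear * - htB; positivity), fun t ht => ⟨?_, ?_⟩⟩
      · apply hBt t
        have : 0 ≤ ∑ j, |tj j| := Finset.sum_nonneg fun _ _ => abs_nonneg _
        linarith only [ht, this]
      · intro j hj
        apply htj j hj t
        have h2 : |tj j| ≤ ∑ j, |tj j| :=
          Finset.single_le_sum (f := fun j => |tj j|) (fun i _ => abs_nonneg _)
            (Finset.mem_univ j)
        have h3 := le_abs_self (tj j)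
        linarith only [htB, ht, h2, h3]
    have hreg' : ∀ r ≥ t₁, (∀ i ∈ I, x r i ≤ ε) → ∀ i ∉ I, κ' ≤ x r i ∧ x r i ≤ B := by
      intro r hr hrI j hj
      obtain ⟨h1, h2⟩ := hall r hr
      refine ⟨?_, h1 j⟩
      obtain ⟨i, hi, hi'⟩ := h2 j hj
      rcases Finset.mem_insert.mp hi with h | h
      · rw [h] at hi'
        exact (hκ'le j).trans hi'
      · exfalso
        have h1 := hrI i h
        have h2 := hκ'le j
        linarith only [hε1, hi', h1, h2]
    have hvisit : ∃ s ≥ t₁, ∃ i ∈ I, ε ≤ x s i := by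
      by_contra hcon
      push Not at hcon
      obtain ⟨Mc, hMc⟩ : ∃ Mc, ∀ i, |c i| ≤ Mc := by
        refine ⟨∑ i, |c i|, fun i => ?_⟩
        exact Finset.single_le_sum (f := fun i => |c i|) (fun i _ => abs_nonneg _)
          (Finset.mem_univ i)
      obtain ⟨h, hh, hlarge⟩ := exists_reaction_large G (|Bx| + Mc)
      obtain ⟨m, hm, hmon⟩ := exists_monomial_lower G κx hκx
      have hdec : ∀ t ≥ t₁, V (x t) ≤ V (x t₁) - (η * h * m) * (t - t₁) := by
        intro t ht
        apply hV.decrease_strict ht (hseg t₁ t ht₁) _ hh.le hm.le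
        · intro r hr r' hr'
          exact hmon (x r) (fun i => (hbx r (ht₁.trans hr.1) i).1) r' hr'
        · intro r hr p hp0 _ h3
          have hr0 : 0 ≤ r := ht₁.trans hr.1
          apply hlarge (x r - c) (hcls r hr0)
          · intro i
            have h5 := hbx r hr0 i
            have h6 := hMc i
            have h7 : |x r i| ≤ |Bx| := by
              rw [abs_of_pos (hpos r hr0 i)]
              exact h5.2.trans (le_abs_self Bx)
            calc |(x r - c) i| = |x r i - c i| := rfl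
              _ ≤ |x r i| + |c i| := abs_sub _ _
              _ ≤ |Bx| + Mc := add_le_add h7 h6
          · -- p · (x - c) ≥ 1/2
            have h7 : ∑ i, p i * (x r - c) i = ∑ i ∈ I, p i * (x r - c) i := by
              symm
              apply Finset.sum_subset (Finset.subset_univ I)
              intro i _ hi
              rw [hp0 i hi, zero_mul]
            rw [h7]
            have hterm : ∀ i ∈ I, 1 / 2 ≤ p i * (x r - c) i := by
              intro i hi
              have h8 := hcon r hr.1 i hi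
              have h9 : Real.log (x r i) ≤ Real.log ε := Real.log_le_log (hpos r hr0 i) h8.le
              have h10 := (abs_le.mp (h3 i hi)).2
              have h11 : p i ≤ -(1 / cm) := by linarith only [hε4, h9, h10]
              have h12 : (x r - c) i ≤ -(cm / 2) := by
                have := hcm i
                rw [Pi.sub_apply]; linarith only [hε2, h8, this]
              have h13 : 0 < 1 / cm := by positivity
              have h14 : (1 / cm) * (cm / 2) ≤ (-p i) * (-(x r - c) i) :=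
                mul_le_mul (by linarith only [hε4, h9, h10]) (by linarith only [h12]) (by positivity) (by linarith only [hε3, h9, h10])
              have h15 : (1 / cm) * (cm / 2) = 1 / 2 := by field_simp
              linarith only [h14, h15]
            obtain ⟨i₀, hi₀⟩ := hI
            have h8 := Finset.single_le_sum (f := fun i => p i * (x r - c) i)
              (fun i hi => le_trans (by norm_num) (hterm i hi)) hi₀
            exact (hterm i₀ hi₀).trans h8
        · intro r hr
          exact hreg' r hr.1 (fun i hi => (hcon r hr.1 i hi).le)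
      have hρ : 0 < η * h * m := mul_pos (mul_pos hV.η_pos hh) hm
      refine no_linear_decrease hρ (s := t₁) (v := fun t => V (x t)) (A := -(d * Real.exp C))
        hdec ?_
      intro t ht
      exact (sum_ge I C (x t) (fun i _ => hpos t (ht₁.trans ht) i)).trans
        (hV.lower (x t) (fun i _ => hpos t (ht₁.trans ht) i))
    obtain ⟨s, hs, hsI⟩ := hvisit
    refine ⟨s, ht₁.trans hs, fun t ht => ?_⟩
    exact hex x s t ht (hseg s t (ht₁.trans hs)) (fun r hr => hreg' r (hs.trans hr.1)) hsI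

/-- MAIN: permanence, uniformly over all Borel measurable time-dependent rates with values
in `[kmin, kmax]` at all times. -/
theorem tv_permanence_aux (G : Network d) (hG : G.WeaklyReversible) (kmin kmax : ℝ)
    (hkmin : 0 < kmin) (hkmax : 0 < kmax) (c : Fin d → ℝ) (hc : ∀ i, 0 < c i) :
    (∀ k, RatesIn G kmin kmax k → ∀ x₀ ∈ G.posClass c,
      ∃ x, IsGlobalCarSolution (G.tvField k) x ∧ x 0 = x₀) ∧
    (∀ k, RatesIn G kmin kmax k → ∀ b > 0, ∀ x, IsCarSolutionOn (G.tvField k) x b →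
      x 0 ∈ G.posClass c →
      ∃ z, IsGlobalCarSolution (G.tvField k) z ∧ Set.EqOn x z (Set.Ico 0 b)) ∧
    (∀ k, RatesIn G kmin kmax k → ∀ x, IsGlobalCarSolution (G.tvField k) x →
      x 0 ∈ G.posClass c → ∀ t ≥ 0, ∀ i, 0 < x t i) ∧
    ∃ K ⊆ G.posClass c, IsCompact K ∧
      ∀ k, RatesIn G kmin kmax k → ∀ x, IsGlobalCarSolution (G.tvField k) x →
        x 0 ∈ G.posClass c → ∃ t₀, ∀ t ≥ t₀, x t ∈ K := by
  refine ⟨?_, ?_, ?_, ?_⟩
  · intro k hk x₀ hx₀
    exact (tv_global_exists G hG kmin kmax hkmin hkmax k hk x₀ hx₀.2).1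
  · intro k hk b hb x hx hx0
    obtain ⟨⟨z, hz, hz0⟩, huniq⟩ :=
      tv_global_exists G hG kmin kmax hkmin hkmax k hk (x 0) hx0.2
    exact ⟨z, hz, huniq b hb x hx rfl z hz hz0⟩
  · intro k hk x hx hx0 t ht i
    obtain ⟨κ, hκ, B, hbox⟩ := tv_global_box G hG kmin kmax hkmin hkmax (x 0) hx0.2
    exact lt_of_lt_of_le hκ (hbox x ⟨k, hk, hx⟩ rfl t ht i).1
  · obtain ⟨B, hB⟩ := tv_eventual_up G hG kmin kmax hkmin hkmax c hc
    have h1 : ∀ i : Fin d, ∃ κ > 0, ∀ x, TGlobal G kmin kmax x →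
        x 0 ∈ G.posClass c → ∃ t₀ ≥ 0, ∀ t ≥ t₀, κ ≤ x t i := by
      intro i
      obtain ⟨κ, hκ, h⟩ := tv_eventual_low G hG kmin kmax hkmin hkmax c hc B hB _ {i}
        (Finset.singleton_nonempty i) (Nat.lt_succ_self _)
      refine ⟨κ, hκ, fun x hx hx0 => ?_⟩
      obtain ⟨t₀, ht₀, h'⟩ := h x hx hx0
      refine ⟨t₀, ht₀, fun t ht => ?_⟩
      obtain ⟨j, hj, hj'⟩ := h' t ht
      rw [Finset.mem_singleton] at hj
      rw [hj] at hj'
      exact hj'
    choose κf hκf hκ using h1
    obtain ⟨κ, hκ0, hκle⟩ := exists_pos_le κf hκf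
    refine ⟨{y | y - c ∈ G.stoich ∧ ∀ i, κ ≤ y i ∧ y i ≤ B}, ?_, isCompact_box_class G c κ B, ?_⟩
    · intro y hy
      exact ⟨hy.1, fun i => lt_of_lt_of_le hκ0 (hy.2 i).1⟩
    · intro k hk x hx' hx0
      have hx : TGlobal G kmin kmax x := ⟨k, hk, hx'⟩
      obtain ⟨κx, hκx, Bx, hbox⟩ := tv_global_box G hG kmin kmax hkmin hkmax (x 0) hx0.2
      have hbx := hbox x hx rfl
      have hpos : ∀ r ≥ 0, ∀ i, 0 < x r i := fun r hr i => lt_of_lt_of_le hκx (hbx r hr i).1
      obtain ⟨tB, htB, hBt⟩ := hB x hx hx0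
      have h2 : ∀ i, ∃ t₀ ≥ 0, ∀ t ≥ t₀, κf i ≤ x t i := fun i => hκ i x hx hx0
      choose ti hti0 hti using h2
      refine ⟨tB + ∑ j, ti j, fun t ht => ?_⟩
      have hsum : 0 ≤ ∑ j, ti j := Finset.sum_nonneg fun j _ => hti0 j
      have ht0 : 0 ≤ t := by linarith
      refine ⟨?_, fun i => ⟨(hκle i).trans (hti i t ?_), hBt t (by linarith) i⟩⟩
      · have h3 := (hx.seg (s := 0) (t := t) le_rfl hpos).sub_mem ht0
        have h4 := G.stoich.add_mem h3 hx0.1
        have : x t - c = x t - x 0 + (x 0 - c) := by abel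
        rw [this]; exact h4
      · have h3 : ti i ≤ ∑ j, ti j :=
          Finset.single_le_sum (f := ti) (fun j _ => hti0 j) (Finset.mem_univ i)
        linarith only [htB, ht, h3]

/-- Almost everywhere defined rates can be replaced by Borel measurable rates with values in
`[ε, ε⁻¹]` at all times without changing the solutions. -/
theorem Admissible.exists_ratesIn {G : Network d} {ε : ℝ}
    {k : (Fin d → ℕ) × (Fin d → ℕ) → ℝ → ℝ} (hk : Admissible G ε k) :
    ∃ k', RatesIn G ε ε⁻¹ k' ∧ ∀ᵐ t : ℝ, 0 ≤ t → ∀ x, G.tvField k t x = G.tvField k' t x := by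
  classical
  have h1 : ∀ r, ∃ f : ℝ → ℝ, r ∈ G.reactions →
      (Measurable f ∧ ∀ᵐ t : ℝ, 0 ≤ t → k r t = f t) := by
    intro r
    by_cases hr : r ∈ G.reactions
    · refine ⟨(hk r hr).1.mk (k r), fun _ => ⟨(hk r hr).1.measurable_mk, ?_⟩⟩
      have := (hk r hr).1.ae_eq_mk
      rw [Filter.EventuallyEq, ae_restrict_iff' measurableSet_Ici] at this
      exact this
    · exact ⟨0, fun h => absurd h hr⟩
  choose f hf using h1
  refine ⟨fun r t => max ε (min ε⁻¹ (f r t)), ?_, ?_⟩
  · intro r hr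
    refine ⟨measurable_const.max (measurable_const.min (hf r hr).1), fun t _ => ⟨le_max_left _ _, ?_⟩⟩
    refine max_le ?_ (min_le_left _ _)
    by_contra hcon
    have h2 : ∀ᵐ t : ℝ, ¬ (0 ≤ t) := by
      filter_upwards [(hk r hr).2] with t ht h0
      exact hcon ((ht h0).1.trans (ht h0).2)
    have h3 : volume (Set.Ici (0 : ℝ)) = 0 := by
      have := (ae_iff.1 h2)
      simpa only [Set.Ici, not_le, not_lt] using this
    simp at h3
  · have h4 : ∀ r ∈ G.reactions, ∀ᵐ t : ℝ, 0 ≤ t → k r t = max ε (min ε⁻¹ (f r t)) := by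
      intro r hr
      filter_upwards [(hk r hr).2, (hf r hr).2] with t h5 h6 h0
      rw [← h6 h0, min_eq_right (h5 h0).2, max_eq_right (h5 h0).1]
    have h5 : ∀ᵐ t : ℝ, ∀ r ∈ G.reactions, 0 ≤ t → k r t = max ε (min ε⁻¹ (f r t)) :=
      (Filter.eventually_all_finset G.reactions).2 h4
    filter_upwards [h5] with t ht h0 x
    refine Finset.sum_congr rfl fun r hr => ?_
    show (k r t * _) • _ = (max ε (min ε⁻¹ (f r t)) * _) • _
    rw [ht r hr h0]

theorem integral_tvField_congr {G : Network d} {k k' : (Fin d → ℕ) × (Fin d → ℕ) → ℝ → ℝ}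
    (h : ∀ᵐ t : ℝ, 0 ≤ t → ∀ x, G.tvField k t x = G.tvField k' t x) (x : ℝ → Fin d → ℝ)
    {t : ℝ} (ht : 0 ≤ t) :
    ∫ s in (0 : ℝ)..t, G.tvField k s (x s) = ∫ s in (0 : ℝ)..t, G.tvField k' s (x s) := by
  refine intervalIntegral.integral_congr_ae ?_
  filter_upwards [h] with s hs hs'
  rw [Set.uIoc_of_le ht] at hs'
  exact hs hs'.1.le (x s)

theorem isCarSolutionOn_congr {G : Network d} {k k' : (Fin d → ℕ) × (Fin d → ℕ) → ℝ → ℝ}
    (h : ∀ᵐ t : ℝ, 0 ≤ t → ∀ x, G.tvField k t x = G.tvField k' t x) (x : ℝ → Fin d → ℝ)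
    (b : ℝ) : IsCarSolutionOn (G.tvField k) x b ↔ IsCarSolutionOn (G.tvField k') x b := by
  refine and_congr Iff.rfl (forall₂_congr fun t ht => ?_)
  rw [integral_tvField_congr h x ht.1]

theorem isGlobalCarSolution_congr {G : Network d}
    {k k' : (Fin d → ℕ) × (Fin d → ℕ) → ℝ → ℝ}
    (h : ∀ᵐ t : ℝ, 0 ≤ t → ∀ x, G.tvField k t x = G.tvField k' t x) (x : ℝ → Fin d → ℝ) :
    IsGlobalCarSolution (G.tvField k) x ↔ IsGlobalCarSolution (G.tvField k') x := by
  refine and_congr Iff.rfl (forall₂_congr fun t ht => ?_)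
  rw [integral_tvField_congr h x ht]

/-- MAIN: permanence, uniformly over all measurable time-dependent rates. -/
theorem tv_permanence (G : Network d) (hG : G.WeaklyReversible) (ε : ℝ) (hε : 0 < ε)
    (c : Fin d → ℝ) (hc : ∀ i, 0 < c i) :
    G.UniformlyPermanentOn ε (G.posClass c) := by
  obtain ⟨h1, h2, h3, K, hKP, hK, h4⟩ :=
    tv_permanence_aux G hG ε ε⁻¹ hε (inv_pos.2 hε) c hc
  refine ⟨?_, ?_, ?_, K, hKP, hK, ?_⟩
  · intro k hk x₀ hx₀
    obtain ⟨k', hk', hkk'⟩ := hk.exists_ratesIn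
    obtain ⟨x, hx, hx0⟩ := h1 k' hk' x₀ hx₀
    exact ⟨x, (isGlobalCarSolution_congr hkk' x).2 hx, hx0⟩
  · intro k hk b hb x hx hx0
    obtain ⟨k', hk', hkk'⟩ := hk.exists_ratesIn
    obtain ⟨z, hz, hz'⟩ := h2 k' hk' b hb x ((isCarSolutionOn_congr hkk' x b).1 hx) hx0
    exact ⟨z, (isGlobalCarSolution_congr hkk' z).2 hz, hz'⟩
  · intro k hk x hx hx0
    obtain ⟨k', hk', hkk'⟩ := hk.exists_ratesIn
    exact h3 k' hk' x ((isGlobalCarSolution_congr hkk' x).1 hx) hx0
  · intro k hk x hx hx0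
    obtain ⟨k', hk', hkk'⟩ := hk.exists_ratesIn
    exact h4 k' hk' x ((isGlobalCarSolution_congr hkk' x).1 hx) hx0

end Vale.Agent.P072
end
end
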